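import Vale.Agent.P092.H15.ClHM
import Vale.Agent.P092.H933.HM4
import Mathlib.MeasureTheory.Measure.Haar.Basic
import Mathlib.MeasureTheory.Group.Integral

/-!
P092 (helper956), Team P, block [P-GAP], part 3: Lipschitz vectors are dense in every unitary
representation of a closed subgroup of `SL_n(k)`, `k` any local field (smoothing by Haar measure).
-/

set_option linter.all false

namespace Vale.Agent.P092.H956

open Filter Topology Vale.Agent.P092.H933 Matrix MeasureTheory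

open scoped InnerProductSpace

section pn

variable {n : Type} [Fintype n] {k : Type} [NormedField k]

/-- the maximal entry of a matrix -/
noncomputable def pn (M : Matrix n n k) : ℝ := @norm (n → n → k) _ M

theorem pn_nonneg (M : Matrix n n k) : 0 ≤ pn M := norm_nonneg (E := n → n → k) M

theorem le_pn (M : Matrix n n k) (i j : n) : ‖M i j‖ ≤ pn M :=
  (norm_le_pi_norm (G := fun _ : n => k) (M i) j).trans
    (norm_le_pi_norm (G := fun _ : n => n → k) (M : n → n → k) i)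

theorem pn_le {M : Matrix n n k} {r : ℝ} (hr : 0 ≤ r) (h : ∀ i j, ‖M i j‖ ≤ r) : pn M ≤ r :=
  (pi_norm_le_iff_of_nonneg (G := fun _ : n => n → k) hr).2 fun i =>
    (pi_norm_le_iff_of_nonneg (G := fun _ : n => k) hr).2 fun j => h i j

theorem pn_mul (M N : Matrix n n k) : pn (M * N) ≤ Fintype.card n * (pn M * pn N) := by
  have h0 : 0 ≤ pn M * pn N := mul_nonneg (pn_nonneg _) (pn_nonneg _)
  refine pn_le (by positivity) fun i j => ?_
  rw [Matrix.mul_apply]
  refine (norm_sum_le _ _).trans ?_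
  refine (Finset.sum_le_sum fun l _ => (norm_mul_le _ _).trans
    (mul_le_mul (le_pn M i l) (le_pn N l j) (norm_nonneg _) (pn_nonneg M))).trans (le_of_eq ?_)
  rw [Finset.sum_const, Finset.card_univ, nsmul_eq_mul]

theorem abs_pn_sub (M N : Matrix n n k) : |pn M - pn N| ≤ pn (M - N) :=
  abs_norm_sub_norm_le (E := n → n → k) M N

theorem pn_sub_rev (M N : Matrix n n k) : pn (M - N) = pn (N - M) :=
  norm_sub_rev (E := n → n → k) M N

theorem pn_add_le (M N : Matrix n n k) : pn (M + N) ≤ pn M + pn N :=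
  norm_add_le (E := n → n → k) M N

theorem continuous_pn : Continuous (fun M : Matrix n n k => pn M) :=
  continuous_norm (E := n → n → k)

theorem pn_one_le [DecidableEq n] : pn (1 : Matrix n n k) ≤ 1 := by
  refine pn_le zero_le_one fun i j => ?_
  rw [Matrix.one_apply]
  split_ifs <;> simp

end pn

section gard

variable {n : Type} [Fintype n] [DecidableEq n] {k : Type} [NontriviallyNormedField k]
  {G : Subgroup (SpecialLinearGroup n k)}
  {𝓗 : Type*} [NormedAddCommGroup 𝓗] [InnerProductSpace ℂ 𝓗]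

/-- Lipschitz vectors of a representation -/
def Lips (σ : G →* (𝓗 →L[ℂ] 𝓗)) : Set 𝓗 :=
  {ζ | ∃ C : ℝ, 0 ≤ C ∧ ∀ h : G, ‖σ h ζ - ζ‖ ≤ C * pn (h.1.1 - 1)}

theorem cont_val : Continuous fun g : G => g.1.1 :=
  continuous_subtype_val.comp continuous_subtype_val

/-- the neighbourhoods of `1` -/
theorem exists_ball (hG : IsClosed (G : Set (SpecialLinearGroup n k))) {p : G → Prop}
    (hp : ∀ᶠ g in 𝓝 (1 : G), p g) : ∃ r > 0, ∀ g : G, pn (g.1.1 - 1) ≤ r → p g := by
  have h1 : IsClosedEmbedding fun g : G => g.1.1 :=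
    (H303.isClosedEmbedding_val (n := n) (k := k)).comp hG.isClosedEmbedding_subtypeVal
  rw [h1.isEmbedding.toIsInducing.nhds_eq_comap, eventually_comap] at hp
  have hp' : ∀ᶠ y : n → n → k in 𝓝 ((1 : G).1.1 : n → n → k), ∀ a : G,
      (a.1.1 : n → n → k) = y → p a := hp
  obtain ⟨r, hr, h2⟩ := Metric.eventually_nhds_iff.1 hp'
  refine ⟨r / 2, by positivity, fun g hg => ?_⟩
  have e : @dist (n → n → k) _ g.1.1 (1 : G).1.1 = pn (g.1.1 - 1) :=
    @dist_eq_norm (n → n → k) _ g.1.1 (1 : G).1.1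
  exact h2 (y := (g.1.1 : n → n → k)) (lt_of_le_of_lt (e.le.trans hg) (half_lt_self hr)) g rfl

theorem inv_sub_one (h : G) : ((h⁻¹ : G).1.1 - 1 : Matrix n n k) = (h⁻¹ : G).1.1 * (1 - h.1.1) := by
  have e : (h⁻¹ : G).1.1 * h.1.1 = 1 := congrArg (fun g : G => g.1.1) (inv_mul_cancel h)
  rw [Matrix.mul_sub, e, Matrix.mul_one]

variable [ProperSpace k] [CompleteSpace 𝓗]

/-- **Lipschitz vectors are dense.** -/
theorem dense_lips (hG : IsClosed (G : Set (SpecialLinearGroup n k))) {σ : G →* (𝓗 →L[ℂ] 𝓗)}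
    (hσ : URep σ) : Dense (Lips σ) := by
  intro ξ
  rw [Metric.mem_closure_iff]
  intro ε hε
  haveI : LocallyCompactSpace G := by
    haveI := H303.locallyCompact_SL (n := n) (k := k)
    exact hG.isClosedEmbedding_subtypeVal.locallyCompactSpace
  letI : MeasurableSpace G := borel G
  haveI : BorelSpace G := ⟨rfl⟩
  obtain ⟨μ, hμ⟩ : ∃ μ : Measure G, μ = Measure.haar := ⟨_, rfl⟩
  haveI : μ.IsHaarMeasure := by rw [hμ]; infer_instance
  -- the bump function
  obtain ⟨r, hr, hr'⟩ := exists_ball hG (p := fun g => ‖σ g ξ - ξ‖ ≤ ε / 2) (by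
    have h1 := tendsto_iff_norm_sub_tendsto_zero.1 (hσ.cont ξ)
    filter_upwards [h1.eventually (gt_mem_nhds (half_pos hε))] with g hg
    exact hg.le)
  obtain ⟨φ, hφ⟩ : ∃ φ : G → ℝ, φ = fun g => max 0 (1 - pn (g.1.1 - 1) / r) := ⟨_, rfl⟩
  have hφc : Continuous φ := by
    rw [hφ]
    refine continuous_const.max (continuous_const.sub ((continuous_pn.comp ?_).div_const _))
    exact cont_val.sub continuous_const
  have hφ0 : ∀ g, 0 ≤ φ g := fun g => by rw [hφ]; exact le_max_left _ _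
  have hφs : ∀ g, φ g ≠ 0 → pn (g.1.1 - 1) ≤ r := by
    intro g hg
    by_contra hcon
    push Not at hcon
    apply hg
    rw [hφ]
    refine max_eq_left ?_
    have : 1 < pn (g.1.1 - 1) / r := by rw [one_lt_div hr]; exact hcon
    linarith
  have hbd : ∀ g : G, ∀ R, pn (g.1.1 - 1) ≤ R → pn g.1.1 ≤ R + 1 := by
    intro g R h
    have := pn_add_le (g.1.1 - 1) (1 : Matrix n n k)
    rw [sub_add_cancel] at this
    linarith [pn_one_le (n := n) (k := k)]
  have hcpt : ∀ R : ℝ, IsCompact {g : G | pn g.1.1 ≤ R} := by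
    intro R
    rcases lt_or_ge R 0 with hR | hR
    · have : {g : G | pn g.1.1 ≤ R} = ∅ := by
        ext g
        simp only [Set.mem_setOf_eq, Set.mem_empty_iff_false, iff_false, not_le]
        exact lt_of_lt_of_le hR (pn_nonneg _)
      rw [this]; exact isCompact_empty
    · have : {g : G | pn g.1.1 ≤ R} = {g : G | ∀ i j, ‖g.1.1 i j‖ ≤ R} := by
        ext g
        exact ⟨fun h i j => (le_pn _ i j).trans h, fun h => pn_le hR h⟩
      rw [this]; exact H15.isCompact_bdd hG R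
  have hcs : HasCompactSupport φ := HasCompactSupport.intro (hcpt (r + 1)) fun g hg => by
    by_contra hne
    exact hg (hbd g r (hφs g hne))
  have hσc : Continuous fun g : G => σ g ξ := by
    rw [continuous_iff_continuousAt]
    intro g
    exact hσ.tendsto tendsto_id tendsto_const_nhds
  have hint : ∀ f : G → ℝ, Continuous f → HasCompactSupport f →
      Integrable (fun g => (f g : ℂ) • σ g ξ) μ := by
    intro f hf hfs
    refine Continuous.integrable_of_hasCompactSupport ?_ ?_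
    · exact (Complex.continuous_ofReal.comp hf).smul hσc
    · refine hfs.mono fun g hg => ?_
      rw [Function.mem_support] at hg ⊢
      intro h0
      apply hg
      rw [h0, Complex.ofReal_zero, zero_smul]
  obtain ⟨ζ, hζ⟩ : ∃ ζ, ζ = ∫ g, (φ g : ℂ) • σ g ξ ∂μ := ⟨_, rfl⟩
  obtain ⟨m, hm⟩ : ∃ m, m = ∫ g, φ g ∂μ := ⟨_, rfl⟩
  have hφi : Integrable φ μ := hφc.integrable_of_hasCompactSupport hcs
  have hφ1 : φ 1 = 1 := by
    rw [hφ]
    have : pn ((1 : G).1.1 - 1 : Matrix n n k) = 0 := by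
      have e : ((1 : G).1.1 - 1 : Matrix n n k) = 0 := sub_self _
      rw [e]
      exact norm_zero (E := n → n → k)
    simp only [this, zero_div, sub_zero]
    exact max_eq_right zero_le_one
  have hmpos : 0 < m := by
    rw [hm]
    exact hφc.integral_pos_of_hasCompactSupport_nonneg_nonzero hcs hφ0 (x := 1)
      (by rw [hφ1]; exact one_ne_zero)
  have hmain : ‖ζ - (m : ℂ) • ξ‖ ≤ m * (ε / 2) := by
    have e1 : (m : ℂ) • ξ = ∫ g, (φ g : ℂ) • ξ ∂μ := by
      rw [integral_smul_const, hm]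
      congr 1
      exact (integral_ofReal (𝕜 := ℂ)).symm
    have i2 : Integrable (fun g => (φ g : ℂ) • ξ) μ := (hφi.ofReal (𝕜 := ℂ)).smul_const ξ
    rw [hζ, e1, ← integral_sub (hint φ hφc hcs) i2, hm, ← integral_mul_const]
    refine norm_integral_le_of_norm_le (hφi.mul_const _) (Eventually.of_forall fun g => ?_)
    rw [← smul_sub, norm_smul, Complex.norm_real, Real.norm_of_nonneg (hφ0 g)]
    by_cases h0 : φ g = 0
    · rw [h0, zero_mul, zero_mul]
    · exact mul_le_mul_of_nonneg_left (hr' g (hφs g h0)) (hφ0 g)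
  -- the Lipschitz property
  obtain ⟨R2, hR2⟩ : ∃ R2 : ℝ, ∀ h : G, pn (h.1.1 - 1) ≤ 1 → pn (h⁻¹ : G).1.1 ≤ R2 := by
    have hc2 : ContinuousOn (fun h : G => pn (h⁻¹ : G).1.1) {g : G | pn g.1.1 ≤ 1 + 1} :=
      (continuous_pn.comp (cont_val.comp continuous_inv)).continuousOn
    obtain ⟨C, hC⟩ := (hcpt (1 + 1)).exists_bound_of_continuousOn hc2
    exact ⟨C, fun h hh => (le_abs_self _).trans (hC h (hbd h 1 hh))⟩
  obtain ⟨N, hN⟩ : ∃ N : ℝ, N = Fintype.card n := ⟨_, rfl⟩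
  have hN0 : 0 ≤ N := by rw [hN]; positivity
  obtain ⟨R1, hR1⟩ : ∃ R1, R1 = N * ((1 + 1) * (r + 1)) + (r + 1) := ⟨_, rfl⟩
  have hR10 : 0 ≤ R1 := by rw [hR1]; positivity
  have hR20 : 0 ≤ R2 := (pn_nonneg _).trans (hR2 1 (by
    have e : ((1 : G).1.1 - 1 : Matrix n n k) = 0 := sub_self _
    rw [e]
    exact (norm_zero (E := n → n → k)).le.trans zero_le_one))
  obtain ⟨K, hK⟩ : ∃ K : Set G, K = {g : G | pn g.1.1 ≤ R1} := ⟨_, rfl⟩
  have hKc : IsCompact K := by rw [hK]; exact hcpt R1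
  obtain ⟨C1, hC1⟩ : ∃ C1, C1 = (N * ((N * R2) * R1)) / r * ‖ξ‖ * μ.real K := ⟨_, rfl⟩
  have hC10 : 0 ≤ C1 := by rw [hC1]; positivity
  have hlip1 : ∀ h : G, pn (h.1.1 - 1) ≤ 1 → ‖σ h ζ - ζ‖ ≤ C1 * pn (h.1.1 - 1) := by
    intro h hh
    have hs2 : HasCompactSupport fun g => φ (h⁻¹ * g) :=
      hcs.comp_homeomorph (Homeomorph.mulLeft h⁻¹)
    have hc2 : Continuous fun g => φ (h⁻¹ * g) := hφc.comp (continuous_const.mul continuous_id)
    have e1 : σ h ζ = ∫ g, (φ (h⁻¹ * g) : ℂ) • σ g ξ ∂μ := by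
      have e2 : ∫ g, (φ (h⁻¹ * g) : ℂ) • σ g ξ ∂μ =
          ∫ g, (φ (h⁻¹ * (h * g)) : ℂ) • σ (h * g) ξ ∂μ :=
        (integral_mul_left_eq_self (μ := μ) (fun g => (φ (h⁻¹ * g) : ℂ) • σ g ξ) h).symm
      rw [e2, hζ, ← ContinuousLinearMap.integral_comp_comm _ (hint φ hφc hcs)]
      refine integral_congr_ae (Eventually.of_forall fun g => ?_)
      show σ h ((φ g : ℂ) • σ g ξ) = (φ (h⁻¹ * (h * g)) : ℂ) • σ (h * g) ξ
      rw [map_smul, inv_mul_cancel_left, URep.mul_apply]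
    have e3 : σ h ζ - ζ = ∫ g, ((φ (h⁻¹ * g) : ℂ) • σ g ξ - (φ g : ℂ) • σ g ξ) ∂μ := by
      rw [integral_sub (hint _ hc2 hs2) (hint φ hφc hcs), ← e1, ← hζ]
    have hpt : ∀ g, ‖(φ (h⁻¹ * g) : ℂ) • σ g ξ - (φ g : ℂ) • σ g ξ‖ ≤
        |φ (h⁻¹ * g) - φ g| * ‖ξ‖ := by
      intro g
      rw [← sub_smul, norm_smul, hσ.iso, ← Complex.ofReal_sub, Complex.norm_real]
      exact le_rfl
    have hout : ∀ g, g ∉ K → (φ (h⁻¹ * g) : ℂ) • σ g ξ - (φ g : ℂ) • σ g ξ = 0 := by
      intro g hg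
      rw [hK] at hg
      simp only [Set.mem_setOf_eq, not_le] at hg
      have z1 : φ g = 0 := by
        by_contra hne
        have := hbd g r (hφs g hne)
        rw [hR1] at hg
        have : 0 ≤ N * ((1 + 1) * (r + 1)) := by positivity
        linarith
      have z2 : φ (h⁻¹ * g) = 0 := by
        by_contra hne
        have h1 := hbd _ r (hφs _ hne)
        have h2 := hbd h 1 hh
        have h3 : g.1.1 = h.1.1 * (h⁻¹ * g : G).1.1 := by
          have : g = h * (h⁻¹ * g) := by group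
          exact congrArg (fun g : G => g.1.1) this
        have h4 := pn_mul h.1.1 (h⁻¹ * g : G).1.1
        rw [← h3, ← hN] at h4
        have h5 : N * (pn h.1.1 * pn (h⁻¹ * g : G).1.1) ≤ N * ((1 + 1) * (r + 1)) := by
          gcongr
          exact pn_nonneg _
        rw [hR1] at hg
        linarith
      rw [z1, z2, sub_self]
    have hin : ∀ g ∈ K, ‖(φ (h⁻¹ * g) : ℂ) • σ g ξ - (φ g : ℂ) • σ g ξ‖ ≤
        (N * ((N * R2) * R1)) / r * pn (h.1.1 - 1) * ‖ξ‖ := by
      intro g hg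
      rw [hK] at hg
      refine (hpt g).trans (mul_le_mul_of_nonneg_right ?_ (norm_nonneg _))
      have a1 : |φ (h⁻¹ * g) - φ g| ≤ |pn ((h⁻¹ * g : G).1.1 - 1) / r - pn (g.1.1 - 1) / r| := by
        rw [hφ]
        have a0 := abs_max_sub_max_le_abs (1 - pn ((h⁻¹ * g : G).1.1 - 1) / r)
          (1 - pn (g.1.1 - 1) / r) (0 : ℝ)
        rw [max_comm _ (0 : ℝ), max_comm _ (0 : ℝ)] at a0
        refine a0.trans (le_of_eq ?_)
        rw [abs_sub_comm]
        congr 1
        ring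
      refine a1.trans ?_
      rw [← sub_div, abs_div, abs_of_pos hr, div_mul_eq_mul_div]
      gcongr
      have a2 := abs_pn_sub ((h⁻¹ * g : G).1.1 - 1) (g.1.1 - 1)
      have a3 : (h⁻¹ * g : G).1.1 - 1 - (g.1.1 - 1) = ((h⁻¹ : G).1.1 - 1) * g.1.1 := by
        have : (h⁻¹ * g : G).1.1 = (h⁻¹ : G).1.1 * g.1.1 := rfl
        rw [this, Matrix.sub_mul, Matrix.one_mul]
        abel
      rw [a3] at a2
      refine a2.trans ((pn_mul _ _).trans ?_)
      rw [← hN]
      have a4 : pn ((h⁻¹ : G).1.1 - 1) ≤ N * (R2 * pn (h.1.1 - 1)) := by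
        rw [inv_sub_one]
        refine (pn_mul _ _).trans ?_
        rw [← hN, pn_sub_rev]
        have := hR2 h hh
        have := pn_nonneg (h.1.1 - 1)
        gcongr
      calc N * (pn ((h⁻¹ : G).1.1 - 1) * pn g.1.1)
          ≤ N * ((N * (R2 * pn (h.1.1 - 1))) * R1) := by
            have := pn_nonneg (h.1.1 - 1)
            have := pn_nonneg g.1.1
            gcongr
            exact hg
        _ = N * (N * R2 * R1) * pn (h.1.1 - 1) := by ring
    rw [e3, ← setIntegral_eq_integral_of_forall_compl_eq_zero (s := K) hout]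
    refine (norm_setIntegral_le_of_norm_le_const hKc.measure_lt_top hin).trans (le_of_eq ?_)
    rw [hC1]
    ring
  have hζL : ζ ∈ Lips σ := by
    refine ⟨C1 + 2 * ‖ζ‖, by positivity, fun h => ?_⟩
    rcases le_total (pn (h.1.1 - 1)) 1 with hh | hh
    · refine (hlip1 h hh).trans ?_
      have := pn_nonneg (h.1.1 - 1)
      gcongr
      linarith [norm_nonneg ζ]
    · have h1 : ‖σ h ζ - ζ‖ ≤ 2 * ‖ζ‖ := by
        refine (norm_sub_le _ _).trans ?_
        rw [hσ.iso]; linarith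
      nlinarith [norm_nonneg ζ]
  refine ⟨(m : ℂ)⁻¹ • ζ, ?_, ?_⟩
  · obtain ⟨C, hC0, hC⟩ := hζL
    refine ⟨m⁻¹ * C, by positivity, fun h => ?_⟩
    rw [map_smul, ← smul_sub, norm_smul, norm_inv, Complex.norm_real, Real.norm_of_nonneg hmpos.le,
      mul_assoc]
    exact mul_le_mul_of_nonneg_left (hC h) (by positivity)
  · have hmc : (m : ℂ) ≠ 0 := by exact_mod_cast hmpos.ne'
    have e1 : ξ - (m : ℂ)⁻¹ • ζ = -((m : ℂ)⁻¹ • (ζ - (m : ℂ) • ξ)) := by
      rw [smul_sub, smul_smul, inv_mul_cancel₀ hmc, one_smul]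
      abel
    rw [dist_eq_norm, e1, norm_neg, norm_smul, norm_inv, Complex.norm_real,
      Real.norm_of_nonneg hmpos.le]
    calc m⁻¹ * ‖ζ - (m : ℂ) • ξ‖ ≤ m⁻¹ * (m * (ε / 2)) := by gcongr
      _ = ε / 2 := by field_simp
      _ < ε := by linarith

end gard

end Vale.Agent.P092.H956
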