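import Vale.Agent.P092.H370.Sp4

/-!
P092 (helper956), Team P, block [P-GAP], part 4: elements of `Sp_4(k)` and their relations.
-/

set_option linter.all false

namespace Vale.Agent.P092.H956

open Matrix
open Vale.Agent.P092.SP4 (J4 S4 mem_S4 b1 b2 lg lg_mem b1_mem b2_mem)

variable {k : Type} [Field k]

/-- an explicit determinant -/
theorem det4 (a b c d e f g h i j l m n o p q : k) :
    (!![a, b, c, d; e, f, g, h; i, j, l, m; n, o, p, q] : Matrix (Fin 4) (Fin 4) k).det =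
      a * (f * (l * q - m * p) - g * (j * q - m * o) + h * (j * p - l * o))
      - b * (e * (l * q - m * p) - g * (i * q - m * n) + h * (i * p - l * n))
      + c * (e * (j * q - m * o) - f * (i * q - m * n) + h * (i * o - j * n))
      - d * (e * (j * p - l * o) - f * (i * p - l * n) + g * (i * o - j * n)) := by
  rw [Matrix.det_succ_row_zero]
  simp [Fin.sum_univ_succ, Matrix.det_fin_three, Matrix.submatrix, Fin.succAbove]
  ring

/-- an element of `S4` from an explicit matrix -/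
def mk4 (M : Matrix (Fin 4) (Fin 4) k) (h1 : M.det = 1) (h2 : M * J4 k * Mᵀ = J4 k) : S4 k :=
  ⟨⟨M, h1⟩, mem_S4.2 h2⟩

theorem ext4 {g h : S4 k} (e : g.1.1 = h.1.1) : g = h := Subtype.ext (Subtype.ext e)

def midM (A : SpecialLinearGroup (Fin 2) k) : Matrix (Fin 4) (Fin 4) k :=
  !![1, 0, 0, 0; 0, A.1 0 0, A.1 0 1, 0; 0, A.1 1 0, A.1 1 1, 0; 0, 0, 0, 1]

theorem det2 (A : SpecialLinearGroup (Fin 2) k) : A.1 0 0 * A.1 1 1 - A.1 0 1 * A.1 1 0 = 1 := by
  rw [← Matrix.det_fin_two]; exact A.2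

/-- the middle `SL_2` -/
def mid : SpecialLinearGroup (Fin 2) k →* S4 k where
  toFun A := mk4 (midM A) (by
      unfold midM
      rw [det4]
      linear_combination det2 A) (by
      have h := det2 A
      ext i j
      fin_cases i <;> fin_cases j <;>
        simp [midM, J4, Matrix.mul_apply, Fin.sum_univ_four] <;>
        first | ring1 | linear_combination h | linear_combination -h)
  map_one' := ext4 (by
    show midM 1 = 1
    ext i j
    fin_cases i <;> fin_cases j <;> simp [midM])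
  map_mul' A B := ext4 (by
    show midM (A * B) = midM A * midM B
    ext i j
    fin_cases i <;> fin_cases j <;>
      simp [midM, Matrix.mul_apply, Fin.sum_univ_four, Fin.sum_univ_two])

theorem mid_val (A : SpecialLinearGroup (Fin 2) k) : (mid A).1.1 =
    !![1, 0, 0, 0; 0, A.1 0 0, A.1 0 1, 0; 0, A.1 1 0, A.1 1 1, 0; 0, 0, 0, 1] := rfl

def twM (A : SpecialLinearGroup (Fin 2) k) : Matrix (Fin 4) (Fin 4) k :=
  !![A.1 0 0, 0, 0, -A.1 0 1; 0, A.1 0 0, A.1 0 1, 0; 0, A.1 1 0, A.1 1 1, 0;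
    -A.1 1 0, 0, 0, A.1 1 1]

/-- the twisted diagonal `SL_2` -/
def tw : SpecialLinearGroup (Fin 2) k →* S4 k where
  toFun A := mk4 (twM A) (by
      unfold twM
      rw [det4]
      linear_combination (A.1 0 0 * A.1 1 1 - A.1 0 1 * A.1 1 0 + 1) * det2 A) (by
      have h := det2 A
      ext i j
      fin_cases i <;> fin_cases j <;>
        simp [twM, J4, Matrix.mul_apply, Fin.sum_univ_four] <;>
        first | ring1 | linear_combination h | linear_combination -h)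
  map_one' := ext4 (by
    show twM 1 = 1
    ext i j
    fin_cases i <;> fin_cases j <;> simp [twM])
  map_mul' A B := ext4 (by
    show twM (A * B) = twM A * twM B
    ext i j
    fin_cases i <;> fin_cases j <;>
      simp [twM, Matrix.mul_apply, Fin.sum_univ_four, Fin.sum_univ_two] <;> ring1)

theorem tw_val (A : SpecialLinearGroup (Fin 2) k) : (tw A).1.1 =
    !![A.1 0 0, 0, 0, -A.1 0 1; 0, A.1 0 0, A.1 0 1, 0; 0, A.1 1 0, A.1 1 1, 0;
    -A.1 1 0, 0, 0, A.1 1 1] := rfl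

/-- the element `exp (v ⊗ q)`, `v ∈ ⟨e_0, e_3⟩`, `q ∈ ⟨e_1, e_2⟩` -/
def ed (v0 v3 q1 q2 : k) : S4 k :=
  mk4 !![1, -(q2 * v0), q1 * v0, 0; -(v3 * q1), 1, 0, v0 * q1; -(v3 * q2), 0, 1, v0 * q2;
    0, -(q2 * v3), q1 * v3, 1] (by
      rw [det4]
      ring) (by
      ext i j
      fin_cases i <;> fin_cases j <;>
        simp [J4, Matrix.mul_apply, Fin.sum_univ_four] <;> ring1)

theorem ed_val (v0 v3 q1 q2 : k) : (ed v0 v3 q1 q2).1.1 =
    !![1, -(q2 * v0), q1 * v0, 0; -(v3 * q1), 1, 0, v0 * q1; -(v3 * q2), 0, 1, v0 * q2;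
    0, -(q2 * v3), q1 * v3, 1] := rfl

/-- `u ↦ u + r ω(q, u) q` on `⟨e_1, e_2⟩` -/
def tq (q1 q2 r : k) : SpecialLinearGroup (Fin 2) k :=
  ⟨!![1 - r * q1 * q2, r * q1 ^ 2; -(r * q2 ^ 2), 1 + r * q1 * q2], by
    rw [Matrix.det_fin_two]
    simp
    ring⟩

theorem tq_val (q1 q2 r : k) : (tq q1 q2 r).1 =
    !![1 - r * q1 * q2, r * q1 ^ 2; -(r * q2 ^ 2), 1 + r * q1 * q2] := rfl

theorem tq_add (q1 q2 r s : k) : tq q1 q2 (r + s) = tq q1 q2 r * tq q1 q2 s := by
  refine Subtype.ext ?_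
  rw [Matrix.SpecialLinearGroup.coe_mul, tq_val, tq_val, tq_val]
  ext i j
  fin_cases i <;> fin_cases j <;> simp [Matrix.mul_apply, Fin.sum_univ_two] <;> ring

theorem tq_zero (q1 q2 : k) : tq q1 q2 0 = 1 := by
  refine Subtype.ext ?_
  rw [tq_val]
  ext i j
  fin_cases i <;> fin_cases j <;> simp

/-- long root -/
def lg4 (s : k) : S4 k := ⟨lg s, lg_mem s⟩

theorem lg4_val (s : k) : (lg4 s).1.1 = !![1, 0, 0, s; 0, 1, 0, 0; 0, 0, 1, 0; 0, 0, 0, 1] := rfl

theorem lg4_add (r s : k) : lg4 (r + s) = lg4 r * lg4 s := ext4 (by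
  show _ = (lg4 r).1.1 * (lg4 s).1.1
  rw [lg4_val, lg4_val, lg4_val]
  ext i j
  fin_cases i <;> fin_cases j <;> simp [Matrix.mul_apply, Fin.sum_univ_four, add_comm])

theorem lg4_zero : lg4 (0 : k) = 1 := ext4 (by
  rw [lg4_val]
  show _ = (1 : Matrix (Fin 4) (Fin 4) k)
  ext i j
  fin_cases i <;> fin_cases j <;> simp)

/-- `exp (v ⊗ q)` for fixed `q`: Heisenberg law -/
theorem ed_mul (v0 v3 v0' v3' q1 q2 : k) : ed v0 v3 q1 q2 * ed v0' v3' q1 q2 =
    ed (v0 + v0') (v3 + v3') q1 q2 * mid (tq q1 q2 (v0 * v3' - v3 * v0')) := ext4 (by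
  show (ed v0 v3 q1 q2).1.1 * (ed v0' v3' q1 q2).1.1 =
    (ed (v0 + v0') (v3 + v3') q1 q2).1.1 * (mid (tq q1 q2 (v0 * v3' - v3 * v0'))).1.1
  rw [ed_val, ed_val, ed_val, mid_val, tq_val]
  ext i j
  fin_cases i <;> fin_cases j <;> simp [Matrix.mul_apply, Fin.sum_univ_four] <;> ring1)

/-- `exp (e_0 ⊗ q)`: Heisenberg law -/
theorem ed_mul0 (q1 q2 q1' q2' : k) : ed 1 0 q1 q2 * ed 1 0 q1' q2' =
    ed 1 0 (q1 + q1') (q2 + q2') * lg4 (q1 * q2' - q2 * q1') := ext4 (by
  show (ed 1 0 q1 q2).1.1 * (ed 1 0 q1' q2').1.1 =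
    (ed 1 0 (q1 + q1') (q2 + q2')).1.1 * (lg4 (q1 * q2' - q2 * q1')).1.1
  rw [ed_val, ed_val, ed_val, lg4_val]
  ext i j
  fin_cases i <;> fin_cases j <;> simp [Matrix.mul_apply, Fin.sum_univ_four] <;> ring1)

theorem ed_zero (q1 q2 : k) : ed 0 0 q1 q2 = 1 := ext4 (by
  rw [ed_val]
  show _ = (1 : Matrix (Fin 4) (Fin 4) k)
  ext i j
  fin_cases i <;> fin_cases j <;> simp)

theorem ed_zero' (v0 v3 : k) : ed v0 v3 0 0 = 1 := ext4 (by
  rw [ed_val]
  show _ = (1 : Matrix (Fin 4) (Fin 4) k)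
  ext i j
  fin_cases i <;> fin_cases j <;> simp)

/-- covariance under the middle `SL_2` -/
theorem mid_ed (A : SpecialLinearGroup (Fin 2) k) (v0 v3 q1 q2 : k) :
    mid A * ed v0 v3 q1 q2 =
      ed v0 v3 (A.1 0 0 * q1 + A.1 0 1 * q2) (A.1 1 0 * q1 + A.1 1 1 * q2) * mid A := ext4 (by
  have h := det2 A
  show (mid A).1.1 * (ed v0 v3 q1 q2).1.1 =
    (ed v0 v3 (A.1 0 0 * q1 + A.1 0 1 * q2) (A.1 1 0 * q1 + A.1 1 1 * q2)).1.1 * (mid A).1.1
  rw [ed_val, ed_val, mid_val]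
  ext i j
  fin_cases i <;> fin_cases j <;> simp [Matrix.mul_apply, Fin.sum_univ_four] <;>
    first
    | ring1
    | linear_combination (q1 * v0) * h
    | linear_combination (-(q1 * v0)) * h
    | linear_combination (q2 * v0) * h
    | linear_combination (-(q2 * v0)) * h
    | linear_combination (q1 * v3) * h
    | linear_combination (-(q1 * v3)) * h
    | linear_combination (q2 * v3) * h
    | linear_combination (-(q2 * v3)) * h)

/-- covariance under the twisted diagonal -/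
theorem tw_ed (A : SpecialLinearGroup (Fin 2) k) (x q1 q2 : k) :
    tw A * ed (x * q1) (-(x * q2)) q1 q2 =
      ed (x * (A.1 0 0 * q1 + A.1 0 1 * q2)) (-(x * (A.1 1 0 * q1 + A.1 1 1 * q2)))
        (A.1 0 0 * q1 + A.1 0 1 * q2) (A.1 1 0 * q1 + A.1 1 1 * q2) * tw A := ext4 (by
  have h := det2 A
  show (tw A).1.1 * (ed (x * q1) (-(x * q2)) q1 q2).1.1 =
    (ed (x * (A.1 0 0 * q1 + A.1 0 1 * q2)) (-(x * (A.1 1 0 * q1 + A.1 1 1 * q2)))
        (A.1 0 0 * q1 + A.1 0 1 * q2) (A.1 1 0 * q1 + A.1 1 1 * q2)).1.1 * (tw A).1.1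
  rw [ed_val, ed_val, tw_val]
  ext i j
  fin_cases i <;> fin_cases j <;> simp [Matrix.mul_apply, Fin.sum_univ_four] <;>
    first
    | ring1
    | linear_combination (x * q1 * (A.1 0 0 * q1 + A.1 0 1 * q2)) * h
    | linear_combination (-(x * q1 * (A.1 0 0 * q1 + A.1 0 1 * q2))) * h
    | linear_combination (x * q2 * (A.1 0 0 * q1 + A.1 0 1 * q2)) * h
    | linear_combination (-(x * q2 * (A.1 0 0 * q1 + A.1 0 1 * q2))) * h
    | linear_combination (x * q1 * (A.1 1 0 * q1 + A.1 1 1 * q2)) * h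
    | linear_combination (-(x * q1 * (A.1 1 0 * q1 + A.1 1 1 * q2))) * h
    | linear_combination (x * q2 * (A.1 1 0 * q1 + A.1 1 1 * q2)) * h
    | linear_combination (-(x * q2 * (A.1 1 0 * q1 + A.1 1 1 * q2))) * h)

/-- the middle `SL_2` commutes with the point wall -/
theorem mid_b1 (A : SpecialLinearGroup (Fin 2) k) (w : kˣ) :
    Commute (mid A) (⟨b1 w, b1_mem w⟩ : S4 k) := ext4 (by
  show (mid A).1.1 * (b1 w).1 = (b1 w).1 * (mid A).1.1
  rw [mid_val]
  ext i j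
  fin_cases i <;> fin_cases j <;>
    simp [b1, Matrix.mul_apply, Fin.sum_univ_four, Matrix.diagonal])

/-- the conjugate of the line wall -/
def xcs (C S : k) (h : C * C - S * S = 1) : S4 k :=
  mk4 !![C, S, 0, 0; S, C, 0, 0; 0, 0, C, -S; 0, 0, -S, C] (by
      rw [det4]
      linear_combination (C * C - S * S + 1) * h) (by
      ext i j
      fin_cases i <;> fin_cases j <;>
        simp [J4, Matrix.mul_apply, Fin.sum_univ_four] <;>
        first | ring1 | linear_combination h | linear_combination -h)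

theorem xcs_val (C S : k) (h : C * C - S * S = 1) : (xcs C S h).1.1 =
    !![C, S, 0, 0; S, C, 0, 0; 0, 0, C, -S; 0, 0, -S, C] := rfl

/-- the twisted diagonal commutes with it -/
theorem tw_xcs (A : SpecialLinearGroup (Fin 2) k) {C S : k} (h : C * C - S * S = 1) :
    Commute (tw A) (xcs C S h) := ext4 (by
  show (tw A).1.1 * (xcs C S h).1.1 = (xcs C S h).1.1 * (tw A).1.1
  rw [tw_val, xcs_val]
  ext i j
  fin_cases i <;> fin_cases j <;>
    simp [Matrix.mul_apply, Fin.sum_univ_four] <;> ring1)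

/-- the conjugating element -/
def pp (t : k) (h : 2 * t = 1) : S4 k :=
  mk4 !![1, 1, 0, 0; 0, 0, t, -t; 1, -1, 0, 0; 0, 0, t, t] (by
      rw [det4]
      linear_combination (2 * t + 1) * h) (by
      ext i j
      fin_cases i <;> fin_cases j <;>
        simp [J4, Matrix.mul_apply, Fin.sum_univ_four] <;>
        first | ring1 | linear_combination h | linear_combination -h)

theorem b2_eq (h2 : (2 : k) ≠ 0) (w : kˣ) : ∃ (P X : S4 k), (∀ A, Commute (tw A) X) ∧
    P * X * P⁻¹ = (⟨b2 w, b2_mem w⟩ : S4 k) := by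
  have hw : ((w⁻¹ : kˣ) : k) * (w : k) = 1 := by rw [← Units.val_mul]; simp
  obtain ⟨t, ht⟩ : ∃ t : k, 2 * t = 1 := ⟨2⁻¹, mul_inv_cancel₀ h2⟩
  obtain ⟨w', hw'⟩ : ∃ w' : k, w' = ((w⁻¹ : kˣ) : k) := ⟨_, rfl⟩
  rw [← hw'] at hw
  have hCS : t * (w' + w) * (t * (w' + w)) - t * (w' - w) * (t * (w' - w)) = 1 := by
    linear_combination (2 * t + 1) * ht + (2 * t) ^ 2 * hw
  refine ⟨pp t ht, xcs (t * (w' + w)) (t * (w' - w)) hCS, fun A => tw_xcs A hCS, ?_⟩
  rw [mul_inv_eq_iff_eq_mul]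
  refine ext4 ?_
  show !![1, 1, 0, 0; 0, 0, t, -t; 1, -1, 0, 0; 0, 0, t, t] *
    !![t * (w' + w), t * (w' - w), 0, 0; t * (w' - w), t * (w' + w), 0, 0;
      0, 0, t * (w' + w), -(t * (w' - w)); 0, 0, -(t * (w' - w)), t * (w' + w)] =
    Matrix.diagonal ![((w⁻¹ : kˣ) : k), ((w⁻¹ : kˣ) : k), (w : k), (w : k)] *
      !![1, 1, 0, 0; 0, 0, t, -t; 1, -1, 0, 0; 0, 0, t, t]
  rw [← hw']
  have e1 : t * (w' + w) + t * (w' - w) = w' := by linear_combination w' * ht
  have e2 : t * (w' + w) - t * (w' - w) = w := by linear_combination (w : k) * ht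
  ext i j
  fin_cases i <;> fin_cases j <;>
    simp [Matrix.mul_apply, Fin.sum_univ_four, Matrix.diagonal] <;>
    first
    | ring1
    | linear_combination e1
    | linear_combination e2
    | linear_combination -e1
    | linear_combination -e2
    | linear_combination t * e1
    | linear_combination t * e2
    | linear_combination -t * e1
    | linear_combination -t * e2

end Vale.Agent.P092.H956
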