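import Vale.Agent.P092.H956.SpG2
import Vale.Agent.P092.H956.SpG3
import Vale.Agent.P092.H956.SpG4
import Vale.Agent.P092.H714.SpM

/-!
P092 (helper956), Team P, block [P-GAP], part 5: **the spectral gap of the Levi subgroups of
`Sp_4(k)`**, both walls, `k` any local field with `2 ≠ 0`.
-/

set_option linter.all false

namespace Vale.Agent.P092.H956

open Filter Topology Vale.Agent.P092.H933 Matrix
open Vale.Agent.P092.SP4 (J4 S4 mem_S4 b1 b2 lg lg_mem b1_mem b2_mem)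

open scoped InnerProductSpace

section hil

variable {E : Type*} [Group E] [TopologicalSpace E] {𝓗 : Type*} [NormedAddCommGroup 𝓗]
  [InnerProductSpace ℂ 𝓗] {σ : E →* (𝓗 →L[ℂ] 𝓗)}

/-- the commutator step -/
theorem comm_step (hσ : URep σ) {V Y Z : E} (h : V * Y = Y * (V * Z)) (ξ : 𝓗) :
    ‖⟪σ V ξ, ξ⟫_ℂ - ⟪σ V (σ Z ξ), ξ⟫_ℂ‖ ≤ 2 * ‖σ Y ξ - ξ‖ * ‖ξ‖ := by
  have e1 : ⟪σ V (σ Z ξ), ξ⟫_ℂ = ⟪σ V (σ Y ξ), σ Y ξ⟫_ℂ := by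
    rw [← URep.mul_apply V Y, h, URep.mul_apply Y, hσ.inner_map, URep.mul_apply]
  have e2 : ⟪σ V ξ, ξ⟫_ℂ - ⟪σ V (σ Y ξ), σ Y ξ⟫_ℂ =
      ⟪σ V (ξ - σ Y ξ), ξ⟫_ℂ + ⟪σ V (σ Y ξ), ξ - σ Y ξ⟫_ℂ := by
    rw [map_sub, inner_sub_left, inner_sub_right]; ring
  rw [e1, e2]
  have h1 := norm_inner_le_norm (𝕜 := ℂ) (σ V (ξ - σ Y ξ)) ξ
  have h2 := norm_inner_le_norm (𝕜 := ℂ) (σ V (σ Y ξ)) (ξ - σ Y ξ)
  rw [hσ.iso, norm_sub_rev] at h1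
  rw [hσ.iso, hσ.iso, norm_sub_rev] at h2
  refine (norm_add_le _ _).trans ?_
  linarith

/-- the vector `σ g ξ` does not see `σ V ξ - ξ` -/
theorem push_step (hσ : URep σ) {V U g : E} (h : g * U = V * g) (ξ : 𝓗) :
    ‖⟪σ g ξ, ξ⟫_ℂ - ⟪σ g ξ, σ V ξ⟫_ℂ‖ ≤ ‖σ U ξ - ξ‖ * ‖ξ‖ := by
  have h' : V⁻¹ * g = g * U⁻¹ := by
    rw [inv_mul_eq_iff_eq_mul, ← mul_assoc, ← h, mul_assoc, mul_inv_cancel, mul_one]
  rw [hσ.inner_right V, ← inner_sub_left, ← URep.mul_apply, h', URep.mul_apply, ← map_sub]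
  refine (norm_inner_le_norm _ _).trans (mul_le_mul_of_nonneg_right (le_of_eq ?_) (norm_nonneg _))
  rw [hσ.iso, ← hσ.iso U, map_sub, ← URep.mul_apply, mul_inv_cancel, URep.one_apply]

theorem inner_shift (hσ : URep σ) {V V' W : E} (h : V = V' * W) (ξ : 𝓗) :
    ⟪σ V ξ, σ V' ξ⟫_ℂ = ⟪σ W ξ, ξ⟫_ℂ := by
  rw [h, URep.mul_apply, hσ.inner_map]

end hil

section four

variable {k : Type} [NontriviallyNormedField k] {𝓗 : Type*} [NormedAddCommGroup 𝓗]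
  [InnerProductSpace ℂ 𝓗] {σ : S4 k →* (𝓗 →L[ℂ] 𝓗)}

theorem pn_ed {v0 v3 q1 q2 : k} {r : ℝ} (h1 : ‖v0 * q1‖ ≤ r) (h2 : ‖v0 * q2‖ ≤ r)
    (h3 : ‖v3 * q1‖ ≤ r) (h4 : ‖v3 * q2‖ ≤ r) : pn ((ed v0 v3 q1 q2).1.1 - 1) ≤ r := by
  have hr : 0 ≤ r := (norm_nonneg _).trans h1
  refine pn_le hr fun i j => ?_
  rw [ed_val, Matrix.sub_apply]
  have h1' : ‖q1 * v0‖ ≤ r := by rw [mul_comm]; exact h1
  have h2' : ‖q2 * v0‖ ≤ r := by rw [mul_comm]; exact h2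
  have h3' : ‖q1 * v3‖ ≤ r := by rw [mul_comm]; exact h3
  have h4' : ‖q2 * v3‖ ≤ r := by rw [mul_comm]; exact h4
  rw [norm_mul] at h1 h2 h3 h4 h1' h2' h3' h4'
  fin_cases i <;> fin_cases j <;> simp <;> assumption

/-- the maximal entry of a matrix of `SL_2`, as a pairing -/
theorem max_entry (A : SpecialLinearGroup (Fin 2) k) : ∃ e1 e2 w1 w2 q1 q2 : k,
    ‖e1‖ ≤ 1 ∧ ‖e2‖ ≤ 1 ∧ ‖w1‖ ≤ 1 ∧ ‖w2‖ ≤ 1 ∧
    q1 = A.1 0 0 * e1 + A.1 0 1 * e2 ∧ q2 = A.1 1 0 * e1 + A.1 1 1 * e2 ∧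
    ‖q1‖ ≤ nrm A ∧ ‖q2‖ ≤ nrm A ∧ ‖q1 * w2 - q2 * w1‖ = nrm A ∧
    (‖q1‖ = nrm A ∨ ‖q2‖ = nrm A) := by
  have a1 : ‖A.1 0 0‖ ≤ nrm A := (le_max_left _ _).trans (le_max_left _ _)
  have a2 : ‖A.1 1 0‖ ≤ nrm A := (le_max_right _ _).trans (le_max_left _ _)
  have a3 : ‖A.1 0 1‖ ≤ nrm A := (le_max_left _ _).trans (le_max_right _ _)
  have a4 : ‖A.1 1 1‖ ≤ nrm A := (le_max_right _ _).trans (le_max_right _ _)
  have h : nrm A = ‖A.1 0 0‖ ∨ nrm A = ‖A.1 1 0‖ ∨ nrm A = ‖A.1 0 1‖ ∨ nrm A = ‖A.1 1 1‖ := by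
    unfold nrm
    rcases max_choice (max ‖A.1 0 0‖ ‖A.1 1 0‖) (max ‖A.1 0 1‖ ‖A.1 1 1‖) with h | h <;> rw [h]
    · rcases max_choice ‖A.1 0 0‖ ‖A.1 1 0‖ with h | h <;> simp [h]
    · rcases max_choice ‖A.1 0 1‖ ‖A.1 1 1‖ with h | h <;> simp [h]
  rcases h with h | h | h | h
  · exact ⟨1, 0, 0, 1, A.1 0 0, A.1 1 0, by simp, by simp, by simp, by simp, by ring, by ring,
      a1, a2, by rw [h]; simp, Or.inl h.symm⟩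
  · exact ⟨1, 0, -1, 0, A.1 0 0, A.1 1 0, by simp, by simp, by simp, by simp, by ring, by ring,
      a1, a2, by rw [h]; simp, Or.inr h.symm⟩
  · exact ⟨0, 1, 0, 1, A.1 0 1, A.1 1 1, by simp, by simp, by simp, by simp, by ring, by ring,
      a3, a4, by rw [h]; simp, Or.inl h.symm⟩
  · exact ⟨0, 1, -1, 0, A.1 0 1, A.1 1 1, by simp, by simp, by simp, by simp, by ring, by ring,
      a3, a4, by rw [h]; simp, Or.inr h.symm⟩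

/-- **Level 0**: decay along a line of the Heisenberg group. -/
theorem lvl0 (hσ : URep σ) (h2 : (2 : k) ≠ 0) {c : k} (hc : 4 ≤ ‖c‖) {ζ ξ : 𝓗} {r : k}
    (hξ : ξ = σ (lg4 r) ζ - ζ) {L : ℝ} (hL0 : 0 ≤ L)
    (hL : ∀ h : S4 k, ‖σ h ξ - ξ‖ ≤ L * pn (h.1.1 - 1)) :
    ∃ K : ℝ, 0 ≤ K ∧ ∀ (q1 q2 w1 w2 x : k) (n : ℕ), ‖w1‖ ≤ 1 → ‖w2‖ ≤ 1 →
      ‖c‖ ^ n ≤ ‖x‖ * ‖q1 * w2 - q2 * w1‖ →
      ‖⟪σ (ed 1 0 (x * q1) (x * q2)) ξ, ξ⟫_ℂ‖ ≤ K * (3 / 4) ^ n := by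
  have hB : 0 < ‖c‖ := by linarith
  have h2n : 0 < ‖(2 : k)‖ := norm_pos_iff.2 h2
  refine ⟨2 * ‖ζ‖ * ‖ξ‖ + 2 * L * ‖ξ‖ * (‖r‖ / ‖(2 : k)‖), by positivity, ?_⟩
  intro q1 q2 w1 w2 x n hw1 hw2 hn
  obtain ⟨κ, hκ⟩ : ∃ κ, κ = q1 * w2 - q2 * w1 := ⟨_, rfl⟩
  rw [← hκ] at hn
  have hpos : 0 < ‖x‖ * ‖κ‖ := lt_of_lt_of_le (pow_pos hB n) hn
  have hx : x ≠ 0 := by rintro rfl; simp at hpos
  have hκ0 : κ ≠ 0 := by rintro rfl; simp at hpos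
  obtain ⟨V, hV⟩ : ∃ V, V = ed 1 0 (x * q1) (x * q2) := ⟨_, rfl⟩
  rw [← hV]
  have hstep : ∀ j : ℕ, j < 2 ^ n → ‖⟪σ V ξ, ξ⟫_ℂ - ⟪σ V (σ (lg4 (j * r)) ξ), ξ⟫_ℂ‖ ≤
      2 * L * ‖ξ‖ * (‖r‖ / ‖(2 : k)‖) * (2 ^ n / (‖x‖ * ‖κ‖)) := by
    intro j hj
    obtain ⟨y, hy⟩ : ∃ y : k, y = j * r / (2 * x * κ) := ⟨_, rfl⟩
    have hyr : 2 * (x * y * κ) = j * r := by rw [hy]; field_simp
    have hcomm : V * ed 1 0 (y * w1) (y * w2) =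
        ed 1 0 (y * w1) (y * w2) * (V * lg4 (j * r)) := by
      rw [hV, ← mul_assoc, ed_mul0, ed_mul0,
        mul_assoc (ed 1 0 (y * w1 + x * q1) (y * w2 + x * q2)), ← lg4_add, add_comm (x * q1),
        add_comm (x * q2)]
      congr 2
      rw [← hyr, hκ]; ring
    refine (comm_step hσ hcomm ξ).trans ?_
    have h3 : ‖σ (ed 1 0 (y * w1) (y * w2)) ξ - ξ‖ ≤ L * ‖y‖ := by
      refine (hL _).trans (mul_le_mul_of_nonneg_left (pn_ed ?_ ?_ ?_ ?_) hL0)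
      · rw [one_mul, norm_mul]; nlinarith [norm_nonneg y]
      · rw [one_mul, norm_mul]; nlinarith [norm_nonneg y]
      · rw [zero_mul, norm_zero]; exact norm_nonneg _
      · rw [zero_mul, norm_zero]; exact norm_nonneg _
    have h4 : ‖y‖ ≤ (‖r‖ / ‖(2 : k)‖) * (2 ^ n / (‖x‖ * ‖κ‖)) := by
      rw [hy, norm_div, norm_mul, norm_mul, norm_mul]
      have h5 : ‖(j : k)‖ ≤ 2 ^ n := by
        have h6 := Nat.norm_cast_le (α := k) j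
        rw [norm_one, mul_one] at h6
        have h7 : (j : ℝ) ≤ 2 ^ n := by exact_mod_cast hj.le
        linarith
      calc ‖(j : k)‖ * ‖r‖ / (‖(2 : k)‖ * ‖x‖ * ‖κ‖)
          ≤ 2 ^ n * ‖r‖ / (‖(2 : k)‖ * ‖x‖ * ‖κ‖) := by gcongr
        _ = _ := by field_simp
    calc 2 * ‖σ (ed 1 0 (y * w1) (y * w2)) ξ - ξ‖ * ‖ξ‖
        ≤ 2 * (L * ((‖r‖ / ‖(2 : k)‖) * (2 ^ n / (‖x‖ * ‖κ‖)))) * ‖ξ‖ := by
          gcongr
          exact h3.trans (mul_le_mul_of_nonneg_left h4 hL0)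
      _ = _ := by ring
  -- telescoping
  have htel : ∑ j ∈ Finset.range (2 ^ n), σ (lg4 ((j : k) * r)) ξ =
      σ (lg4 (((2 ^ n : ℕ) : k) * r)) ζ - ζ := by
    have e1 : ∀ j : ℕ, σ (lg4 ((j : k) * r)) ξ =
        σ (lg4 (((j + 1 : ℕ) : k) * r)) ζ - σ (lg4 ((j : k) * r)) ζ := by
      intro j
      rw [hξ, map_sub, ← URep.mul_apply, ← lg4_add]
      congr 4
      push_cast; ring
    rw [Finset.sum_congr rfl fun j _ => e1 j,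
      Finset.sum_range_sub (fun j : ℕ => σ (lg4 ((j : k) * r)) ζ)]
    rw [Nat.cast_zero, zero_mul, lg4_zero, URep.one_apply]
  have hM : (0 : ℝ) < 2 ^ n := by positivity
  have hsum : ((2 : ℂ) ^ n) * ⟪σ V ξ, ξ⟫_ℂ =
      ∑ j ∈ Finset.range (2 ^ n), (⟪σ V ξ, ξ⟫_ℂ - ⟪σ V (σ (lg4 ((j : k) * r)) ξ), ξ⟫_ℂ) +
        ⟪σ V (σ (lg4 (((2 ^ n : ℕ) : k) * r)) ζ - ζ), ξ⟫_ℂ := by
    rw [← htel, map_sum, sum_inner, Finset.sum_sub_distrib, sub_add_cancel, Finset.sum_const,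
      Finset.card_range, nsmul_eq_mul]
    push_cast
    rfl
  have hfin : 2 ^ n * ‖⟪σ V ξ, ξ⟫_ℂ‖ ≤
      2 ^ n * (2 * L * ‖ξ‖ * (‖r‖ / ‖(2 : k)‖) * (2 ^ n / (‖x‖ * ‖κ‖))) + 2 * ‖ζ‖ * ‖ξ‖ := by
    have e2 : 2 ^ n * ‖⟪σ V ξ, ξ⟫_ℂ‖ = ‖((2 : ℂ) ^ n) * ⟪σ V ξ, ξ⟫_ℂ‖ := by
      rw [norm_mul, norm_pow]; simp
    rw [e2, hsum]
    refine (norm_add_le _ _).trans (add_le_add ?_ ?_)
    · refine (norm_sum_le _ _).trans ?_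
      refine (Finset.sum_le_sum fun j hj => hstep j (Finset.mem_range.1 hj)).trans (le_of_eq ?_)
      rw [Finset.sum_const, Finset.card_range, nsmul_eq_mul]
      push_cast
      rfl
    · refine (norm_inner_le_norm _ _).trans ?_
      rw [hσ.iso]
      have h6 := norm_sub_le (σ (lg4 (((2 ^ n : ℕ) : k) * r)) ζ) ζ
      rw [hσ.iso] at h6
      have := norm_nonneg ξ
      nlinarith
  have hq1 : (2 : ℝ) ^ n / (‖x‖ * ‖κ‖) ≤ (3 / 4) ^ n := by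
    rw [div_le_iff₀ hpos]
    calc (2 : ℝ) ^ n ≤ (3 / 4 * ‖c‖) ^ n := pow_le_pow_left₀ (by norm_num) (by linarith) n
      _ = (3 / 4) ^ n * ‖c‖ ^ n := mul_pow _ _ _
      _ ≤ _ := by gcongr
  have hq2 : (1 : ℝ) ≤ 2 ^ n * (3 / 4) ^ n := by
    rw [← mul_pow]; exact one_le_pow₀ (by norm_num)
  have h9 : 2 ^ n * ‖⟪σ V ξ, ξ⟫_ℂ‖ ≤
      2 ^ n * ((2 * ‖ζ‖ * ‖ξ‖ + 2 * L * ‖ξ‖ * (‖r‖ / ‖(2 : k)‖)) * (3 / 4) ^ n) := by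
    refine hfin.trans ?_
    have h10 : 2 * L * ‖ξ‖ * (‖r‖ / ‖(2 : k)‖) * (2 ^ n / (‖x‖ * ‖κ‖)) ≤
        2 * L * ‖ξ‖ * (‖r‖ / ‖(2 : k)‖) * (3 / 4) ^ n := by gcongr
    have h11 : 2 * ‖ζ‖ * ‖ξ‖ * 1 ≤ 2 * ‖ζ‖ * ‖ξ‖ * (2 ^ n * (3 / 4) ^ n) := by gcongr
    have h12 := mul_le_mul_of_nonneg_left h10 hM.le
    nlinarith
  exact le_of_mul_le_mul_left h9 hM

/-- **Level 1**: decay of the coefficients of the middle `SL_2`. -/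
theorem dec_mid (hσ : URep σ) (h2 : (2 : k) ≠ 0) {c : k} (hc : 4 ≤ ‖c‖) {ζ ξ : 𝓗} {r : k}
    (hξ : ξ = σ (lg4 r) ζ - ζ) {L : ℝ} (hL0 : 0 ≤ L)
    (hL : ∀ h : S4 k, ‖σ h ξ - ξ‖ ≤ L * pn (h.1.1 - 1)) : Dec mid σ (‖c‖ ^ 4) ξ := by
  obtain ⟨K, hK0, hK⟩ := lvl0 hσ h2 hc hξ hL0 hL
  refine ⟨‖ξ‖ * Real.sqrt (‖ξ‖ ^ 2 + K) + L * ‖ξ‖, fun A l hl => ?_⟩
  obtain ⟨e1, e2, w1, w2, q1, q2, he1, he2, hw1, hw2, hq1, hq2, -, -, hκ, -⟩ := max_entry A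
  have hw0 : σ (ed 1 0 ((0 : k) * q1) (0 * q2)) ξ = ξ := by
    rw [zero_mul, zero_mul, ed_zero', URep.one_apply]
  have := transfer (c := c) hc (C := L * ‖ξ‖) (K := K) (R := ‖ξ‖) (by positivity) hK0
    (η := σ (mid A) ξ) (w := fun y => σ (ed 1 0 (y * q1) (y * q2)) ξ) (hσ.iso _ _).le
    (fun y => (hσ.iso _ _).le) (fun y => ?_) (Γ := nrm A) (fun n y y' hne hn => ?_) l hl
  · simp only [hw0] at this
    exact this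
  · simp only [hw0]
    refine (push_step hσ (U := ed 1 0 (y * e1) (y * e2)) ?_ ξ).trans ?_
    · rw [mid_ed, hq1, hq2]
      congr 2 <;> ring
    · have h3 : ‖σ (ed 1 0 (y * e1) (y * e2)) ξ - ξ‖ ≤ L * ‖y‖ := by
        refine (hL _).trans (mul_le_mul_of_nonneg_left (pn_ed ?_ ?_ ?_ ?_) hL0)
        · rw [one_mul, norm_mul]; nlinarith [norm_nonneg y]
        · rw [one_mul, norm_mul]; nlinarith [norm_nonneg y]
        · rw [zero_mul, norm_zero]; exact norm_nonneg _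
        · rw [zero_mul, norm_zero]; exact norm_nonneg _
      calc ‖σ (ed 1 0 (y * e1) (y * e2)) ξ - ξ‖ * ‖ξ‖ ≤ L * ‖y‖ * ‖ξ‖ := by gcongr
        _ = _ := by ring
  · beta_reduce
    rw [inner_shift hσ (W := ed 1 0 ((y - y') * q1) ((y - y') * q2)) ?_ ξ]
    · refine hK q1 q2 w1 w2 (y - y') n hw1 hw2 ?_
      rw [hκ]; exact hn
    · rw [ed_mul0]
      have e3 : y' * q1 * ((y - y') * q2) - y' * q2 * ((y - y') * q1) = 0 := by ring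
      rw [e3, lg4_zero, mul_one]
      congr 1 <;> ring

/-- **Level 2**: decay along `exp (x (q'' ⊗ q))`. -/
theorem lvl2 (hσ : URep σ) (h2 : (2 : k) ≠ 0) {c : k} (hc : 4 ≤ ‖c‖) {ξ : 𝓗}
    (hd : Dec mid σ (‖c‖ ^ 4) ξ) {L : ℝ} (hL0 : 0 ≤ L)
    (hL : ∀ h : S4 k, ‖σ h ξ - ξ‖ ≤ L * pn (h.1.1 - 1)) :
    ∃ K : ℝ, 0 ≤ K ∧ ∀ (q1 q2 w1 w2 x : k) (n : ℕ) (N : ℝ), ‖w1‖ ≤ 1 → ‖w2‖ ≤ 1 →
      ‖q1‖ ≤ N → ‖q2‖ ≤ N → ‖q1 * w2 - q2 * w1‖ = N → (‖q1‖ = N ∨ ‖q2‖ = N) →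
      ((‖c‖ ^ 4) ^ 4) ^ n ≤ ‖x‖ * (‖(2 : k)‖ * N ^ 2) →
      ‖⟪σ (ed (x * q1) (-(x * q2)) q1 q2) ξ, ξ⟫_ℂ‖ ≤ K * (3 / 4) ^ n := by
  obtain ⟨K, hK⟩ := hd
  have hc1 : 4 ≤ ‖c ^ 4‖ := by
    rw [norm_pow]
    calc (4 : ℝ) ≤ 4 ^ 4 := by norm_num
      _ ≤ ‖c‖ ^ 4 := pow_le_pow_left₀ (by norm_num) hc 4
  refine ⟨‖ξ‖ * Real.sqrt (‖ξ‖ ^ 2 + |K|) + 2 * L * ‖ξ‖, by positivity, ?_⟩
  intro q1 q2 w1 w2 x n N hw1 hw2 hq1 hq2 hκ hq hn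
  have hpos : 0 < ‖x‖ * (‖(2 : k)‖ * N ^ 2) :=
    lt_of_lt_of_le (pow_pos (pow_pos (pow_pos (by linarith) 4) 4) n) hn
  have hx : x ≠ 0 := by rintro rfl; simp at hpos
  have hN0 : 0 ≤ N := by rw [← hκ]; exact norm_nonneg _
  have hN : N ≠ 0 := by rintro rfl; simp at hpos
  have hNpos : 0 < N := lt_of_le_of_ne hN0 (Ne.symm hN)
  obtain ⟨κ, hκ'⟩ : ∃ κ, κ = q1 * w2 - q2 * w1 := ⟨_, rfl⟩
  rw [← hκ'] at hκ
  have hκ0 : κ ≠ 0 := by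
    rw [← norm_pos_iff, hκ]; exact hNpos
  obtain ⟨V, hV⟩ : ∃ V, V = ed (x * q1) (-(x * q2)) q1 q2 := ⟨_, rfl⟩
  rw [← hV]
  have hw0 : σ (mid (tq q1 q2 (2 * x * 0))) ξ = ξ := by
    rw [mul_zero, tq_zero, map_one, URep.one_apply]
  have key := transfer (c := c ^ 4) hc1 (C := 2 * L * ‖ξ‖) (K := |K|) (R := ‖ξ‖) (by positivity)
    (abs_nonneg K) (η := σ V⁻¹ ξ) (w := fun y => σ (mid (tq q1 q2 (2 * x * y))) ξ)
    (hσ.iso _ _).le (fun y => (hσ.iso _ _).le) (fun y => ?_) (Γ := ‖x‖ * (‖(2 : k)‖ * N ^ 2))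
    (fun n y y' hne hn => ?_) n (by rw [norm_pow]; exact hn)
  · simp only [hw0] at key
    rw [← hσ.inner_right, norm_inner_symm] at key
    exact key
  · simp only [hw0]
    rw [← inner_sub_right, ← hσ.inner_right, norm_inner_symm, map_sub, inner_sub_left]
    have hcomm : V * ed (-(y / κ * w1)) (y / κ * w2) q1 q2 =
        ed (-(y / κ * w1)) (y / κ * w2) q1 q2 * (V * mid (tq q1 q2 (2 * x * y))) := by
      rw [hV, ← mul_assoc, ed_mul, ed_mul, mul_assoc (ed (-(y / κ * w1) + x * q1) _ q1 q2),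
        ← map_mul, ← tq_add, add_comm (x * q1), add_comm (-(x * q2))]
      have e1 : y / κ * κ = y := div_mul_cancel₀ y hκ0
      congr 3
      rw [hκ'] at e1 ⊢
      linear_combination (2 * x) * e1
    refine (comm_step hσ hcomm ξ).trans ?_
    have hyκ : ‖y / κ‖ * N = ‖y‖ := by rw [norm_div, hκ, div_mul_cancel₀ _ hN]
    have hb : ∀ u q : k, ‖u‖ ≤ 1 → ‖q‖ ≤ N → ‖y / κ * u * q‖ ≤ ‖y‖ := by
      intro u q hu hq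
      rw [norm_mul, norm_mul, ← hyκ]
      have h0 := norm_nonneg (y / κ)
      calc ‖y / κ‖ * ‖u‖ * ‖q‖ ≤ ‖y / κ‖ * 1 * N := by gcongr
        _ = _ := by ring
    have h3 : ‖σ (ed (-(y / κ * w1)) (y / κ * w2) q1 q2) ξ - ξ‖ ≤ L * ‖y‖ := by
      refine (hL _).trans (mul_le_mul_of_nonneg_left (pn_ed ?_ ?_ ?_ ?_) hL0)
      · rw [neg_mul, norm_neg]; exact hb _ _ hw1 hq1
      · rw [neg_mul, norm_neg]; exact hb _ _ hw1 hq2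
      · exact hb _ _ hw2 hq1
      · exact hb _ _ hw2 hq2
    calc 2 * ‖σ (ed (-(y / κ * w1)) (y / κ * w2) q1 q2) ξ - ξ‖ * ‖ξ‖ ≤ 2 * (L * ‖y‖) * ‖ξ‖ := by
          gcongr
      _ = _ := by ring
  · beta_reduce
    rw [inner_shift hσ (W := mid (tq q1 q2 (2 * x * (y - y')))) ?_ ξ]
    · have h5 := hK (tq q1 q2 (2 * x * (y - y'))) n (by
        have hn' : (‖c‖ ^ 4) ^ n ≤ ‖y - y'‖ * (‖x‖ * (‖(2 : k)‖ * N ^ 2)) := by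
          rw [← norm_pow]; exact hn
        refine hn'.trans ?_
        have a2 : ‖(tq q1 q2 (2 * x * (y - y'))).1 1 0‖ ≤ nrm (tq q1 q2 (2 * x * (y - y'))) :=
          (le_max_right _ _).trans (le_max_left _ _)
        have a3 : ‖(tq q1 q2 (2 * x * (y - y'))).1 0 1‖ ≤ nrm (tq q1 q2 (2 * x * (y - y'))) :=
          (le_max_left _ _).trans (le_max_right _ _)
        rcases hq with hq | hq
        · refine le_trans (le_of_eq ?_) a3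
          have : (tq q1 q2 (2 * x * (y - y'))).1 0 1 = 2 * x * (y - y') * q1 ^ 2 := rfl
          rw [this, norm_mul, norm_mul, norm_mul, norm_pow, hq]
          ring
        · refine le_trans (le_of_eq ?_) a2
          have : (tq q1 q2 (2 * x * (y - y'))).1 1 0 = -(2 * x * (y - y') * q2 ^ 2) := rfl
          rw [this, norm_neg, norm_mul, norm_mul, norm_mul, norm_pow, hq]
          ring)
      exact h5.trans (mul_le_mul_of_nonneg_right (le_abs_self K) (by positivity))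
    · rw [← map_mul, ← tq_add]
      congr 2
      ring

/-- **Level 3**: decay of the coefficients of the twisted diagonal `SL_2`. -/
theorem dec_tw (hσ : URep σ) (h2 : (2 : k) ≠ 0) {c : k} (hc : 4 ≤ ‖c‖) (hc2 : 2 ≤ ‖c‖ * ‖(2 : k)‖)
    {ξ : 𝓗} (hd : Dec mid σ (‖c‖ ^ 4) ξ) {L : ℝ} (hL0 : 0 ≤ L)
    (hL : ∀ h : S4 k, ‖σ h ξ - ξ‖ ≤ L * pn (h.1.1 - 1)) :
    Dec tw σ (((‖c‖ ^ 4) ^ 4) ^ 4) ξ := by
  obtain ⟨K, hK0, hK⟩ := lvl2 hσ h2 hc hd hL0 hL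
  have hB : 0 < ‖c‖ := by linarith
  have hc1 : 4 ≤ ‖(c ^ 4) ^ 4‖ := by
    rw [norm_pow, norm_pow, ← pow_mul]
    calc (4 : ℝ) ≤ 4 ^ (4 * 4) := by norm_num
      _ ≤ ‖c‖ ^ (4 * 4) := pow_le_pow_left₀ (by norm_num) hc _
  refine ⟨‖ξ‖ * Real.sqrt (‖ξ‖ ^ 2 + K) + L * ‖ξ‖ + ‖ξ‖ ^ 2, fun A l hl => ?_⟩
  rcases Nat.eq_zero_or_pos l with rfl | hlpos
  · rw [pow_zero, mul_one]
    have h0 : ‖⟪σ (tw A) ξ, ξ⟫_ℂ‖ ≤ ‖ξ‖ ^ 2 := by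
      refine (norm_inner_le_norm _ _).trans ?_
      rw [hσ.iso, sq]
    have : 0 ≤ ‖ξ‖ * Real.sqrt (‖ξ‖ ^ 2 + K) + L * ‖ξ‖ := by positivity
    linarith
  obtain ⟨e1, e2, w1, w2, q1, q2, he1, he2, hw1, hw2, hq1, hq2, hn1, hn2, hκ, hq⟩ := max_entry A
  have hw0 : σ (ed ((0 : k) * q1) (-(0 * q2)) q1 q2) ξ = ξ := by
    rw [zero_mul, zero_mul, neg_zero, ed_zero, URep.one_apply]
  have hΓ : (((‖c‖ ^ 4) ^ 4) ^ 4) ^ l ≤ ‖(2 : k)‖ * nrm A ^ 2 := by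
    have hD : (1 : ℝ) ≤ ‖(2 : k)‖ * (((‖c‖ ^ 4) ^ 4) ^ 4) ^ l := by
      have h3 : ‖c‖ ≤ (((‖c‖ ^ 4) ^ 4) ^ 4) ^ l := by
        rw [← pow_mul, ← pow_mul, ← pow_mul]
        exact le_self_pow₀ (by linarith) (by positivity)
      calc (1 : ℝ) ≤ ‖(2 : k)‖ * ‖c‖ := by linarith
        _ ≤ _ := by gcongr
    have hP : (0 : ℝ) < (((‖c‖ ^ 4) ^ 4) ^ 4) ^ l := by positivity
    calc (((‖c‖ ^ 4) ^ 4) ^ 4) ^ l = 1 * (((‖c‖ ^ 4) ^ 4) ^ 4) ^ l := (one_mul _).symm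
      _ ≤ (‖(2 : k)‖ * (((‖c‖ ^ 4) ^ 4) ^ 4) ^ l) * (((‖c‖ ^ 4) ^ 4) ^ 4) ^ l := by gcongr
      _ = ‖(2 : k)‖ * ((((‖c‖ ^ 4) ^ 4) ^ 4) ^ l) ^ 2 := by ring
      _ ≤ ‖(2 : k)‖ * nrm A ^ 2 := by gcongr
  have key := transfer (c := (c ^ 4) ^ 4) hc1 (C := L * ‖ξ‖) (K := K) (R := ‖ξ‖) (by positivity) hK0
    (η := σ (tw A) ξ) (w := fun y => σ (ed (y * q1) (-(y * q2)) q1 q2) ξ) (hσ.iso _ _).le
    (fun y => (hσ.iso _ _).le) (fun y => ?_) (Γ := ‖(2 : k)‖ * nrm A ^ 2)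
    (fun n y y' hne hn => ?_) l (by rw [norm_pow, norm_pow]; exact hΓ)
  · simp only [hw0] at key
    refine key.trans (mul_le_mul_of_nonneg_right ?_ (by positivity))
    linarith [sq_nonneg ‖ξ‖]
  · simp only [hw0]
    refine (push_step hσ (U := ed (y * e1) (-(y * e2)) e1 e2) ?_ ξ).trans ?_
    · rw [tw_ed, hq1, hq2]
    · have hb : ∀ u u' : k, ‖u‖ ≤ 1 → ‖u'‖ ≤ 1 → ‖y * u * u'‖ ≤ ‖y‖ := by
        intro u u' hu hu'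
        rw [norm_mul, norm_mul]
        calc ‖y‖ * ‖u‖ * ‖u'‖ ≤ ‖y‖ * 1 * 1 := by gcongr
          _ = _ := by ring
      have h3 : ‖σ (ed (y * e1) (-(y * e2)) e1 e2) ξ - ξ‖ ≤ L * ‖y‖ := by
        refine (hL _).trans (mul_le_mul_of_nonneg_left (pn_ed ?_ ?_ ?_ ?_) hL0)
        · exact hb _ _ he1 he1
        · exact hb _ _ he1 he2
        · rw [neg_mul, norm_neg]; exact hb _ _ he2 he1
        · rw [neg_mul, norm_neg]; exact hb _ _ he2 he2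
      calc ‖σ (ed (y * e1) (-(y * e2)) e1 e2) ξ - ξ‖ * ‖ξ‖ ≤ L * ‖y‖ * ‖ξ‖ := by gcongr
        _ = _ := by ring
  · beta_reduce
    rw [inner_shift hσ (W := ed ((y - y') * q1) (-((y - y') * q2)) q1 q2) ?_ ξ]
    · refine hK q1 q2 w1 w2 (y - y') n (nrm A) hw1 hw2 hn1 hn2 hκ hq ?_
      rw [← norm_pow, ← norm_pow]; exact hn
    · rw [ed_mul]
      have e3 : y' * q1 * -((y - y') * q2) - -(y' * q2) * ((y - y') * q1) = 0 := by ring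
      rw [e3, tq_zero, map_one, mul_one]
      congr 1 <;> ring

end four

section total

variable {k : Type} [NontriviallyNormedField k]

theorem alt_J4 : H15.Alt (J4 k) where
  diag i := by fin_cases i <;> simp [J4]
  skew i j := by fin_cases i <;> fin_cases j <;> simp [J4]
  det := by
    unfold J4
    rw [det4]
    simp

/-- the long root group is a Moore set -/
theorem moore_lg [ProperSpace k] {S : Set (S4 k)} (hS : ∀ s, lg4 s ∈ S) : RC.Moore S := by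
  refine H714.Sp.moore_of_tendsto (H15.hmg_alt (alt_J4 (k := k))) (l := Bornology.cobounded k)
    (b := lg4) ?_ (Eventually.of_forall hS)
  refine H714.Sp.tendsto_cocompact_of (f := fun g : S4 k => ‖g.1.1 0 3‖) ?_ ?_
  · exact (cont_val.matrix_elem 0 3).norm
  · have e : (fun s : k => ‖(lg4 s).1.1 0 3‖) = fun s => ‖s‖ := by
      funext s
      rw [lg4_val]
      simp
    rw [e]
    exact tendsto_norm_cobounded_atTop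

variable {𝓗 : Type} [NormedAddCommGroup 𝓗] [InnerProductSpace ℂ 𝓗] [CompleteSpace 𝓗]
  {σ : S4 k →* (𝓗 →L[ℂ] 𝓗)}

/-- the total set of good vectors -/
def good (σ : S4 k →* (𝓗 →L[ℂ] 𝓗)) : Set 𝓗 :=
  {ξ | ∃ (r : k) (ζ : 𝓗), ζ ∈ Lips σ ∧ ξ = σ (lg4 r) ζ - ζ}

theorem isClosed_S4 : IsClosed (S4 k : Set (SpecialLinearGroup (Fin 4) k)) :=
  H303.isClosed_formGroup (σ := RingHom.id k) continuous_id (J4 k)

theorem total [ProperSpace k] (hσ : URep σ) {v : 𝓗} (hv : ∀ η ∈ fixedSub σ, ⟪η, v⟫_ℂ = 0) :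
    v ∈ (Submodule.span ℂ (good σ)).topologicalClosure := by
  rw [← Submodule.orthogonal_orthogonal_eq_closure, Submodule.mem_orthogonal]
  intro η hη
  refine hv η ?_
  have hfix : ∀ r, σ (lg4 r) η = η := by
    intro r
    have h1 : ∀ ζ ∈ Lips σ, ⟪ζ, σ (lg4 r) η - η⟫_ℂ = 0 := by
      intro ζ hζ
      have h2 := (Submodule.mem_orthogonal _ _).1 hη (σ (lg4 (-r)) ζ - ζ)
        (Submodule.subset_span ⟨-r, ζ, hζ, rfl⟩)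
      rw [inner_sub_left, hσ.inner_left] at h2
      have e : (lg4 (-r))⁻¹ = lg4 r := by
        rw [inv_eq_iff_mul_eq_one, ← lg4_add, neg_add_cancel, lg4_zero]
      rw [e] at h2
      rw [inner_sub_right]
      exact h2
    have h3 : ∀ ζ : 𝓗, ⟪ζ, σ (lg4 r) η - η⟫_ℂ = 0 := by
      intro ζ
      have hcl : IsClosed {ζ : 𝓗 | ⟪ζ, σ (lg4 r) η - η⟫_ℂ = 0} :=
        isClosed_eq (continuous_id.inner continuous_const) continuous_const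
      exact closure_minimal h1 hcl (dense_lips isClosed_S4 hσ ζ)
    exact sub_eq_zero.1 (inner_self_eq_zero.1 (h3 _))
  have hcont : ∀ ξ, Continuous fun g => σ g ξ := by
    intro ξ
    rw [continuous_iff_continuousAt]
    intro g
    exact hσ.tendsto tendsto_id tendsto_const_nhds
  exact moore_lg (S := Set.range lg4) (fun s => ⟨s, rfl⟩) 𝓗 σ hσ.iso hcont η (by
    rintro _ ⟨s, rfl⟩; exact hfix s)

/-- Lipschitz vectors form an invariant set -/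
theorem lips_lg (hσ : URep σ) {ζ : 𝓗} (hζ : ζ ∈ Lips σ) (r : k) :
    ∃ L : ℝ, 0 ≤ L ∧ ∀ h : S4 k, ‖σ h (σ (lg4 r) ζ - ζ) - (σ (lg4 r) ζ - ζ)‖ ≤
      L * pn (h.1.1 - 1) := by
  obtain ⟨C, hC0, hC⟩ := hζ
  obtain ⟨g, hg⟩ : ∃ g : S4 k, g = lg4 r := ⟨_, rfl⟩
  rw [← hg]
  obtain ⟨D, hD⟩ : ∃ D : ℝ, D = (Fintype.card (Fin 4) : ℝ) * (pn (g⁻¹ : S4 k).1.1 *
    (Fintype.card (Fin 4) * pn g.1.1)) := ⟨_, rfl⟩
  have hD0 : 0 ≤ D := by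
    rw [hD]
    have := pn_nonneg (g⁻¹ : S4 k).1.1
    have := pn_nonneg g.1.1
    positivity
  refine ⟨C * D + C, by positivity, fun h => ?_⟩
  have e1 : σ h (σ g ζ - ζ) - (σ g ζ - ζ) =
      σ g (σ (g⁻¹ * h * g) ζ - ζ) - (σ h ζ - ζ) := by
    rw [map_sub, map_sub, ← URep.mul_apply, ← URep.mul_apply]
    have : g * (g⁻¹ * h * g) = h * g := by group
    rw [this]
    abel
  rw [e1]
  refine (norm_sub_le _ _).trans ?_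
  rw [hσ.iso, add_mul]
  refine add_le_add ?_ (hC h)
  refine (hC _).trans ?_
  have e2 : (g⁻¹ * h * g : S4 k).1.1 - 1 = (g⁻¹ : S4 k).1.1 * ((h.1.1 - 1) * g.1.1) := by
    have h1 : (g⁻¹ * h * g : S4 k).1.1 = (g⁻¹ : S4 k).1.1 * h.1.1 * g.1.1 := rfl
    have h2 : (g⁻¹ : S4 k).1.1 * g.1.1 = 1 := congrArg (fun g : S4 k => g.1.1) (inv_mul_cancel g)
    rw [h1, Matrix.sub_mul, Matrix.mul_sub, Matrix.one_mul, h2, Matrix.mul_assoc]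
  rw [e2, mul_assoc]
  refine mul_le_mul_of_nonneg_left ?_ hC0
  have h3 := pn_mul (g⁻¹ : S4 k).1.1 ((h.1.1 - 1) * g.1.1)
  have h4 := pn_mul (h.1.1 - 1) g.1.1
  have h5 := pn_nonneg (g⁻¹ : S4 k).1.1
  have h6 := pn_nonneg (h.1.1 - 1)
  calc pn ((g⁻¹ : S4 k).1.1 * ((h.1.1 - 1) * g.1.1))
      ≤ Fintype.card (Fin 4) * (pn (g⁻¹ : S4 k).1.1 *
        (Fintype.card (Fin 4) * (pn (h.1.1 - 1) * pn g.1.1))) := h3.trans (by gcongr)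
    _ = D * pn (h.1.1 - 1) := by rw [hD]; ring

variable [ProperSpace k]

/-- **The uniform contraction of the middle `SL_2`.** -/
theorem gap_mid (h2 : (2 : k) ≠ 0) : ∃ c : k, ∀ (𝓗 : Type) [NormedAddCommGroup 𝓗]
    [InnerProductSpace ℂ 𝓗] [CompleteSpace 𝓗] (σ : S4 k →* (𝓗 →L[ℂ] 𝓗)), URep σ →
    ∀ v : 𝓗, (∀ η ∈ fixedSub σ, ⟪η, v⟫_ℂ = 0) → ‖avg mid σ c v‖ ≤ (98 / 100) * ‖v‖ := by
  obtain ⟨c, hc⟩ := NormedField.exists_lt_norm k (4 + 2 / ‖(2 : k)‖)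
  have h2n : 0 < ‖(2 : k)‖ := norm_pos_iff.2 h2
  have h3 : 0 < 2 / ‖(2 : k)‖ := by positivity
  have hc4 : 4 ≤ ‖c‖ := by linarith
  have hc2 : 2 ≤ ‖c‖ * ‖(2 : k)‖ := by
    rw [← div_le_iff₀ h2n]; linarith
  have hcc : ‖c‖ ≤ ‖c ^ 4‖ := by
    rw [norm_pow]; exact le_self_pow₀ (by linarith) (by norm_num)
  refine ⟨c ^ 4, ?_⟩
  intro 𝓗 _ _ _ σ hσ v hv
  refine gap_core hσ (by linarith) ?_ (D := good σ) ?_ (total hσ hv)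
  · refine hc2.trans (mul_le_mul_of_nonneg_right hcc h2n.le)
  · rintro ξ ⟨r, ζ, hζ, rfl⟩
    obtain ⟨L, hL0, hL⟩ := lips_lg hσ hζ r
    rw [norm_pow]
    exact dec_mid hσ h2 hc4 rfl hL0 hL

/-- **The uniform contraction of the twisted diagonal `SL_2`.** -/
theorem gap_tw (h2 : (2 : k) ≠ 0) : ∃ c : k, ∀ (𝓗 : Type) [NormedAddCommGroup 𝓗]
    [InnerProductSpace ℂ 𝓗] [CompleteSpace 𝓗] (σ : S4 k →* (𝓗 →L[ℂ] 𝓗)), URep σ →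
    ∀ v : 𝓗, (∀ η ∈ fixedSub σ, ⟪η, v⟫_ℂ = 0) → ‖avg tw σ c v‖ ≤ (98 / 100) * ‖v‖ := by
  obtain ⟨c, hc⟩ := NormedField.exists_lt_norm k (4 + 2 / ‖(2 : k)‖)
  have h2n : 0 < ‖(2 : k)‖ := norm_pos_iff.2 h2
  have h3 : 0 < 2 / ‖(2 : k)‖ := by positivity
  have hc4 : 4 ≤ ‖c‖ := by linarith
  have hc2 : 2 ≤ ‖c‖ * ‖(2 : k)‖ := by
    rw [← div_le_iff₀ h2n]; linarith
  have hcc : ‖c‖ ≤ ‖((c ^ 4) ^ 4) ^ 4‖ := by
    rw [← pow_mul, ← pow_mul, norm_pow]; exact le_self_pow₀ (by linarith) (by norm_num)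
  refine ⟨((c ^ 4) ^ 4) ^ 4, ?_⟩
  intro 𝓗 _ _ _ σ hσ v hv
  refine gap_core hσ (by linarith) ?_ (D := good σ) ?_ (total hσ hv)
  · refine hc2.trans (mul_le_mul_of_nonneg_right hcc h2n.le)
  · rintro ξ ⟨r, ζ, hζ, rfl⟩
    obtain ⟨L, hL0, hL⟩ := lips_lg hσ hζ r
    rw [norm_pow, norm_pow, norm_pow]
    exact dec_tw hσ h2 hc4 hc2 (dec_mid hσ h2 hc4 rfl hL0 hL) hL0 hL

/-- the gap for an element commuting with an embedded `SL_2` -/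
theorem leviGap_avg {τ : SpecialLinearGroup (Fin 2) k →* S4 k} {c : k}
    (h : ∀ (𝓗 : Type) [NormedAddCommGroup 𝓗]
      [InnerProductSpace ℂ 𝓗] [CompleteSpace 𝓗] (σ : S4 k →* (𝓗 →L[ℂ] 𝓗)), URep σ →
      ∀ v : 𝓗, (∀ η ∈ fixedSub σ, ⟪η, v⟫_ℂ = 0) → ‖avg τ σ c v‖ ≤ (98 / 100) * ‖v‖)
    {a : S4 k} (ha : ∀ A, Commute (τ A) a) : LeviGap a := by
  refine leviGap_of (ι₀ := Fin 4) (w₀ := fun i => τ (sh4 c i)) (fun i => ha _)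
    (q := 98 / 100) (by norm_num) (by norm_num) ?_
  intro 𝓗 _ _ _ σ hσ v hv
  have h1 := h 𝓗 σ hσ v hv
  rw [avg_apply] at h1
  rw [← Complex.coe_smul]
  simpa using h1

/-- **[P-GAP], point wall of `Sp_4(k)`.** -/
theorem leviGap_b1 (h2 : (2 : k) ≠ 0) (w : kˣ) : LeviGap (⟨b1 w, b1_mem w⟩ : S4 k) := by
  obtain ⟨c, hc⟩ := gap_mid h2
  exact leviGap_avg hc fun A => mid_b1 A w

/-- **[P-GAP], line wall of `Sp_4(k)`.** -/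
theorem leviGap_b2 (h2 : (2 : k) ≠ 0) (w : kˣ) : LeviGap (⟨b2 w, b2_mem w⟩ : S4 k) := by
  obtain ⟨c, hc⟩ := gap_tw h2
  obtain ⟨P, X, h3, h4⟩ := b2_eq h2 w
  rw [← h4]
  exact (leviGap_avg hc h3).conj P

end total

end Vale.Agent.P092.H956
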