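import Vale.Agent.P092.H956.FmG9
import Vale.Agent.P092.CL.LtO

/-!
P092 (helper956), [CL-GAP] (iv): the gap of the walls in the letters of `CL/LtO` (orthogonal groups,
Witt index `s + 2`, `2 ≠ 0`, nonempty kernel).
-/

set_option linter.all false

open scoped InnerProductSpace commutatorElement
open Set Filter Topology Matrix

namespace Vale.Agent.P092.H956

open Vale.Agent.P092.H303 (FormGroup hyp Idx torF torF_mem dgF)
open Vale.Agent.P092.H714.Cl (hf Frm GT)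
open Vale.Agent.P092.H933 (LeviGap LocK)
open Vale.Agent.P092.H15 (HMG)
open Vale.Agent.P092.H370.Fo (EU EU_le)
open Vale.Agent.P092.CL (EUF OF b1O b2O)

variable {k : Type} [NontriviallyNormedField k] [ProperSpace k]
  {ι : Type} [Fintype ι] [DecidableEq ι] {s : ℕ} {J₀ : Matrix ι ι k}

theorem hmg_eu (h : OF J₀) (s : ℕ) : HMG (EU (RingHom.id k) 1 (hyp (s + 2) 1 J₀)) := by
  rw [h.eu s]
  exact H899.Ort.hmg_om (h.good' s)

theorem comm_le_eu (h : OF J₀) (s : ℕ) :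
    ⁅FormGroup (RingHom.id k) (hyp (s + 2) 1 J₀), FormGroup (RingHom.id k) (hyp (s + 2) 1 J₀)⁆ ≤
      EU (RingHom.id k) 1 (hyp (s + 2) 1 J₀) := by
  rw [h.eu s]
  refine (H899.Ort.commutator_eq_om (h.dim s) h.two h.sym h.an _ fun g => ?_).le
  have e : g.1.map (RingHom.id k) = g.1 := by ext i j; rfl
  show g.1 * hyp (s + 2) 1 J₀ * ((g.1.map (RingHom.id k)))ᵀ = _ ↔ _
  rw [e]

/-- the group, as a subgroup of `FormGroup` -/
noncomputable def toEUF (h : OF J₀) (s : ℕ) : EU (RingHom.id k) 1 (hyp (s + 2) 1 J₀) →*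
    EUF (RingHom.id k) 1 (hyp (s + 2) 1 J₀) where
  toFun x := ⟨⟨x.1, EU_le (h.fm s) x.2⟩, x.2⟩
  map_one' := rfl
  map_mul' _ _ := rfl

theorem toEUF_cont (h : OF J₀) (s : ℕ) : Continuous (toEUF h s) :=
  (continuous_subtype_val.subtype_mk _).subtype_mk _

theorem toEUF_surj (h : OF J₀) (s : ℕ) : Function.Surjective (toEUF h s) :=
  fun x => ⟨⟨x.1.1, x.2⟩, rfl⟩

theorem exists_vec (h : OF J₀) : ∃ u : ι → k, u ⬝ᵥ (J₀ *ᵥ u) ≠ 0 := by
  obtain ⟨i⟩ := h.ne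
  refine ⟨Pi.single i 1, h.an _ ?_⟩
  exact Pi.single_ne_zero_iff.2 one_ne_zero

/-- **[CL-GAP] (iv), point wall.** -/
theorem gapO_b1 (h : OF J₀) (s : ℕ) {a : k} (ha : a ≠ 0) : LeviGap (b1O h s ha) := by
  obtain ⟨u, hu⟩ := exists_vec h
  have h1 : LeviGap (⟨torF (s + 2) ι (pow_ne_zero 2 ha) (Pi.single 0 1), h.tor_mem s ha _⟩ :
      EU (RingHom.id k) 1 (hyp (s + 2) 1 J₀)) :=
    leviGap_orth1 h.two h.sym hu (comm_le_eu h s) (EU_le (h.fm s)) (hmg_eu h s)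
      (d := dgF (s + 2) ι (a ^ 2) (Pi.single 0 1)) rfl (z := 1) (fun _ => rfl)
      (s := 0) (t := 1) (by simp) (by simp [dgF]) (by simp [dgF])
  exact h1.map (toEUF h s) (toEUF_cont h s) (toEUF_surj h s)

/-- **[CL-GAP] (iv), wall of the maximal subspaces.** -/
theorem gapO_b2 (h : OF J₀) (s : ℕ) {a : k} (ha : a ≠ 0) : LeviGap (b2O h s ha) := by
  obtain ⟨u, hu⟩ := exists_vec h
  have h1 : LeviGap (⟨torF (s + 2) ι (pow_ne_zero 2 ha) fun _ => 1, h.tor_mem s ha _⟩ :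
      EU (RingHom.id k) 1 (hyp (s + 2) 1 J₀)) :=
    leviGap_orth2 h.two h.sym hu (comm_le_eu h s) (EU_le (h.fm s)) (hmg_eu h s)
      (d := dgF (s + 2) ι (a ^ 2) fun _ => 1) rfl (z := 1) (fun _ => rfl)
      (s := 0) (t := 1) (by simp) (by simp [dgF]) (by simp [dgF])
  exact h1.map (toEUF h s) (toEUF_cont h s) (toEUF_surj h s)

/-- both walls, in the form of the hypothesis `hg` of `CL/AsmO`. -/
theorem gapO (h : OF J₀) (s : ℕ) {a : k} (ha : a ≠ 0) (_ : ‖a‖ < 1) :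
    LeviGap (b1O h s ha) ∧ LeviGap (b2O h s ha) :=
  ⟨gapO_b1 h s ha, gapO_b2 h s ha⟩

end Vale.Agent.P092.H956
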