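import Vale.Agent.P092.H553.Ops

/-!
P092 (helper956): block [B5], the separation estimate (Cauchy-Schwarz over pairs with bounded
fibres).
-/

set_option linter.all false

open scoped InnerProductSpace
open Filter Topology ContinuousLinearMap

namespace Vale.Agent.P092.H956

open Vale.Agent.P092.H160 Vale.Agent.P092.H553

variable {Γ Λ : Type} [Group Γ] [Group Λ] {V : Λ →* (Ell2 Γ →L[ℂ] Ell2 Γ)}

theorem sum_sq_le (ξ : Ell2 Γ) (s : Finset Γ) : ∑ x ∈ s, ‖ξ x‖ ^ 2 ≤ ‖ξ‖ ^ 2 := by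
  rw [norm_sq]
  exact (summable_sq ξ).sum_le_tsum s (fun _ _ => by positivity)

/-- Matrix coefficients of right multiplications. -/
theorem inner_dl_W (hV : Frame V) (u : Λ) (h k : Γ) :
    ⟪(dl h : Ell2 Γ), Wr V u⁻¹ (dl k)⟫_ℂ = V u (dl 1) (k⁻¹ * h) := by
  have h1 : (dl k : Ell2 Γ) = lam k (dl 1) := by rw [lam_dl, mul_one]
  rw [h1, Wr_lam hV, Wr_xi hV, inv_inv, inner_dl, lam_apply]

/-- The combinatorial estimate for finite sets. -/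
theorem fin_est (a b f F : Γ → ℝ) (ha : ∀ x, 0 ≤ a x) (hb : ∀ x, 0 ≤ b x) (hf : ∀ x, 0 ≤ f x)
    (M : ℝ) (hM : ∀ s : Finset Γ, ∑ g ∈ s, (F g * f g) ^ 2 ≤ M ^ 2) (hM0 : 0 ≤ M)
    (T : Finset Γ)
    (h1 : ∀ k h, a k ≠ 0 → b h ≠ 0 → 1 ≤ F (k⁻¹ * h) ^ 2)
    (h2 : ∀ k₁ h₁ k₂ h₂, a k₁ ≠ 0 → b h₁ ≠ 0 → a k₂ ≠ 0 → b h₂ ≠ 0 →
      k₁⁻¹ * h₁ = k₂⁻¹ * h₂ → k₂ * k₁⁻¹ ∈ T) (s t : Finset Γ) :
    ∑ k ∈ s, ∑ h ∈ t, a k * b h * f (k⁻¹ * h) ≤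
      Real.sqrt T.card * Real.sqrt (∑ k ∈ s, a k ^ 2) * Real.sqrt (∑ h ∈ t, b h ^ 2) * M := by
  classical
  -- pairs
  set S : Finset (Γ × Γ) := (s ×ˢ t).filter fun p => a p.1 ≠ 0 ∧ b p.2 ≠ 0 with hS
  have e1 : ∑ k ∈ s, ∑ h ∈ t, a k * b h * f (k⁻¹ * h) =
      ∑ p ∈ S, (a p.1 * b p.2) * f (p.1⁻¹ * p.2) := by
    rw [← Finset.sum_product', hS, Finset.sum_filter]
    refine Finset.sum_congr rfl fun p _ => ?_
    by_cases h : a p.1 ≠ 0 ∧ b p.2 ≠ 0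
    · rw [if_pos h]
    · rw [if_neg h]
      rw [not_and_or, not_not, not_not] at h
      rcases h with h | h <;> simp [h]
  have e2 : ∑ p ∈ S, (a p.1 * b p.2) ^ 2 ≤ (∑ k ∈ s, a k ^ 2) * ∑ h ∈ t, b h ^ 2 := by
    rw [Finset.sum_mul_sum, ← Finset.sum_product']
    refine (Finset.sum_le_sum_of_subset_of_nonneg (Finset.filter_subset _ _)
      fun p _ _ => by positivity).trans (le_of_eq ?_)
    exact Finset.sum_congr rfl fun p _ => by ring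
  have e3 : ∑ p ∈ S, f (p.1⁻¹ * p.2) ^ 2 ≤ T.card * M ^ 2 := by
    set I := S.image fun p => p.1⁻¹ * p.2 with hI
    have hfib : ∀ g ∈ I, (S.filter fun p => p.1⁻¹ * p.2 = g).card ≤ T.card := by
      intro g hg
      obtain ⟨p0, hp0, rfl⟩ := Finset.mem_image.mp hg
      refine Finset.card_le_card_of_injOn (fun p => p.1 * p0.1⁻¹) ?_ ?_
      · intro p hp
        obtain ⟨hp, he⟩ := Finset.mem_filter.mp hp
        obtain ⟨_, hp⟩ := Finset.mem_filter.mp hp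
        obtain ⟨_, hp0⟩ := Finset.mem_filter.mp hp0
        exact h2 p0.1 p0.2 p.1 p.2 hp0.1 hp0.2 hp.1 hp.2 he.symm
      · intro p hp q hq hpq
        obtain ⟨_, he⟩ := Finset.mem_filter.mp hp
        obtain ⟨_, he'⟩ := Finset.mem_filter.mp hq
        have h3 : p.1 = q.1 := mul_right_cancel hpq
        have h4 : p.1⁻¹ * p.2 = q.1⁻¹ * q.2 := he.trans he'.symm
        rw [h3] at h4
        exact Prod.ext h3 (mul_left_cancel h4)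
    have e4 : ∑ p ∈ S, f (p.1⁻¹ * p.2) ^ 2 =
        ∑ g ∈ I, ((S.filter fun p => p.1⁻¹ * p.2 = g).card : ℝ) * f g ^ 2 := by
      rw [← Finset.sum_fiberwise_of_maps_to (g := fun p : Γ × Γ => p.1⁻¹ * p.2) (t := I)
        (fun p hp => Finset.mem_image_of_mem _ hp)]
      refine Finset.sum_congr rfl fun g _ => ?_
      rw [← nsmul_eq_mul, ← Finset.sum_const]
      refine Finset.sum_congr rfl fun p hp => ?_
      rw [(Finset.mem_filter.mp hp).2]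
    rw [e4]
    refine (Finset.sum_le_sum (g := fun g => (T.card : ℝ) * (F g * f g) ^ 2) fun g hg => ?_).trans ?_
    · obtain ⟨p0, hp0, rfl⟩ := Finset.mem_image.mp hg
      have h5 := hfib _ hg
      obtain ⟨_, hp0'⟩ := Finset.mem_filter.mp hp0
      have h6 := h1 _ _ hp0'.1 hp0'.2
      have h7 : ((S.filter fun p => p.1⁻¹ * p.2 = p0.1⁻¹ * p0.2).card : ℝ) ≤ T.card := by
        exact_mod_cast h5
      rw [mul_pow]
      have h8 : f (p0.1⁻¹ * p0.2) ^ 2 ≤ F (p0.1⁻¹ * p0.2) ^ 2 * f (p0.1⁻¹ * p0.2) ^ 2 :=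
        le_mul_of_one_le_left (by positivity) h6
      exact mul_le_mul h7 h8 (by positivity) (by positivity)
    · rw [← Finset.mul_sum]
      exact mul_le_mul_of_nonneg_left (hM I) (by positivity)
  rw [e1]
  refine (Real.sum_mul_le_sqrt_mul_sqrt S _ _).trans ?_
  have h9 : Real.sqrt (∑ p ∈ S, (a p.1 * b p.2) ^ 2) ≤
      Real.sqrt (∑ k ∈ s, a k ^ 2) * Real.sqrt (∑ h ∈ t, b h ^ 2) := by
    rw [← Real.sqrt_mul (Finset.sum_nonneg fun _ _ => by positivity)]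
    exact Real.sqrt_le_sqrt e2
  have h10 : Real.sqrt (∑ p ∈ S, f (p.1⁻¹ * p.2) ^ 2) ≤ Real.sqrt T.card * M := by
    refine (Real.sqrt_le_sqrt e3).trans (le_of_eq ?_)
    rw [Real.sqrt_mul (by positivity), Real.sqrt_sq hM0]
  calc _ ≤ (Real.sqrt (∑ k ∈ s, a k ^ 2) * Real.sqrt (∑ h ∈ t, b h ^ 2)) *
        (Real.sqrt T.card * M) := mul_le_mul h9 h10 (Real.sqrt_nonneg _) (by positivity)
    _ = _ := by ring

/-- General form: `F` a bounded function with `1 ≤ F²` on the differences. -/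
theorem sep_gen (hV : Frame V) (u : Λ) (η ζ : Ell2 Γ) (F : Γ → ℝ) {C : ℝ} (hF : ∀ g, |F g| ≤ C)
    (T : Finset Γ) (h1 : ∀ k h, η k ≠ 0 → ζ h ≠ 0 → 1 ≤ F (k⁻¹ * h) ^ 2)
    (h2 : ∀ k₁ h₁ k₂ h₂, η k₁ ≠ 0 → ζ h₁ ≠ 0 → η k₂ ≠ 0 → ζ h₂ ≠ 0 →
      k₁⁻¹ * h₁ = k₂⁻¹ * h₂ → k₂ * k₁⁻¹ ∈ T) :
    ‖⟪ζ, Wr V u⁻¹ η⟫_ℂ‖ ≤ Real.sqrt T.card * ‖η‖ * ‖ζ‖ * ‖mo F (V u (dl 1))‖ := by
  classical
  have hη := hasSum_dl η
  have hζ := hasSum_dl ζ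
  have hfin : ∀ s t : Finset Γ, ‖⟪∑ h ∈ t, ζ h • (dl h : Ell2 Γ),
      Wr V u⁻¹ (∑ k ∈ s, η k • (dl k : Ell2 Γ))⟫_ℂ‖ ≤
      Real.sqrt T.card * ‖η‖ * ‖ζ‖ * ‖mo F (V u (dl 1))‖ := by
    intro s t
    have e1 : ⟪∑ h ∈ t, ζ h • (dl h : Ell2 Γ), Wr V u⁻¹ (∑ k ∈ s, η k • (dl k : Ell2 Γ))⟫_ℂ =
        ∑ k ∈ s, ∑ h ∈ t, η k * (starRingEnd ℂ) (ζ h) * V u (dl 1) (k⁻¹ * h) := by
      rw [map_sum, inner_sum]
      refine Finset.sum_congr rfl fun k _ => ?_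
      rw [sum_inner]
      refine Finset.sum_congr rfl fun h _ => ?_
      rw [map_smul, inner_smul_left, inner_smul_right, inner_dl_W hV]
      ring
    rw [e1]
    refine (norm_sum_le _ _).trans ?_
    refine (Finset.sum_le_sum fun k _ => norm_sum_le _ _).trans ?_
    have h3 := fin_est (fun k => ‖η k‖) (fun h => ‖ζ h‖) (fun g => ‖V u (dl 1) g‖) F
      (fun _ => norm_nonneg _) (fun _ => norm_nonneg _) (fun _ => norm_nonneg _)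
      ‖mo F (V u (dl 1))‖ (fun s' => ?_) (norm_nonneg _) T (fun k h hk hh => h1 k h
        (fun h0 => hk (by rw [h0, norm_zero])) (fun h0 => hh (by rw [h0, norm_zero])))
      (fun k₁ h₁ k₂ h₂ a1 a2 a3 a4 he => h2 k₁ h₁ k₂ h₂ (fun h0 => a1 (by rw [h0, norm_zero]))
        (fun h0 => a2 (by rw [h0, norm_zero])) (fun h0 => a3 (by rw [h0, norm_zero]))
        (fun h0 => a4 (by rw [h0, norm_zero])) he) s t
    · refine le_trans (le_of_eq ?_) (h3.trans ?_)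
      · refine Finset.sum_congr rfl fun k _ => Finset.sum_congr rfl fun h _ => ?_
        rw [norm_mul, norm_mul, RCLike.norm_conj]
      · have h4 : Real.sqrt (∑ k ∈ s, ‖η k‖ ^ 2) ≤ ‖η‖ := by
          rw [Real.sqrt_le_left (norm_nonneg _)]
          exact sum_sq_le η s
        have h5 : Real.sqrt (∑ h ∈ t, ‖ζ h‖ ^ 2) ≤ ‖ζ‖ := by
          rw [Real.sqrt_le_left (norm_nonneg _)]
          exact sum_sq_le ζ t
        gcongr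
    · have h6 := sum_sq_le (mo F (V u (dl 1))) s'
      refine le_trans (le_of_eq ?_) h6
      refine Finset.sum_congr rfl fun g _ => ?_
      rw [mo_apply hF, norm_mul, Complex.norm_real, Real.norm_eq_abs, mul_pow, mul_pow, sq_abs]
  -- limits
  have hlim1 : ∀ s : Finset Γ, ‖⟪ζ, Wr V u⁻¹ (∑ k ∈ s, η k • (dl k : Ell2 Γ))⟫_ℂ‖ ≤
      Real.sqrt T.card * ‖η‖ * ‖ζ‖ * ‖mo F (V u (dl 1))‖ := by
    intro s
    have h6 : Tendsto (fun t : Finset Γ => ‖⟪∑ h ∈ t, ζ h • (dl h : Ell2 Γ),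
        Wr V u⁻¹ (∑ k ∈ s, η k • (dl k : Ell2 Γ))⟫_ℂ‖) atTop
        (𝓝 ‖⟪ζ, Wr V u⁻¹ (∑ k ∈ s, η k • (dl k : Ell2 Γ))⟫_ℂ‖) :=
      (Filter.Tendsto.inner hζ tendsto_const_nhds).norm
    exact le_of_tendsto h6 (Filter.Eventually.of_forall fun t => hfin s t)
  have h7 : Tendsto (fun s : Finset Γ => Wr V u⁻¹ (∑ k ∈ s, η k • (dl k : Ell2 Γ))) atTop
      (𝓝 (Wr V u⁻¹ η)) := ((Wr V u⁻¹).continuous.tendsto _).comp hη
  have h8 : Tendsto (fun s : Finset Γ => ‖⟪ζ, Wr V u⁻¹ (∑ k ∈ s, η k • (dl k : Ell2 Γ))⟫_ℂ‖) atTop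
      (𝓝 ‖⟪ζ, Wr V u⁻¹ η⟫_ℂ‖) := (Filter.Tendsto.inner tendsto_const_nhds h7).norm
  exact le_of_tendsto h8 (Filter.Eventually.of_forall hlim1)

open Classical in
/-- The separation estimate with the indicator function of `P`. -/
theorem sep_est (hV : Frame V) (u : Λ) (η ζ : Ell2 Γ) (P : Γ → Prop) (T : Finset Γ)
    (h1 : ∀ k h, η k ≠ 0 → ζ h ≠ 0 → P (k⁻¹ * h))
    (h2 : ∀ k₁ h₁ k₂ h₂, η k₁ ≠ 0 → ζ h₁ ≠ 0 → η k₂ ≠ 0 → ζ h₂ ≠ 0 →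
      k₁⁻¹ * h₁ = k₂⁻¹ * h₂ → k₂ * k₁⁻¹ ∈ T) :
    ‖⟪ζ, Wr V u⁻¹ η⟫_ℂ‖ ≤ Real.sqrt T.card * ‖η‖ * ‖ζ‖ *
      ‖mo (fun x => if P x then (1 : ℝ) else 0) (V u (dl 1))‖ := by
  refine sep_gen hV u η ζ _ (C := 1) (fun g => ?_) T (fun k h hk hh => ?_) h2
  · split_ifs <;> simp
  · rw [if_pos (h1 k h hk hh)]
    norm_num

end Vale.Agent.P092.H956
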