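import Vale.Agent.P092.H432.Frame

/-!
P092 (helper956): block [S4], the separation estimate in the row model (port of [B5]).
-/

set_option linter.all false

open scoped InnerProductSpace
open Filter Topology ContinuousLinearMap

namespace Vale.Agent.P092.H956

open Vale.Agent.P092.H160 Vale.Agent.P092.H553 Vale.Agent.P092.H432

variable {Γ Λ ι : Type} [Group Γ] [Group Λ] [Fintype ι]

theorem sum_sq_le' {X : Type} (ξ : Ell2 X) (s : Finset X) : ∑ x ∈ s, ‖ξ x‖ ^ 2 ≤ ‖ξ‖ ^ 2 := by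
  rw [norm_sq]
  exact (summable_sq ξ).sum_le_tsum s (fun _ _ => by positivity)

/-- Matrix coefficients of elements of the right algebra. -/
theorem inner_dl_RA {T : Ell2 (Γ × ι) →L[ℂ] Ell2 (Γ × ι)} (hT : RA T) (x y : Γ × ι) :
    ⟪(dl x : Ell2 (Γ × ι)), T (dl y)⟫_ℂ = T (ep y.2) (y.1⁻¹ * x.1, x.2) := by
  rw [dl_eq_lx y, hT.app, inner_dl, lx_apply]

/-- The combinatorial estimate for finite sets, row model. -/
theorem fin_estA (a b : Γ × ι → ℝ) (f : ι → Γ × ι → ℝ) (F : Γ → ℝ) (ha : ∀ x, 0 ≤ a x)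
    (hb : ∀ x, 0 ≤ b x) (hf : ∀ i x, 0 ≤ f i x) (M : ℝ)
    (hM : ∀ s : Finset (Γ × ι), ∑ i, ∑ x ∈ s, (F x.1 * f i x) ^ 2 ≤ M ^ 2) (hM0 : 0 ≤ M)
    (T : Finset Γ)
    (h1 : ∀ x y, a x ≠ 0 → b y ≠ 0 → 1 ≤ F (x.1⁻¹ * y.1) ^ 2)
    (h2 : ∀ x₁ y₁ x₂ y₂, a x₁ ≠ 0 → b y₁ ≠ 0 → a x₂ ≠ 0 → b y₂ ≠ 0 →
      x₁.1⁻¹ * y₁.1 = x₂.1⁻¹ * y₂.1 → x₂.1 * x₁.1⁻¹ ∈ T) (s t : Finset (Γ × ι)) :
    ∑ x ∈ s, ∑ y ∈ t, a x * b y * f x.2 (x.1⁻¹ * y.1, y.2) ≤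
      Real.sqrt T.card * Real.sqrt (∑ x ∈ s, a x ^ 2) * Real.sqrt (∑ y ∈ t, b y ^ 2) * M := by
  classical
  set φ : (Γ × ι) × (Γ × ι) → ι × (Γ × ι) := fun p => (p.1.2, (p.1.1⁻¹ * p.2.1, p.2.2)) with hφ
  -- pairs
  set S : Finset ((Γ × ι) × (Γ × ι)) := (s ×ˢ t).filter fun p => a p.1 ≠ 0 ∧ b p.2 ≠ 0 with hS
  have e1 : ∑ x ∈ s, ∑ y ∈ t, a x * b y * f x.2 (x.1⁻¹ * y.1, y.2) =
      ∑ p ∈ S, (a p.1 * b p.2) * f (φ p).1 (φ p).2 := by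
    rw [← Finset.sum_product', hS, Finset.sum_filter]
    refine Finset.sum_congr rfl fun p _ => ?_
    by_cases h : a p.1 ≠ 0 ∧ b p.2 ≠ 0
    · rw [if_pos h]
    · rw [if_neg h]
      rw [not_and_or, not_not, not_not] at h
      rcases h with h | h <;> simp [h]
  have e2 : ∑ p ∈ S, (a p.1 * b p.2) ^ 2 ≤ (∑ x ∈ s, a x ^ 2) * ∑ y ∈ t, b y ^ 2 := by
    rw [Finset.sum_mul_sum, ← Finset.sum_product']
    refine (Finset.sum_le_sum_of_subset_of_nonneg (Finset.filter_subset _ _)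
      fun p _ _ => by positivity).trans (le_of_eq ?_)
    exact Finset.sum_congr rfl fun p _ => by ring
  have e3 : ∑ p ∈ S, f (φ p).1 (φ p).2 ^ 2 ≤ T.card * M ^ 2 := by
    set I := S.image φ with hI
    have hfib : ∀ g ∈ I, (S.filter fun p => φ p = g).card ≤ T.card := by
      intro g hg
      obtain ⟨p0, hp0, rfl⟩ := Finset.mem_image.mp hg
      refine Finset.card_le_card_of_injOn (fun p => p.1.1 * p0.1.1⁻¹) ?_ ?_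
      · intro p hp
        obtain ⟨hp, he⟩ := Finset.mem_filter.mp hp
        obtain ⟨_, hp⟩ := Finset.mem_filter.mp hp
        obtain ⟨_, hp0⟩ := Finset.mem_filter.mp hp0
        have he' : p.1.1⁻¹ * p.2.1 = p0.1.1⁻¹ * p0.2.1 := congrArg (fun q => q.2.1) he
        exact h2 p0.1 p0.2 p.1 p.2 hp0.1 hp0.2 hp.1 hp.2 he'.symm
      · intro p hp q hq hpq
        obtain ⟨_, he⟩ := Finset.mem_filter.mp hp
        obtain ⟨_, he'⟩ := Finset.mem_filter.mp hq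
        have h3 : p.1.1 = q.1.1 := mul_right_cancel hpq
        have h4 : φ p = φ q := he.trans he'.symm
        have h5 : p.1.1⁻¹ * p.2.1 = q.1.1⁻¹ * q.2.1 := congrArg (fun r => r.2.1) h4
        have h6 : p.1.2 = q.1.2 := congrArg (fun r => r.1) h4
        have h7 : p.2.2 = q.2.2 := congrArg (fun r => r.2.2) h4
        rw [h3] at h5
        exact Prod.ext (Prod.ext h3 h6) (Prod.ext (mul_left_cancel h5) h7)
    have e4 : ∑ p ∈ S, f (φ p).1 (φ p).2 ^ 2 =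
        ∑ g ∈ I, ((S.filter fun p => φ p = g).card : ℝ) * f g.1 g.2 ^ 2 := by
      rw [← Finset.sum_fiberwise_of_maps_to (g := φ) (t := I)
        (fun p hp => Finset.mem_image_of_mem _ hp)]
      refine Finset.sum_congr rfl fun g _ => ?_
      rw [← nsmul_eq_mul, ← Finset.sum_const]
      refine Finset.sum_congr rfl fun p hp => ?_
      rw [(Finset.mem_filter.mp hp).2]
    have e5 : ∑ g ∈ I, (F g.2.1 * f g.1 g.2) ^ 2 ≤ M ^ 2 := by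
      refine le_trans ?_ (hM (I.image Prod.snd))
      rw [← Finset.sum_product' (Finset.univ) (I.image Prod.snd)
        (fun i x => (F x.1 * f i x) ^ 2)]
      refine Finset.sum_le_sum_of_subset_of_nonneg (fun q hq => ?_) (fun _ _ _ => by positivity)
      rw [Finset.mem_product]
      exact ⟨Finset.mem_univ _, Finset.mem_image_of_mem _ hq⟩
    rw [e4]
    refine (Finset.sum_le_sum (g := fun g => (T.card : ℝ) * (F g.2.1 * f g.1 g.2) ^ 2)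
      fun g hg => ?_).trans ?_
    · obtain ⟨p0, hp0, rfl⟩ := Finset.mem_image.mp hg
      have h5 := hfib _ hg
      obtain ⟨_, hp0'⟩ := Finset.mem_filter.mp hp0
      have h6 : 1 ≤ F (φ p0).2.1 ^ 2 := h1 _ _ hp0'.1 hp0'.2
      have h7 : ((S.filter fun p => φ p = φ p0).card : ℝ) ≤ T.card := by
        exact_mod_cast h5
      rw [mul_pow]
      have h8 : f (φ p0).1 (φ p0).2 ^ 2 ≤ F (φ p0).2.1 ^ 2 * f (φ p0).1 (φ p0).2 ^ 2 :=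
        le_mul_of_one_le_left (by positivity) h6
      exact mul_le_mul h7 h8 (by positivity) (by positivity)
    · rw [← Finset.mul_sum]
      exact mul_le_mul_of_nonneg_left e5 (by positivity)
  rw [e1]
  refine (Real.sum_mul_le_sqrt_mul_sqrt S _ _).trans ?_
  have h9 : Real.sqrt (∑ p ∈ S, (a p.1 * b p.2) ^ 2) ≤
      Real.sqrt (∑ x ∈ s, a x ^ 2) * Real.sqrt (∑ y ∈ t, b y ^ 2) := by
    rw [← Real.sqrt_mul (Finset.sum_nonneg fun _ _ => by positivity)]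
    exact Real.sqrt_le_sqrt e2
  have h10 : Real.sqrt (∑ p ∈ S, f (φ p).1 (φ p).2 ^ 2) ≤ Real.sqrt T.card * M := by
    refine (Real.sqrt_le_sqrt e3).trans (le_of_eq ?_)
    rw [Real.sqrt_mul (by positivity), Real.sqrt_sq hM0]
  calc _ ≤ (Real.sqrt (∑ x ∈ s, a x ^ 2) * Real.sqrt (∑ y ∈ t, b y ^ 2)) *
        (Real.sqrt T.card * M) := mul_le_mul h9 h10 (Real.sqrt_nonneg _) (by positivity)
    _ = _ := by ring

/-- Matrix coefficients of finite sums. -/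
theorem inner_finA {R : Ell2 (Γ × ι) →L[ℂ] Ell2 (Γ × ι)} (hR : RA R) (η ζ : Ell2 (Γ × ι))
    (s t : Finset (Γ × ι)) :
    ⟪∑ y ∈ t, ζ y • (dl y : Ell2 (Γ × ι)), R (∑ x ∈ s, η x • (dl x : Ell2 (Γ × ι)))⟫_ℂ =
      ∑ x ∈ s, ∑ y ∈ t, η x * (starRingEnd ℂ) (ζ y) * R (ep x.2) (x.1⁻¹ * y.1, y.2) := by
  rw [map_sum, inner_sum]
  refine Finset.sum_congr rfl fun x _ => ?_
  rw [sum_inner]
  refine Finset.sum_congr rfl fun y _ => ?_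
  rw [map_smul, inner_smul_left, inner_smul_right, inner_dl_RA hR]
  ring

theorem mp_sq_le (ξ : Ell2 (Γ × ι)) (F : Γ → ℝ) {C : ℝ} (hF : ∀ g, |F g| ≤ C)
    (s : Finset (Γ × ι)) : ∑ x ∈ s, (F x.1 * ‖ξ x‖) ^ 2 ≤ ‖mp ι F ξ‖ ^ 2 := by
  refine le_trans (le_of_eq ?_) (sum_sq_le' (mp ι F ξ) s)
  refine Finset.sum_congr rfl fun g _ => ?_
  rw [mp, mo_apply (F := fun x : Γ × ι => F x.1) (fun x => hF _), norm_mul,
    Complex.norm_real, Real.norm_eq_abs, mul_pow, mul_pow, sq_abs]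

theorem fin_bdA {R : Ell2 (Γ × ι) →L[ℂ] Ell2 (Γ × ι)} (hR : RA R) (η ζ : Ell2 (Γ × ι))
    (F : Γ → ℝ) {C : ℝ} (hF : ∀ g, |F g| ≤ C)
    (T : Finset Γ) (h1 : ∀ x y, η x ≠ 0 → ζ y ≠ 0 → 1 ≤ F (x.1⁻¹ * y.1) ^ 2)
    (h2 : ∀ x₁ y₁ x₂ y₂, η x₁ ≠ 0 → ζ y₁ ≠ 0 → η x₂ ≠ 0 → ζ y₂ ≠ 0 →
      x₁.1⁻¹ * y₁.1 = x₂.1⁻¹ * y₂.1 → x₂.1 * x₁.1⁻¹ ∈ T) {M : ℝ} (hM0 : 0 ≤ M)
    (hMsq : M ^ 2 = ∑ i, ‖mp ι F (R (ep i))‖ ^ 2) (s t : Finset (Γ × ι)) :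
    ‖⟪∑ y ∈ t, ζ y • (dl y : Ell2 (Γ × ι)), R (∑ x ∈ s, η x • (dl x : Ell2 (Γ × ι)))⟫_ℂ‖ ≤
      Real.sqrt T.card * ‖η‖ * ‖ζ‖ * M := by
  rw [inner_finA hR]
  refine (norm_sum_le _ _).trans ?_
  refine (Finset.sum_le_sum fun k _ => norm_sum_le _ _).trans ?_
  have h3 := fin_estA (fun k => ‖η k‖) (fun h => ‖ζ h‖) (fun i x => ‖R (ep i) x‖) F
    (fun _ => norm_nonneg _) (fun _ => norm_nonneg _) (fun _ _ => norm_nonneg _)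
    M (fun s' => by
      rw [hMsq]
      exact Finset.sum_le_sum fun i _ => mp_sq_le (R (ep i)) F hF s') hM0 T
    (fun k h hk hh => h1 k h
      (fun h0 => hk (by rw [h0, norm_zero])) (fun h0 => hh (by rw [h0, norm_zero])))
    (fun k₁ h₁ k₂ h₂ a1 a2 a3 a4 he => h2 k₁ h₁ k₂ h₂ (fun h0 => a1 (by rw [h0, norm_zero]))
      (fun h0 => a2 (by rw [h0, norm_zero])) (fun h0 => a3 (by rw [h0, norm_zero]))
      (fun h0 => a4 (by rw [h0, norm_zero])) he) s t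
  refine le_trans (le_of_eq ?_) (h3.trans ?_)
  · refine Finset.sum_congr rfl fun k _ => Finset.sum_congr rfl fun h _ => ?_
    rw [norm_mul, norm_mul, RCLike.norm_conj]
  · have h4 : Real.sqrt (∑ k ∈ s, ‖η k‖ ^ 2) ≤ ‖η‖ := by
      rw [Real.sqrt_le_left (norm_nonneg _)]
      exact sum_sq_le' η s
    have h5 : Real.sqrt (∑ h ∈ t, ‖ζ h‖ ^ 2) ≤ ‖ζ‖ := by
      rw [Real.sqrt_le_left (norm_nonneg _)]
      exact sum_sq_le' ζ t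
    exact mul_le_mul_of_nonneg_right (mul_le_mul (mul_le_mul_of_nonneg_left h4
      (Real.sqrt_nonneg _)) h5 (Real.sqrt_nonneg _)
      (mul_nonneg (Real.sqrt_nonneg _) (norm_nonneg _))) hM0

/-- Passing from finite sums to vectors. -/
theorem inner_le_of_fin {X : Type} (R : Ell2 X →L[ℂ] Ell2 X) (η ζ : Ell2 X) {c : ℝ}
    (h : ∀ s t : Finset X,
      ‖⟪∑ y ∈ t, ζ y • (dl y : Ell2 X), R (∑ x ∈ s, η x • (dl x : Ell2 X))⟫_ℂ‖ ≤ c) :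
    ‖⟪ζ, R η⟫_ℂ‖ ≤ c := by
  have hη := hasSum_dl η
  have hζ := hasSum_dl ζ
  have hlim1 : ∀ s : Finset X, ‖⟪ζ, R (∑ x ∈ s, η x • (dl x : Ell2 X))⟫_ℂ‖ ≤ c := by
    intro s
    have h6 : Tendsto (fun t : Finset X => ‖⟪∑ y ∈ t, ζ y • (dl y : Ell2 X),
        R (∑ x ∈ s, η x • (dl x : Ell2 X))⟫_ℂ‖) atTop
        (𝓝 ‖⟪ζ, R (∑ x ∈ s, η x • (dl x : Ell2 X))⟫_ℂ‖) :=
      (Filter.Tendsto.inner hζ tendsto_const_nhds).norm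
    exact le_of_tendsto h6 (Filter.Eventually.of_forall fun t => h s t)
  have h7 : Tendsto (fun s : Finset X => R (∑ x ∈ s, η x • (dl x : Ell2 X))) atTop
      (𝓝 (R η)) := (R.continuous.tendsto _).comp hη
  have h8 : Tendsto (fun s : Finset X =>
      ‖⟪ζ, R (∑ x ∈ s, η x • (dl x : Ell2 X))⟫_ℂ‖) atTop
      (𝓝 ‖⟪ζ, R η⟫_ℂ‖) := (Filter.Tendsto.inner tendsto_const_nhds h7).norm
  exact le_of_tendsto h8 (Filter.Eventually.of_forall hlim1)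

/-- General form: `F` a bounded function with `1 ≤ F²` on the differences. -/
theorem sep_genA {R : Ell2 (Γ × ι) →L[ℂ] Ell2 (Γ × ι)} (hR : RA R) (η ζ : Ell2 (Γ × ι))
    (F : Γ → ℝ) {C : ℝ} (hF : ∀ g, |F g| ≤ C)
    (T : Finset Γ) (h1 : ∀ x y, η x ≠ 0 → ζ y ≠ 0 → 1 ≤ F (x.1⁻¹ * y.1) ^ 2)
    (h2 : ∀ x₁ y₁ x₂ y₂, η x₁ ≠ 0 → ζ y₁ ≠ 0 → η x₂ ≠ 0 → ζ y₂ ≠ 0 →
      x₁.1⁻¹ * y₁.1 = x₂.1⁻¹ * y₂.1 → x₂.1 * x₁.1⁻¹ ∈ T) :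
    ‖⟪ζ, R η⟫_ℂ‖ ≤ Real.sqrt T.card * ‖η‖ * ‖ζ‖ *
      Real.sqrt (∑ i, ‖mp ι F (R (ep i))‖ ^ 2) :=
  inner_le_of_fin R η ζ fun s t => fin_bdA hR η ζ F hF T h1 h2 (Real.sqrt_nonneg _)
    (Real.sq_sqrt (Finset.sum_nonneg fun _ _ => by positivity)) s t

open Classical in
/-- The separation estimate in the row model, for an element of the right algebra. -/
theorem sep_ra {R : Ell2 (Γ × ι) →L[ℂ] Ell2 (Γ × ι)} (hR : RA R) (η ζ : Ell2 (Γ × ι))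
    (P : Γ → Prop) (T : Finset Γ)
    (h1 : ∀ k i h j, η (k, i) ≠ 0 → ζ (h, j) ≠ 0 → P (k⁻¹ * h))
    (h2 : ∀ k₁ i₁ h₁ j₁ k₂ i₂ h₂ j₂, η (k₁, i₁) ≠ 0 → ζ (h₁, j₁) ≠ 0 → η (k₂, i₂) ≠ 0 →
      ζ (h₂, j₂) ≠ 0 → k₁⁻¹ * h₁ = k₂⁻¹ * h₂ → k₂ * k₁⁻¹ ∈ T) :
    ‖⟪ζ, R η⟫_ℂ‖ ≤ Real.sqrt T.card * ‖η‖ * ‖ζ‖ *
      Real.sqrt (∑ i, ‖mp ι (fun x => if P x then (1 : ℝ) else 0) (R (ep i))‖ ^ 2) := by
  refine sep_genA hR η ζ _ (C := 1) (fun g => ?_) T (fun x y hk hh => ?_)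
    (fun x₁ y₁ x₂ y₂ a1 a2 a3 a4 he => h2 x₁.1 x₁.2 y₁.1 y₁.2 x₂.1 x₂.2 y₂.1 y₂.2 a1 a2 a3 a4 he)
  · split_ifs <;> simp
  · rw [if_pos (h1 x.1 x.2 y.1 y.2 hk hh)]
    norm_num

open Classical in
/-- [S4] The separation estimate in the row model, for an amplified representation. -/
theorem sep_estA {t : ℝ} {R : Λ → (Ell2 (Γ × ι) →L[ℂ] Ell2 (Γ × ι))} (hR : ARep t R) (u : Λ)
    (η ζ : Ell2 (Γ × ι)) (P : Γ → Prop) (T : Finset Γ)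
    (h1 : ∀ k i h j, η (k, i) ≠ 0 → ζ (h, j) ≠ 0 → P (k⁻¹ * h))
    (h2 : ∀ k₁ i₁ h₁ j₁ k₂ i₂ h₂ j₂, η (k₁, i₁) ≠ 0 → ζ (h₁, j₁) ≠ 0 → η (k₂, i₂) ≠ 0 →
      ζ (h₂, j₂) ≠ 0 → k₁⁻¹ * h₁ = k₂⁻¹ * h₂ → k₂ * k₁⁻¹ ∈ T) :
    ‖⟪ζ, R u η⟫_ℂ‖ ≤ Real.sqrt T.card * ‖η‖ * ‖ζ‖ *
      Real.sqrt (∑ i, ‖mp ι (fun x => if P x then (1 : ℝ) else 0) (R u (ep i))‖ ^ 2) :=
  sep_ra (hR.ra u) η ζ P T h1 h2

end Vale.Agent.P092.H956
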