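import Vale.Agent.P092.H956.SpG5
import Vale.Agent.P092.H933.GLAll
import Vale.Agent.P092.H15.HMAbs

/-!
P092 (helper956), [P2-GAP] / [P3-GAP], part 1: the gap of a subgroup, and its push forward along a
homomorphism.
-/

set_option linter.all false

open scoped InnerProductSpace
open Set Filter Topology Matrix

namespace Vale.Agent.P092.H956

open Vale.Agent.P092.H933 (URep fixedSub mem_fixedSub LeviGap LocK blk bgap_all)
open Vale.Agent.P092.H15 (HMG)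
open Vale.Agent.P092.SP4

section abs

variable {E : Type} [Group E] [TopologicalSpace E] {G : Type} [Group G] [TopologicalSpace G]

/-- Averages of elements of `S` contract the complement of the fixed vectors. -/
def LGap (S : Subgroup E) : Prop :=
  ∀ (𝓗 : Type) [NormedAddCommGroup 𝓗] [InnerProductSpace ℂ 𝓗] [CompleteSpace 𝓗]
    (σ : E →* (𝓗 →L[ℂ] 𝓗)), URep σ → ∀ e : ℝ, 0 < e →
    ∃ (p : ℕ) (_ : 0 < p) (l : Fin p → E), (∀ i, l i ∈ S) ∧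
      ∀ v : 𝓗, (∀ η ∈ fixedSub σ, ⟪η, v⟫_ℂ = 0) → ‖((p : ℂ))⁻¹ • ∑ i, σ (l i) v‖ ≤ e * ‖v‖

theorem LGap.mono {S T : Subgroup E} (h : LGap S) (hS : S ≤ T) : LGap T := by
  intro 𝓗 _ _ _ σ hσ e he
  obtain ⟨p, hp, l, hl, hl'⟩ := h 𝓗 σ hσ e he
  exact ⟨p, hp, l, fun i => hS (hl i), hl'⟩

theorem LGap.leviGap {S : Subgroup E} (h : LGap S) {a : E} (ha : ∀ s ∈ S, Commute s a) :
    LeviGap a := by
  intro 𝓗 _ _ _ σ hσ e he
  obtain ⟨p, hp, l, hl, hl'⟩ := h 𝓗 σ hσ e he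
  exact ⟨p, hp, l, fun i => ha _ (hl i), hl'⟩

theorem lgap_of_leviGap {a : E} (h : LeviGap a) : LGap (Subgroup.centralizer {a}) := by
  intro 𝓗 _ _ _ σ hσ e he
  obtain ⟨p, hp, l, hl, hl'⟩ := h 𝓗 σ hσ e he
  exact ⟨p, hp, l, fun i => Subgroup.mem_centralizer_singleton_iff.2 (hl i), hl'⟩

theorem lgap_of {S : Subgroup E} {ι₀ : Type} [Fintype ι₀]
    [Nonempty ι₀] {w₀ : ι₀ → E} (hw₀ : ∀ i, w₀ i ∈ S) {q : ℝ} (hq : 0 ≤ q) (hq1 : q < 1)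
    (h : ∀ (𝓗 : Type) [NormedAddCommGroup 𝓗] [InnerProductSpace ℂ 𝓗] [CompleteSpace 𝓗]
      (σ : E →* (𝓗 →L[ℂ] 𝓗)), URep σ → ∀ v : 𝓗, (∀ η ∈ fixedSub σ, ⟪η, v⟫_ℂ = 0) →
        ‖((Fintype.card ι₀ : ℝ))⁻¹ • ∑ i, σ (w₀ i) v‖ ≤ q * ‖v‖) : LGap S := by
  intro 𝓗 _ _ _ σ hσ e he
  obtain ⟨m, hm⟩ := exists_pow_lt_of_lt_one he hq1
  obtain ⟨ι, _, _, w, hw, hw'⟩ := H252.words.{0} (S := S) (w₀ := w₀) hw₀ hq m
  refine ⟨Fintype.card ι, Fintype.card_pos, fun i => w ((Fintype.equivFin ι).symm i), fun i => ?_,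
    fun v hv => ?_⟩
  · exact hw _
  · have h1 := hw' 𝓗 σ hσ (h 𝓗 σ hσ) v hv
    rw [Equiv.sum_comp (Fintype.equivFin ι).symm fun a => σ (w a) v]
    rw [← Complex.coe_smul] at h1
    push_cast at h1
    exact h1.trans (mul_le_mul_of_nonneg_right hm.le (norm_nonneg _))

/-- the vectors fixed by `φ(E)` are fixed by `G`, in every unitary representation -/
def FixUp (φ : E →* G) : Prop :=
  ∀ (𝓗 : Type) [NormedAddCommGroup 𝓗] [InnerProductSpace ℂ 𝓗] [CompleteSpace 𝓗]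
    (σ : G →* (𝓗 →L[ℂ] 𝓗)), URep σ → ∀ v : 𝓗, (∀ e, σ (φ e) v = v) → ∀ g, σ g v = v

theorem LGap.push {S : Subgroup E} (h : LGap S) {φ : E →* G} (hφ : Continuous φ)
    (hf : FixUp φ) : LGap (S.map φ) := by
  intro 𝓗 _ _ _ σ hσ e he
  have hc : URep (σ.comp φ) := hσ.comp _ hφ.continuousAt
  obtain ⟨p, hp, l, hl, hl'⟩ := h 𝓗 (σ.comp φ) hc e he
  refine ⟨p, hp, fun i => φ (l i), fun i => Subgroup.mem_map_of_mem _ (hl i), fun v hv => ?_⟩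
  refine hl' v fun η hη => hv η ?_
  intro g
  exact hf 𝓗 σ hσ η hη g

/-- the vectors fixed by a subgroup which is not relatively compact are fixed (Howe–Moore) -/
theorem fixUp_of [IsTopologicalGroup G] (hm : HMG G) {φ : E →* G} {b : ℕ → E}
    (hb : Tendsto (fun n => φ (b n)) atTop (cocompact G)) : FixUp φ := by
  intro 𝓗 _ _ _ σ hσ v hv g
  refine hm.fixed hσ (Ultrafilter.of atTop) (b := fun n => φ (b n)) (x := fun _ => v) (ξ := v)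
    (hb.mono_left (Ultrafilter.of_le _)) tendsto_const_nhds (ζ := v) (fun η => ?_) g
  simp only [hv]
  exact tendsto_const_nhds

end abs

section sln

variable {N : ℕ} {k : Type} [NontriviallyNormedField k]

theorem lgap_blk (hk : LocK k) {i j l : Fin N} (hij : i ≠ j) (hil : i ≠ l) (hjl : j ≠ l) :
    LGap (blk (k := k) hjl) := by
  intro 𝓗 _ _ _ σ hσ e he
  obtain ⟨p, hp, w, hw, hw'⟩ := bgap_all hk hij hil hjl e he
  exact ⟨p, hp, w, hw, hw' 𝓗 σ hσ⟩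

end sln

section sp4

variable {k : Type} [NontriviallyNormedField k] [ProperSpace k]

theorem lgap_avg {E : Type} [Group E] [TopologicalSpace E]
    {τ : SpecialLinearGroup (Fin 2) k →* E} {c : k}
    (h : ∀ (𝓗 : Type) [NormedAddCommGroup 𝓗]
      [InnerProductSpace ℂ 𝓗] [CompleteSpace 𝓗] (σ : E →* (𝓗 →L[ℂ] 𝓗)), URep σ →
      ∀ v : 𝓗, (∀ η ∈ fixedSub σ, ⟪η, v⟫_ℂ = 0) → ‖avg τ σ c v‖ ≤ (98 / 100) * ‖v‖) :
    LGap τ.range := by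
  refine lgap_of (ι₀ := Fin 4) (w₀ := fun i => τ (sh4 c i)) (fun i => ⟨_, rfl⟩)
    (q := 98 / 100) (by norm_num) (by norm_num) ?_
  intro 𝓗 _ _ _ σ hσ v hv
  have h1 := h 𝓗 σ hσ v hv
  rw [avg_apply] at h1
  rw [← Complex.coe_smul]
  simpa using h1

/-- the gap of the middle `SL_2` of `Sp_4(k)` -/
theorem lgap_mid (h2 : (2 : k) ≠ 0) : LGap (mid (k := k)).range := by
  obtain ⟨c, hc⟩ := gap_mid h2
  exact lgap_avg hc

/-- block diagonal matrices -/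
def BD {k : Type} [Field k] (M : Matrix (Fin 4) (Fin 4) k) : Prop :=
  (M 0 2 = 0 ∧ M 0 3 = 0 ∧ M 1 2 = 0 ∧ M 1 3 = 0) ∧
    (M 2 0 = 0 ∧ M 2 1 = 0 ∧ M 3 0 = 0 ∧ M 3 1 = 0)

/-- the gap of the Levi factor of the line wall of `Sp_4(k)` -/
theorem lgap_lev (h2 : (2 : k) ≠ 0) : ∃ S : Subgroup (S4 k), LGap S ∧ ∀ g ∈ S, BD g.1.1 := by
  obtain ⟨w₀, hw₀⟩ := NormedField.exists_one_lt_norm k
  have h0 : w₀ ≠ 0 := by
    rintro rfl
    rw [norm_zero] at hw₀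
    linarith
  obtain ⟨w, hw⟩ : ∃ w : kˣ, (w : k) = w₀ := ⟨Units.mk0 w₀ h0, rfl⟩
  have hne : ((w⁻¹ : kˣ) : k) ≠ w := by
    intro h
    have h1 : ‖((w⁻¹ : kˣ) : k)‖ = ‖(w : k)‖ := by rw [h]
    rw [Units.val_inv_eq_inv_val, norm_inv, hw] at h1
    have h3 : ‖w₀‖⁻¹ < 1 := inv_lt_one_of_one_lt₀ hw₀
    linarith
  refine ⟨_, lgap_of_leviGap (leviGap_b2 h2 w), fun g hg => ?_⟩
  have h1 := Subgroup.mem_centralizer_singleton_iff.1 hg
  have h3 : g.1.1 * (b2 w).1 = (b2 w).1 * g.1.1 := congrArg (fun x : S4 k => x.1.1) h1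
  have key : ∀ i j, (![((w⁻¹ : kˣ) : k), ((w⁻¹ : kˣ) : k), (w : k), (w : k)] : Fin 4 → k) i ≠
      (![((w⁻¹ : kˣ) : k), ((w⁻¹ : kˣ) : k), (w : k), (w : k)] : Fin 4 → k) j →
      g.1.1 i j = 0 := by
    intro i j hij
    have h4 := congrFun (congrFun h3 i) j
    have h6 : (b2 w).1 = Matrix.diagonal
      ![((w⁻¹ : kˣ) : k), ((w⁻¹ : kˣ) : k), (w : k), (w : k)] := rfl
    rw [h6, Matrix.mul_diagonal, Matrix.diagonal_mul] at h4
    have h5 : ((![((w⁻¹ : kˣ) : k), ((w⁻¹ : kˣ) : k), (w : k), (w : k)] : Fin 4 → k) i -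
      (![((w⁻¹ : kˣ) : k), ((w⁻¹ : kˣ) : k), (w : k), (w : k)] : Fin 4 → k) j) * g.1.1 i j = 0 := by
      linear_combination -h4
    exact (mul_eq_zero.1 h5).resolve_left (sub_ne_zero.2 hij)
  exact ⟨⟨key 0 2 hne, key 0 3 hne, key 1 2 hne, key 1 3 hne⟩,
    ⟨key 2 0 hne.symm, key 2 1 hne.symm, key 3 0 hne.symm, key 3 1 hne.symm⟩⟩

end sp4

end Vale.Agent.P092.H956
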