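import Vale.Agent.P092.H303.Form
import Vale.Agent.P092.H714.Cl3

/-!
P092 (helper956), [P2-GAP] / [P3-GAP], part 2: the group of a form on a nondegenerate subspace, as a
subgroup of the group of the form.
-/

set_option linter.all false

open Set Filter Topology Matrix

namespace Vale.Agent.P092.H956

open Vale.Agent.P092.H303 (FormGroup)

section emb

variable {n m : Type} [Fintype n] [DecidableEq n] [Fintype m] [DecidableEq m] {k : Type} [Field k]

/-- `1 + P (A − 1) Q` -/
def embM (P : Matrix n m k) (Q : Matrix m n k) (A : Matrix m m k) : Matrix n n k :=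
  1 + P * (A - 1) * Q

theorem det_embM {P : Matrix n m k} {Q : Matrix m n k} (h : Q * P = 1) (A : Matrix m m k) :
    (embM P Q A).det = A.det := by
  rw [embM, det_one_add_mul_comm, ← Matrix.mul_assoc, h, Matrix.one_mul, add_sub_cancel]

theorem embM_mul {P : Matrix n m k} {Q : Matrix m n k} (h : Q * P = 1) (A B : Matrix m m k) :
    embM P Q (A * B) = embM P Q A * embM P Q B := by
  unfold embM
  have e : P * (A - 1) * Q * (P * (B - 1) * Q) = P * ((A - 1) * (B - 1)) * Q := by
    calc P * (A - 1) * Q * (P * (B - 1) * Q) = P * (A - 1) * (Q * P) * (B - 1) * Q := by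
          simp only [Matrix.mul_assoc]
      _ = _ := by rw [h, Matrix.mul_one]; simp only [Matrix.mul_assoc]
  rw [Matrix.add_mul, Matrix.mul_add, Matrix.mul_add, e, Matrix.one_mul, Matrix.one_mul,
    Matrix.mul_one, add_assoc]
  congr 1
  rw [← Matrix.add_mul, ← Matrix.add_mul, ← Matrix.mul_add, ← Matrix.mul_add]
  congr 2
  noncomm_ring

theorem embM_one (P : Matrix n m k) (Q : Matrix m n k) : embM P Q 1 = 1 := by
  unfold embM
  rw [sub_self, Matrix.mul_zero, Matrix.zero_mul, add_zero]

/-- The embedding of `SL_m` in `SL_n`. -/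
def emb {P : Matrix n m k} {Q : Matrix m n k} (h : Q * P = 1) :
    SpecialLinearGroup m k →* SpecialLinearGroup n k where
  toFun A := ⟨embM P Q A.1, by rw [det_embM h, A.2]⟩
  map_one' := Subtype.ext (embM_one P Q)
  map_mul' A B := Subtype.ext (embM_mul h A.1 B.1)

theorem emb_val {P : Matrix n m k} {Q : Matrix m n k} (h : Q * P = 1)
    (A : SpecialLinearGroup m k) : (emb h A).1 = embM P Q A.1 := rfl

/-- the data of a nondegenerate subspace -/
structure EmbD (σ : k →+* k) (J : Matrix n n k) (K : Matrix m m k) (Q : Matrix m n k)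
    (P : Matrix n m k) : Prop where
  qp : Q * P = 1
  pk : P * K = J * (Q.map σ)ᵀ
  kp : K * (P.map σ)ᵀ = Q * J

variable {σ : k →+* k} {J : Matrix n n k} {K : Matrix m m k} {Q : Matrix m n k} {P : Matrix n m k}

theorem embM_form (h : EmbD σ J K Q P) {A : Matrix m m k} (hA : A * K * (A.map σ)ᵀ = K) :
    embM P Q A * J * ((embM P Q A).map σ)ᵀ = J := by
  obtain ⟨Q', hQ'⟩ : ∃ Q', Q' = (Q.map σ)ᵀ := ⟨_, rfl⟩
  obtain ⟨P', hP'⟩ : ∃ P', P' = (P.map σ)ᵀ := ⟨_, rfl⟩
  obtain ⟨X, hX⟩ : ∃ X, X = A - 1 := ⟨_, rfl⟩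
  obtain ⟨X', hX'⟩ : ∃ X', X' = (A.map σ)ᵀ - 1 := ⟨_, rfl⟩
  have e0 : ((embM P Q A).map σ)ᵀ = 1 + Q' * X' * P' := by
    unfold embM
    have e1 : (1 + P * (A - 1) * Q).map σ = 1 + P.map σ * (A.map σ - 1) * Q.map σ := by
      rw [Matrix.map_add _ (map_add σ), Matrix.map_mul, Matrix.map_mul,
        Matrix.map_sub _ (map_sub σ), Matrix.map_one σ (map_zero σ) (map_one σ),
        Matrix.map_one σ (map_zero σ) (map_one σ)]
    rw [e1, transpose_add, transpose_mul, transpose_mul, transpose_sub, transpose_one,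
      transpose_one, ← hQ', ← hP', ← hX', Matrix.mul_assoc]
  have hk : X * K + K * X' + X * K * X' = 0 := by
    have hA1 : A = 1 + X := by rw [hX]; abel
    have hA2 : (A.map σ)ᵀ = 1 + X' := by rw [hX']; abel
    rw [hA2, hA1] at hA
    have : (1 + X) * K * (1 + X') = K + (X * K + K * X' + X * K * X') := by noncomm_ring
    rw [this] at hA
    exact add_eq_left.1 hA
  have e1 : embM P Q A * J = J + P * X * K * P' := by
    unfold embM
    rw [Matrix.add_mul, Matrix.one_mul, ← hX]
    congr 1
    calc P * X * Q * J = P * X * (Q * J) := by rw [Matrix.mul_assoc]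
      _ = P * X * (K * P') := by rw [← h.kp, hP']
      _ = _ := by rw [Matrix.mul_assoc (P * X)]
  have e2 : J * (Q' * X' * P') = P * (K * X') * P' := by
    calc J * (Q' * X' * P') = (J * Q') * X' * P' := by simp only [Matrix.mul_assoc]
      _ = (P * K) * X' * P' := by rw [h.pk, hQ']
      _ = _ := by simp only [Matrix.mul_assoc]
  have e3 : P' * Q' = 1 := by
    rw [hP', hQ', ← transpose_mul, ← Matrix.map_mul, h.qp,
      Matrix.map_one σ (map_zero σ) (map_one σ), transpose_one]
  have e4 : P * X * K * P' * (Q' * X' * P') = P * (X * K * X') * P' := by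
    calc P * X * K * P' * (Q' * X' * P') = P * X * K * (P' * Q') * X' * P' := by
          simp only [Matrix.mul_assoc]
      _ = _ := by rw [e3, Matrix.mul_one]; simp only [Matrix.mul_assoc]
  rw [e0, e1, Matrix.mul_add, Matrix.mul_one, Matrix.add_mul, e2, e4]
  have e5 : J + P * X * K * P' + (P * (K * X') * P' + P * (X * K * X') * P') =
      J + P * (X * K + K * X' + X * K * X') * P' := by
    simp only [Matrix.mul_add, Matrix.add_mul, Matrix.mul_assoc]
    abel
  rw [e5, hk, Matrix.mul_zero, Matrix.zero_mul, add_zero]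

theorem emb_mem (h : EmbD σ J K Q P) {A : SpecialLinearGroup m k} (hA : A ∈ FormGroup σ K) :
    emb h.qp A ∈ FormGroup σ J := embM_form h hA

/-- an element which acts on the subspace by `a'` commutes with the image of the commutant of
`a'` -/
theorem commute_emb (hQP : Q * P = 1) {a : SpecialLinearGroup n k} {a' : Matrix m m k}
    (h1 : a.1 * P = P * a') (h2 : Q * a.1 = a' * Q) {A : SpecialLinearGroup m k}
    (hA : A.1 * a' = a' * A.1) : Commute (emb hQP A) a := by
  refine Subtype.ext ?_
  show embM P Q A.1 * a.1 = a.1 * embM P Q A.1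
  unfold embM
  rw [Matrix.add_mul, Matrix.mul_add, Matrix.one_mul, Matrix.mul_one]
  congr 1
  have e : (A.1 - 1) * a' = a' * (A.1 - 1) := by
    rw [Matrix.sub_mul, Matrix.mul_sub, hA, Matrix.one_mul, Matrix.mul_one]
  calc P * (A.1 - 1) * Q * a.1 = P * (A.1 - 1) * (Q * a.1) := by rw [Matrix.mul_assoc]
    _ = P * ((A.1 - 1) * a') * Q := by rw [h2]; simp only [Matrix.mul_assoc]
    _ = (P * a') * (A.1 - 1) * Q := by rw [e]; simp only [Matrix.mul_assoc]
    _ = a.1 * (P * (A.1 - 1) * Q) := by rw [← h1]; simp only [Matrix.mul_assoc]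

end emb

section top

variable {n m : Type} [Fintype n] [DecidableEq n] [Fintype m] [DecidableEq m] {k : Type}
  [NontriviallyNormedField k]

theorem continuous_emb {P : Matrix n m k} {Q : Matrix m n k} (h : Q * P = 1) :
    Continuous (emb h) := by
  refine Continuous.subtype_mk ?_ _
  unfold embM
  have : Continuous fun A : SpecialLinearGroup m k => A.1 := continuous_subtype_val
  fun_prop

end top

end Vale.Agent.P092.H956
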