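import Vale.Agent.P092.H956.FmG1
import Vale.Agent.P092.H956.FmG2

/-!
P092 (helper956), [P2-GAP] / [P3-GAP], part 3: embeddings of subspaces in general position, and the
subgroup `SL_N` of the group of a form of Witt index at least `N`.
-/

set_option linter.all false

open scoped InnerProductSpace
open Set Filter Topology Matrix

namespace Vale.Agent.P092.H956

open Vale.Agent.P092.H303 (FormGroup)
open Vale.Agent.P092.H933 (URep fixedSub mem_fixedSub LeviGap LocK blk bgap_all)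
open Vale.Agent.P092.H15 (HMG)

section alg

variable {n m : Type} [Fintype n] [DecidableEq n] [Fintype m] [DecidableEq m] {k : Type} [Field k]
  {σ : k →+* k} {ε : k} {J : Matrix n n k} {K Ki : Matrix m m k} {Q : Matrix m n k}

/-- the dual columns -/
def Pd (σ : k →+* k) (J : Matrix n n k) (Q : Matrix m n k) (Ki : Matrix m m k) : Matrix n m k :=
  J * (Q.map σ)ᵀ * Ki

theorem embD_of (hinv : ∀ x, σ (σ x) = x) (heps : ε * ε = 1) (hJ : (J.map σ)ᵀ = ε • J)
    (hK : Q * J * (Q.map σ)ᵀ = K) (hKi : K * Ki = 1) : EmbD σ J K Q (Pd σ J Q Ki) := by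
  have hKi' : Ki * K = 1 := mul_eq_one_comm.1 hKi
  have hQQ : (Q.map σ)ᵀ.map σ = Qᵀ := by
    ext i j
    simp [hinv]
  have hKh : (K.map σ)ᵀ = ε • K := by
    rw [← hK, Matrix.map_mul, Matrix.map_mul, transpose_mul, transpose_mul, hJ, hQQ,
      transpose_transpose, Matrix.smul_mul, Matrix.mul_smul, Matrix.mul_assoc]
  have hKs : K * (Ki.map σ)ᵀ = ε • (1 : Matrix m m k) := by
    have h1 : (Ki.map σ)ᵀ * (K.map σ)ᵀ = 1 := by
      rw [← transpose_mul, ← Matrix.map_mul, hKi, Matrix.map_one σ (map_zero σ) (map_one σ),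
        transpose_one]
    rw [hKh, Matrix.mul_smul, ← Matrix.smul_mul] at h1
    have h2 : K * (ε • (Ki.map σ)ᵀ) = 1 := mul_eq_one_comm.1 h1
    rw [Matrix.mul_smul] at h2
    calc K * (Ki.map σ)ᵀ = (ε * ε) • (K * (Ki.map σ)ᵀ) := by rw [heps, one_smul]
      _ = ε • (ε • (K * (Ki.map σ)ᵀ)) := by rw [smul_smul]
      _ = ε • (1 : Matrix m m k) := by rw [h2]
  refine ⟨?_, ?_, ?_⟩
  · unfold Pd
    rw [← Matrix.mul_assoc, ← Matrix.mul_assoc, hK, hKi]
  · unfold Pd
    rw [Matrix.mul_assoc, hKi', Matrix.mul_one]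
  · unfold Pd
    rw [Matrix.map_mul, Matrix.map_mul, transpose_mul, transpose_mul, hJ, hQQ,
      transpose_transpose, ← Matrix.mul_assoc, hKs, Matrix.smul_mul, Matrix.one_mul,
      Matrix.mul_smul, smul_smul, heps, one_smul]

theorem commute_emb' (hK : Q * J * (Q.map σ)ᵀ = K) (hKi : K * Ki = 1)
    (hQP : Q * Pd σ J Q Ki = 1)
    {a : SpecialLinearGroup n k} (ha : a ∈ FormGroup σ J) {a' : Matrix m m k}
    (h2 : Q * a.1 = a' * Q) {A : SpecialLinearGroup m k} (hA : A.1 * a' = a' * A.1) :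
    Commute (emb hQP A) a := by
  have hKi' : Ki * K = 1 := mul_eq_one_comm.1 hKi
  have ha' : a.1 * J * (a.1.map σ)ᵀ = J := ha
  refine commute_emb hQP ?_ h2 hA
  have e0 : (a.1.map σ)ᵀ * (Q.map σ)ᵀ = (Q.map σ)ᵀ * (a'.map σ)ᵀ := by
    rw [← transpose_mul, ← transpose_mul, ← Matrix.map_mul, ← Matrix.map_mul, h2]
  have e1 : a' * (K * (a'.map σ)ᵀ * Ki) = 1 := by
    calc a' * (K * (a'.map σ)ᵀ * Ki) = (a' * Q) * J * ((Q.map σ)ᵀ * (a'.map σ)ᵀ) * Ki := by
          rw [← hK]; simp only [Matrix.mul_assoc]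
      _ = Q * (a.1 * J * (a.1.map σ)ᵀ) * (Q.map σ)ᵀ * Ki := by
          rw [← h2, ← e0]; simp only [Matrix.mul_assoc]
      _ = 1 := by rw [ha', hK, hKi]
  have e2 : (K * (a'.map σ)ᵀ * Ki) * a' = 1 := mul_eq_one_comm.1 e1
  have e3 : a.1 * Pd σ J Q Ki * (K * (a'.map σ)ᵀ * Ki) = Pd σ J Q Ki := by
    unfold Pd
    calc a.1 * (J * (Q.map σ)ᵀ * Ki) * (K * (a'.map σ)ᵀ * Ki)
        = a.1 * J * (Q.map σ)ᵀ * (Ki * K) * (a'.map σ)ᵀ * Ki := by simp only [Matrix.mul_assoc]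
      _ = a.1 * J * ((Q.map σ)ᵀ * (a'.map σ)ᵀ) * Ki := by
          rw [hKi', Matrix.mul_one]; simp only [Matrix.mul_assoc]
      _ = (a.1 * J * (a.1.map σ)ᵀ) * (Q.map σ)ᵀ * Ki := by
          rw [← e0]; simp only [Matrix.mul_assoc]
      _ = _ := by rw [ha']
  calc a.1 * Pd σ J Q Ki = a.1 * Pd σ J Q Ki * ((K * (a'.map σ)ᵀ * Ki) * a') := by
        rw [e2, Matrix.mul_one]
    _ = (a.1 * Pd σ J Q Ki * (K * (a'.map σ)ᵀ * Ki)) * a' := by simp only [Matrix.mul_assoc]
    _ = _ := by rw [e3]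

theorem embM_coef {P : Matrix n m k} {Q : Matrix m n k} (h : Q * P = 1) (A : Matrix m m k) :
    Q * embM P Q A * P = A := by
  unfold embM
  rw [Matrix.mul_add, Matrix.add_mul, Matrix.mul_one, h]
  have : Q * (P * (A - 1) * Q) * P = (Q * P) * (A - 1) * (Q * P) := by
    simp only [Matrix.mul_assoc]
  rw [this, h]
  noncomm_ring

/-- `SL_N` acting on a pair of dual spaces -/
def lv (σ : k →+* k) (N : ℕ) :
    SpecialLinearGroup (Fin N) k →* SpecialLinearGroup (Fin N ⊕ Fin N) k where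
  toFun A := ⟨fromBlocks A.1 0 0 ((A⁻¹).1.map σ)ᵀ, by
    rw [det_fromBlocks_zero₂₁, A.2, det_transpose, one_mul]
    have : ((A⁻¹).1.map σ).det = σ (A⁻¹).1.det := (RingHom.map_det σ _).symm
    rw [this, (A⁻¹).2, map_one]⟩
  map_one' := by
    refine Subtype.ext ?_
    show fromBlocks (1 : Matrix (Fin N) (Fin N) k) 0 0
      (((1 : SpecialLinearGroup (Fin N) k)⁻¹).1.map σ)ᵀ = 1
    have : ((1 : SpecialLinearGroup (Fin N) k)⁻¹).1 = (1 : Matrix (Fin N) (Fin N) k) := by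
      rw [inv_one]; rfl
    rw [this, Matrix.map_one σ (map_zero σ) (map_one σ), transpose_one, fromBlocks_one]
  map_mul' A B := by
    refine Subtype.ext ?_
    show fromBlocks (A.1 * B.1) 0 0 (((A * B)⁻¹).1.map σ)ᵀ =
      fromBlocks A.1 0 0 ((A⁻¹).1.map σ)ᵀ * fromBlocks B.1 0 0 ((B⁻¹).1.map σ)ᵀ
    have : ((A * B)⁻¹).1 = (B⁻¹).1 * (A⁻¹).1 := by rw [_root_.mul_inv_rev]; rfl
    rw [this, fromBlocks_multiply, Matrix.map_mul, transpose_mul]
    simp

theorem lv_val (σ : k →+* k) (N : ℕ) (A : SpecialLinearGroup (Fin N) k) :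
    (lv σ N A).1 = fromBlocks A.1 0 0 ((A⁻¹).1.map σ)ᵀ := rfl

/-- the form on two dual spaces -/
def KN (ε : k) (N : ℕ) : Matrix (Fin N ⊕ Fin N) (Fin N ⊕ Fin N) k :=
  fromBlocks 0 1 (ε • 1) 0

/-- its inverse -/
def KNi (ε : k) (N : ℕ) : Matrix (Fin N ⊕ Fin N) (Fin N ⊕ Fin N) k :=
  fromBlocks 0 (ε • 1) 1 0

theorem KN_mul (heps : ε * ε = 1) (N : ℕ) : KN ε N * KNi ε N = 1 := by
  unfold KN KNi
  rw [fromBlocks_multiply]
  simp [smul_smul, heps]

theorem lv_mem (hinv : ∀ x, σ (σ x) = x) {N : ℕ} (A : SpecialLinearGroup (Fin N) k) :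
    lv σ N A ∈ FormGroup σ (KN ε N) := by
  show (lv σ N A).1 * KN ε N * ((lv σ N A).1.map σ)ᵀ = KN ε N
  have h1 : A.1 * (A⁻¹).1 = 1 := congrArg Subtype.val (mul_inv_cancel A)
  have h2 : (A⁻¹).1 * A.1 = 1 := congrArg Subtype.val (inv_mul_cancel A)
  have hQQ : (((A⁻¹).1.map σ)ᵀ.map σ)ᵀ = (A⁻¹).1 := by
    ext i j
    simp [hinv]
  have h3 : ((A⁻¹).1.map σ)ᵀ * (A.1.map σ)ᵀ = 1 := by
    rw [← transpose_mul, ← Matrix.map_mul, h1, Matrix.map_one σ (map_zero σ) (map_one σ),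
      transpose_one]
  rw [lv_val, fromBlocks_map, fromBlocks_transpose]
  unfold KN
  rw [fromBlocks_multiply, fromBlocks_multiply, hQQ]
  have e0 : ((0 : Matrix (Fin N) (Fin N) k).map σ)ᵀ = 0 := by ext i j; simp
  revert h1 h2 h3
  generalize (A⁻¹).1 = B
  intro h1 h2 h3
  simp [e0, h1, h3]

end alg


section top

variable {n m : Type} [Fintype n] [DecidableEq n] [Fintype m] [DecidableEq m] {k : Type}
  [NontriviallyNormedField k] {σ : k →+* k}

/-- the embedding in a subgroup `G` leaves compact sets if the coefficients do -/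
theorem tendsto_emb {P : Matrix n m k} {Q : Matrix m n k} (hQP : Q * P = 1)
    {G : Subgroup (SpecialLinearGroup n k)} {b : ℕ → G} {A : ℕ → SpecialLinearGroup m k}
    (hb : ∀ t, (b t).1 = emb hQP (A t)) {i j : m}
    (hA : Tendsto (fun t => ‖(A t).1 i j‖) atTop atTop) : Tendsto b atTop (cocompact G) := by
  refine H714.Sp.tendsto_cocompact_of (f := fun g : G => ‖(Q * g.1.1 * P) i j‖) ?_ ?_
  · have h1 : Continuous fun g : G => g.1.1 := continuous_subtype_val.comp continuous_subtype_val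
    have h2 : Continuous fun g : G => Q * g.1.1 * P := by fun_prop
    exact (h2.matrix_elem i j).norm
  · refine hA.congr fun t => ?_
    rw [hb, emb_val, embM_coef hQP]

theorem continuous_lv (hσ : Continuous σ) (N : ℕ) : Continuous (lv σ N) := by
  refine Continuous.subtype_mk ?_ _
  have h1 : Continuous fun A : SpecialLinearGroup (Fin N) k => A.1 := continuous_subtype_val
  have h2 : Continuous fun A : SpecialLinearGroup (Fin N) k => (A⁻¹).1 :=
    continuous_subtype_val.comp continuous_inv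
  have h3 : Continuous fun A : SpecialLinearGroup (Fin N) k => ((A⁻¹).1.map σ)ᵀ :=
    (h2.matrix_map hσ).matrix_transpose
  exact Continuous.matrix_fromBlocks h1 continuous_const continuous_const h3

end top

end Vale.Agent.P092.H956
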