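import Vale.Agent.P092.H956.FmG3

/-!
P092 (helper956), [P2-GAP]: the gap of the walls of the groups of the forms of Witt index at least
three, every local field, every characteristic.
-/

set_option linter.all false

open scoped InnerProductSpace
open Set Filter Topology Matrix

namespace Vale.Agent.P092.H956

open Vale.Agent.P092.H303 (FormGroup)
open Vale.Agent.P092.H714.Cl (hf)
open Vale.Agent.P092.H933 (URep fixedSub mem_fixedSub LeviGap LocK blk bgap_all)
open Vale.Agent.P092.H15 (HMG)
open Vale.Agent.P092.H956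

section alg

variable {n m : Type} [Fintype n] [DecidableEq n] [Fintype m] [DecidableEq m] {k : Type} [Field k]
  {σ : k →+* k} {ε : k} {J : Matrix n n k}

theorem row_form (Q : Matrix m n k) (a b : m) :
    (Q * J * (Q.map σ)ᵀ) a b = hf σ J (Q a) (Q b) := by
  rw [Matrix.mul_assoc]
  unfold hf
  simp only [Matrix.mul_apply, dotProduct, mulVec, transpose_apply, map_apply]

/-- `N` hyperbolic pairs -/
structure HypN (σ : k →+* k) (ε : k) (J : Matrix n n k) {N : ℕ} (e f : Fin N → n → k) : Prop where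
  ee : ∀ i j, hf σ J (e i) (e j) = 0
  ff : ∀ i j, hf σ J (f i) (f j) = 0
  ef : ∀ i j, hf σ J (e i) (f j) = if i = j then 1 else 0
  fe : ∀ i j, hf σ J (f i) (e j) = if i = j then ε else 0

/-- the rows -/
def Qr {N : ℕ} (e f : Fin N → n → k) : Matrix (Fin N ⊕ Fin N) n k := Matrix.of (Sum.elim e f)

theorem HypN.form {N : ℕ} {e f : Fin N → n → k} (h : HypN σ ε J e f) :
    Qr e f * J * ((Qr e f).map σ)ᵀ = KN ε N := by
  ext a b
  rw [row_form]
  rcases a with a | a <;> rcases b with b | b
  · exact (h.ee a b).trans rfl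
  · refine (h.ef a b).trans ?_
    show _ = (1 : Matrix (Fin N) (Fin N) k) a b
    rw [Matrix.one_apply]
  · refine (h.fe a b).trans ?_
    show _ = ε * (1 : Matrix (Fin N) (Fin N) k) a b
    rw [Matrix.one_apply]
    split_ifs <;> simp
  · exact (h.ff a b).trans rfl

theorem row_mul {N : ℕ} {e f : Fin N → n → k} {A : Matrix n n k} {x : Fin N ⊕ Fin N → k}
    (he : ∀ i, e i ᵥ* A = x (.inl i) • e i) (hf' : ∀ i, f i ᵥ* A = x (.inr i) • f i) :
    Qr e f * A = diagonal x * Qr e f := by
  ext a b
  rw [Matrix.diagonal_mul]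
  rcases a with a | a
  · exact congrFun (he a) b
  · exact congrFun (hf' a) b

theorem lv_comm {N : ℕ} {j l : Fin N} (hjl : j ≠ l) (t : k) {x : Fin N ⊕ Fin N → k}
    (h1 : x (.inl j) = x (.inl l)) (h2 : x (.inr j) = x (.inr l)) :
    (lv σ N (SpecialLinearGroup.transvection hjl t)).1 * diagonal x =
      diagonal x * (lv σ N (SpecialLinearGroup.transvection hjl t)).1 := by
  have e1 : (SpecialLinearGroup.transvection hjl t).1 = 1 + Matrix.single j l t := rfl
  have e2 : ((SpecialLinearGroup.transvection hjl t)⁻¹).1 = 1 + Matrix.single j l (-t) := by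
    have h3 : SpecialLinearGroup.transvection hjl t * SpecialLinearGroup.transvection hjl (-t) =
        1 := by
      refine Subtype.ext ?_
      show (Matrix.transvection j l t) * (Matrix.transvection j l (-t)) = 1
      rw [transvection_mul_transvection_same _ _ hjl, add_neg_cancel, transvection_zero]
    rw [inv_eq_of_mul_eq_one_right h3]
    rfl
  rw [lv_val, e1, e2]
  have e3 : (((1 : Matrix (Fin N) (Fin N) k) + Matrix.single j l (-t)).map σ)ᵀ =
      1 + Matrix.single l j (-σ t) := by
    ext a b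
    simp only [transpose_apply, map_apply, Matrix.add_apply, Matrix.one_apply, Matrix.single_apply]
    by_cases hab : a = b
    · subst hab
      by_cases h5 : j = a ∧ l = a
      · exact absurd (h5.1.trans h5.2.symm) hjl
      · have h6 : ¬ (l = a ∧ j = a) := fun h => h5 ⟨h.2, h.1⟩
        simp [h5, h6]
    · have hba : ¬ b = a := fun h => hab h.symm
      by_cases h5 : j = b ∧ l = a
      · simp [hab, hba, h5]
      · have h6 : ¬ (l = a ∧ j = b) := fun h => h5 ⟨h.2, h.1⟩
        simp [hab, hba, h5, h6]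
  rw [e3]
  ext a b
  rw [Matrix.mul_diagonal, Matrix.diagonal_mul]
  rcases a with a | a <;> rcases b with b | b
  · simp only [fromBlocks_apply₁₁, Matrix.add_apply, Matrix.one_apply, Matrix.single_apply]
    by_cases h5 : j = a ∧ l = b
    · obtain ⟨rfl, rfl⟩ := h5
      simp [hjl, h1, mul_comm]
    · by_cases hab : a = b
      · subst hab; simp [h5]
      · simp [h5, hab]
  · simp
  · simp
  · simp only [fromBlocks_apply₂₂, Matrix.add_apply, Matrix.one_apply, Matrix.single_apply]
    by_cases h5 : l = a ∧ j = b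
    · obtain ⟨rfl, rfl⟩ := h5
      simp [hjl.symm, h2, mul_comm]
    · by_cases hab : a = b
      · subst hab; simp [h5]
      · simp [h5, hab]

end alg

section top

variable {n : Type} [Fintype n] [DecidableEq n] {k : Type}
  [NontriviallyNormedField k] {σ : k →+* k} {ε : k} {J : Matrix n n k}
  {G : Subgroup (SpecialLinearGroup n k)} {N : ℕ} {e f : Fin N → n → k}

/-- the embedding of `SL_N` -/
theorem HypN.embD (h : HypN σ ε J e f) (hinv : ∀ x, σ (σ x) = x) (heps : ε * ε = 1)
    (hJ : (J.map σ)ᵀ = ε • J) :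
    EmbD σ J (KN ε N) (Qr e f) (Pd σ J (Qr e f) (KNi ε N)) :=
  embD_of hinv heps hJ h.form (KN_mul heps N)

/-- **The gap of the walls, Witt index at least three** (`a` diagonal in the frame, with two equal
entries). -/
theorem leviGap_lv (hk : LocK k) (hinv : ∀ x, σ (σ x) = x) (hσc : Continuous σ)
    (heps : ε * ε = 1) (hJ : (J.map σ)ᵀ = ε • J) (h : HypN σ ε J e f) (hm : HMG G)
    (hG : ∀ A, emb (h.embD hinv heps hJ).qp (lv σ N A) ∈ G) {i j l : Fin N} (hij : i ≠ j)
    (hil : i ≠ l) (hjl : j ≠ l) {a : G} (ha : a.1 ∈ FormGroup σ J) {x : Fin N ⊕ Fin N → k}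
    (hae : ∀ i, e i ᵥ* a.1.1 = x (.inl i) • e i) (haf : ∀ i, f i ᵥ* a.1.1 = x (.inr i) • f i)
    (h1 : x (.inl j) = x (.inl l)) (h2 : x (.inr j) = x (.inr l)) : LeviGap a := by
  obtain ⟨hQP, hQP'⟩ : ∃ hQP : Qr e f * Pd σ J (Qr e f) (KNi ε N) = 1,
    hQP = (h.embD hinv heps hJ).qp := ⟨_, rfl⟩
  obtain ⟨φ, hφ⟩ : ∃ φ : SpecialLinearGroup (Fin N) k →* G, φ =
    ((emb (h.embD hinv heps hJ).qp).comp (lv σ N)).codRestrict G hG := ⟨_, rfl⟩
  have hφv : ∀ A, (φ A).1 = emb (h.embD hinv heps hJ).qp (lv σ N A) := by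
    intro A; rw [hφ]; rfl
  have hφc : Continuous φ := by
    rw [hφ]
    exact Continuous.subtype_mk ((continuous_emb _).comp (continuous_lv hσc N)) _
  obtain ⟨c, hc⟩ := NormedField.exists_one_lt_norm k
  have hfix : FixUp φ := by
    refine fixUp_of hm (b := fun t : ℕ => SpecialLinearGroup.transvection hjl (c ^ t)) ?_
    refine tendsto_emb (h.embD hinv heps hJ).qp (fun t => hφv _) (i := .inl j) (j := .inl l) ?_
    have e1 : ∀ t : ℕ, ‖(lv σ N (SpecialLinearGroup.transvection hjl (c ^ t))).1
        (.inl j) (.inl l)‖ = ‖c‖ ^ t := by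
      intro t
      rw [lv_val, fromBlocks_apply₁₁]
      show ‖((1 : Matrix (Fin N) (Fin N) k) + Matrix.single j l (c ^ t)) j l‖ = _
      simp [Matrix.one_apply, hjl]
    simp only [e1]
    exact tendsto_pow_atTop_atTop_of_one_lt hc
  have hgap := (lgap_blk (k := k) hk hij hil hjl).push hφc hfix
  refine hgap.leviGap ?_
  have hle : (blk (k := k) hjl).map φ ≤ Subgroup.centralizer {a} := by
    rw [Subgroup.map_le_iff_le_comap]
    unfold blk
    rw [Subgroup.closure_le]
    have hcm : ∀ {A : SpecialLinearGroup (Fin N) k},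
        (lv σ N A).1 * diagonal x = diagonal x * (lv σ N A).1 →
        φ A ∈ Subgroup.centralizer ({a} : Set G) := by
      intro A hA
      refine Subgroup.mem_centralizer_singleton_iff.2 (Subtype.ext ?_)
      show (φ A).1 * a.1 = a.1 * (φ A).1
      rw [hφv]
      exact commute_emb' h.form (KN_mul heps N) _ ha (row_mul hae haf) hA
    rintro A (⟨t, rfl⟩ | ⟨t, rfl⟩)
    · exact hcm (lv_comm hjl t h1 h2)
    · exact hcm (lv_comm hjl.symm t h1.symm h2.symm)
  intro s hs
  exact Subgroup.mem_centralizer_singleton_iff.1 (hle hs)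

end top

end Vale.Agent.P092.H956
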