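import Vale.Agent.P092.H956.FmG4

/-!
P092 (helper956), [P3-GAP]: the gap of the two walls of the unitary and symplectic groups of Witt
index two, `2 ≠ 0`: they contain `Sp_4` of the fixed field.
-/

set_option linter.all false

open scoped InnerProductSpace
open Set Filter Topology Matrix

namespace Vale.Agent.P092.H956

open Vale.Agent.P092.H303 (FormGroup)
open Vale.Agent.P092.H714.Cl (hf)
open Vale.Agent.P092.H933 (URep fixedSub mem_fixedSub LeviGap LocK)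
open Vale.Agent.P092.H15 (HMG)
open Vale.Agent.P092.SP4

section alg

variable {n : Type} [Fintype n] [DecidableEq n] {k : Type} [Field k]
  {σ : k →+* k} {ε : k} {J : Matrix n n k}

/-- the four rows -/
def Q4 (c : k) (e f : Fin 2 → n → k) : Matrix (Fin 4) n k := ![e 0, e 1, c • f 1, c • f 0]

/-- the inverse of the form -/
def K4i (ε c : k) : Matrix (Fin 4) (Fin 4) k := (-(ε * c))⁻¹ • -J4 k

theorem sig_c (heps : ε * ε = 1) {c : k} (hc : c + ε * σ c = 0) : σ c = -(ε * c) := by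
  linear_combination ε * hc - σ c * heps

theorem form4 (heps : ε * ε = 1) {c : k} (hc : c + ε * σ c = 0) {e f : Fin 2 → n → k}
    (h : HypN σ ε J e f) : Q4 c e f * J * ((Q4 c e f).map σ)ᵀ = (-(ε * c)) • J4 k := by
  have hs := sig_c heps hc
  have ee := h.ee
  have ff := h.ff
  have ef := h.ef
  have fe := h.fe
  ext a b
  rw [row_form, Matrix.smul_apply, smul_eq_mul]
  fin_cases a <;> fin_cases b <;>
  simp [Q4, J4, H714.Cl.hf_smul_left, H714.Cl.hf_smul_right, ee, ff, ef, fe, hs, mul_comm]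

theorem J4_inv : J4 k * -J4 k = 1 := by
  rw [Matrix.mul_neg, J4_sq, neg_neg]

theorem K4_mul (heps : ε * ε = 1) {c : k} (hc0 : c ≠ 0) :
    ((-(ε * c)) • J4 k) * K4i ε c = 1 := by
  have he : ε ≠ 0 := by
    rintro rfl
    rw [mul_zero] at heps
    exact zero_ne_one heps
  have h0 : -(ε * c) ≠ 0 := neg_ne_zero.2 (mul_ne_zero he hc0)
  unfold K4i
  rw [Matrix.smul_mul, Matrix.mul_smul, smul_smul, mul_inv_cancel₀ h0, one_smul, J4_inv]

/-- the entries of a diagonal element in the frame -/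
def d4 (x y : Fin 2 → k) : Fin 4 → k := ![x 0, x 1, y 1, y 0]

theorem row_mul4 {c : k} {e f : Fin 2 → n → k} {A : Matrix n n k} {x y : Fin 2 → k}
    (he : ∀ i, e i ᵥ* A = x i • e i) (hf' : ∀ i, f i ᵥ* A = y i • f i) :
    Q4 c e f * A = diagonal (d4 x y) * Q4 c e f := by
  ext a b
  rw [Matrix.diagonal_mul, Matrix.mul_apply_eq_vecMul]
  fin_cases a
  · exact congrFun (he 0) b
  · exact congrFun (he 1) b
  · show ((c • f 1) ᵥ* A) b = y 1 * (c * f 1 b)
    rw [smul_vecMul, hf']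
    simp only [Pi.smul_apply, smul_eq_mul]
    ring
  · show ((c • f 0) ᵥ* A) b = y 0 * (c * f 0 b)
    rw [smul_vecMul, hf']
    simp only [Pi.smul_apply, smul_eq_mul]
    ring

variable {k₀ : Type} [Field k₀] (j : k₀ →+* k)

theorem map_mem4 (hσj : ∀ x, σ (j x) = j x) {t : k} {g : SpecialLinearGroup (Fin 4) k₀}
    (hg : g ∈ S4 k₀) : SpecialLinearGroup.map j g ∈ FormGroup σ (t • J4 k) := by
  have h1 := congrArg (fun M : Matrix (Fin 4) (Fin 4) k₀ => M.map j) (mem_S4.1 hg)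
  have hJ : (J4 k₀).map j = J4 k := by
    ext a b
    fin_cases a <;> fin_cases b <;> simp [J4]
  change (g.1 * J4 k₀ * g.1ᵀ).map j = (J4 k₀).map j at h1
  rw [Matrix.map_mul, Matrix.map_mul, hJ, transpose_map] at h1
  show (g.1.map j) * (t • J4 k) * (((g.1.map j)).map σ)ᵀ = t • J4 k
  have h2 : (g.1.map j).map σ = g.1.map j := by
    ext a b
    exact hσj _
  rw [h2, Matrix.mul_smul, Matrix.smul_mul, h1]

theorem mid_diag (A : SpecialLinearGroup (Fin 2) k₀) {x y : Fin 2 → k} (h : x 1 = y 1) :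
    (SpecialLinearGroup.map j (mid A).1).1 * diagonal (d4 x y) =
      diagonal (d4 x y) * (SpecialLinearGroup.map j (mid A).1).1 := by
  ext a b
  rw [Matrix.mul_diagonal, Matrix.diagonal_mul]
  show j ((mid A).1.1 a b) * _ = _ * j ((mid A).1.1 a b)
  rw [mid_val]
  fin_cases a <;> fin_cases b <;> simp [d4, h, mul_comm]

theorem bd_diag {g : SpecialLinearGroup (Fin 4) k₀} (hg : BD g.1) {x y : Fin 2 → k}
    (h : x 0 = x 1) (h' : y 0 = y 1) :
    (SpecialLinearGroup.map j g).1 * diagonal (d4 x y) =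
      diagonal (d4 x y) * (SpecialLinearGroup.map j g).1 := by
  obtain ⟨⟨a1, a2, a3, a4⟩, a5, a6, a7, a8⟩ := hg
  ext a b
  rw [Matrix.mul_diagonal, Matrix.diagonal_mul]
  show j (g.1 a b) * _ = _ * j (g.1 a b)
  fin_cases a <;> fin_cases b <;> simp [d4, h, h', mul_comm, a1, a2, a3, a4, a5, a6, a7, a8]

end alg

section top

variable {n : Type} [Fintype n] [DecidableEq n] {k : Type}
  [NontriviallyNormedField k] {σ : k →+* k} {ε : k} {J : Matrix n n k}
  {G : Subgroup (SpecialLinearGroup n k)} {e f : Fin 2 → n → k}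
  {k₀ : Type} [NontriviallyNormedField k₀] [ProperSpace k₀] {j : k₀ →+* k}

/-- the embedding of `Sp_4` -/
theorem HypN.emb4 (h : HypN σ ε J e f) (hinv : ∀ x, σ (σ x) = x) (heps : ε * ε = 1)
    (hJ : (J.map σ)ᵀ = ε • J) {c : k} (hc0 : c ≠ 0) (hc : c + ε * σ c = 0) :
    EmbD σ J ((-(ε * c)) • J4 k) (Q4 c e f) (Pd σ J (Q4 c e f) (K4i ε c)) :=
  embD_of hinv heps hJ (form4 heps hc h) (K4_mul heps hc0)

/-- the data of `Sp_4(k₀)` in `G` -/
theorem exists_phi4 (h : HypN σ ε J e f) (hinv : ∀ x, σ (σ x) = x) (heps : ε * ε = 1)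
    (hJ : (J.map σ)ᵀ = ε • J) {c : k} (hc0 : c ≠ 0) (hc : c + ε * σ c = 0)
    (hj : ∀ x, ‖j x‖ = ‖x‖) (hσj : ∀ x, σ (j x) = j x) (hm : HMG G)
    (hG : ∀ A : S4 k₀, emb (h.emb4 hinv heps hJ hc0 hc).qp (SpecialLinearGroup.map j A.1) ∈ G) :
    ∃ φ : S4 k₀ →* G, Continuous φ ∧ FixUp φ ∧
      ∀ {a : G} (ha : a.1 ∈ FormGroup σ J) {x y : Fin 2 → k}
        (hae : ∀ i, e i ᵥ* a.1.1 = x i • e i) (haf : ∀ i, f i ᵥ* a.1.1 = y i • f i) {A : S4 k₀},
        (SpecialLinearGroup.map j A.1).1 * diagonal (d4 x y) =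
          diagonal (d4 x y) * (SpecialLinearGroup.map j A.1).1 → Commute (φ A) a := by
  obtain ⟨φ, hφ⟩ : ∃ φ : S4 k₀ →* G, φ =
    ((emb (h.emb4 hinv heps hJ hc0 hc).qp).comp ((SpecialLinearGroup.map j).comp
      (S4 k₀).subtype)).codRestrict G hG := ⟨_, rfl⟩
  have hφv : ∀ A, (φ A).1 = emb (h.emb4 hinv heps hJ hc0 hc).qp (SpecialLinearGroup.map j A.1) := by
    intro A; rw [hφ]; rfl
  have hjc : Continuous j := (AddMonoidHomClass.isometry_of_norm j hj).continuous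
  refine ⟨φ, ?_, ?_, ?_⟩
  · rw [hφ]
    exact Continuous.subtype_mk ((continuous_emb _).comp
      ((H933.continuous_slmap j hjc).comp continuous_subtype_val)) _
  · obtain ⟨r, hr⟩ := NormedField.exists_one_lt_norm k₀
    refine fixUp_of hm (b := fun t : ℕ => lg4 (r ^ t)) ?_
    refine tendsto_emb (h.emb4 hinv heps hJ hc0 hc).qp (fun t => hφv _) (i := 0) (j := 3) ?_
    have e1 : ∀ t : ℕ, ‖(SpecialLinearGroup.map j (lg4 (r ^ t)).1).1 0 3‖ = ‖r‖ ^ t := by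
      intro t
      show ‖j ((lg4 (r ^ t)).1.1 0 3)‖ = _
      rw [hj, lg4_val]
      simp
    simp only [e1]
    exact tendsto_pow_atTop_atTop_of_one_lt hr
  · intro a ha x y hae haf A hA
    refine Subtype.ext ?_
    show (φ A).1 * a.1 = a.1 * (φ A).1
    rw [hφv]
    exact commute_emb' (form4 heps hc h) (K4_mul heps hc0) _ ha (row_mul4 hae haf) hA

/-- **Point wall**: `a` is diagonal in the frame of two hyperbolic pairs, with equal entries on the
second pair. -/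
theorem leviGap_u1 (h2 : (2 : k₀) ≠ 0) (h : HypN σ ε J e f) (hinv : ∀ x, σ (σ x) = x)
    (heps : ε * ε = 1) (hJ : (J.map σ)ᵀ = ε • J) {c : k} (hc0 : c ≠ 0) (hc : c + ε * σ c = 0)
    (hj : ∀ x, ‖j x‖ = ‖x‖) (hσj : ∀ x, σ (j x) = j x) (hm : HMG G)
    (hG : ∀ A : S4 k₀, emb (h.emb4 hinv heps hJ hc0 hc).qp (SpecialLinearGroup.map j A.1) ∈ G)
    {a : G} (ha : a.1 ∈ FormGroup σ J) {x y : Fin 2 → k}
    (hae : ∀ i, e i ᵥ* a.1.1 = x i • e i) (haf : ∀ i, f i ᵥ* a.1.1 = y i • f i)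
    (hxy : x 1 = y 1) : LeviGap a := by
  obtain ⟨φ, h3, h4, h5⟩ := exists_phi4 h hinv heps hJ hc0 hc hj hσj hm hG
  refine ((lgap_mid h2).push h3 h4).leviGap ?_
  rintro _ ⟨_, ⟨A, rfl⟩, rfl⟩
  exact h5 ha hae haf (mid_diag j A hxy)

/-- **Line wall**: `a` is diagonal in the frame of two hyperbolic pairs, with equal entries on `e`
and on `f`. -/
theorem leviGap_u2 (h2 : (2 : k₀) ≠ 0) (h : HypN σ ε J e f) (hinv : ∀ x, σ (σ x) = x)
    (heps : ε * ε = 1) (hJ : (J.map σ)ᵀ = ε • J) {c : k} (hc0 : c ≠ 0) (hc : c + ε * σ c = 0)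
    (hj : ∀ x, ‖j x‖ = ‖x‖) (hσj : ∀ x, σ (j x) = j x) (hm : HMG G)
    (hG : ∀ A : S4 k₀, emb (h.emb4 hinv heps hJ hc0 hc).qp (SpecialLinearGroup.map j A.1) ∈ G)
    {a : G} (ha : a.1 ∈ FormGroup σ J) {x y : Fin 2 → k}
    (hae : ∀ i, e i ᵥ* a.1.1 = x i • e i) (haf : ∀ i, f i ᵥ* a.1.1 = y i • f i)
    (hx : x 0 = x 1) (hy : y 0 = y 1) : LeviGap a := by
  obtain ⟨φ, h3, h4, h5⟩ := exists_phi4 h hinv heps hJ hc0 hc hj hσj hm hG
  obtain ⟨S, hS, hBD⟩ := lgap_lev h2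
  refine (hS.push h3 h4).leviGap ?_
  rintro _ ⟨A, hA, rfl⟩
  exact h5 ha hae haf (bd_diag j (hBD A hA) hx hy)

end top

end Vale.Agent.P092.H956
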