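import Vale.Agent.P092.H956.FmG5

/-!
P092 (helper956), [P3-GAP]: the representation of dimension five of `Sp_4`, with its quadratic form.
-/

set_option linter.all false

open scoped InnerProductSpace
open Set Filter Topology Matrix

namespace Vale.Agent.P092.H956

open Vale.Agent.P092.H303 (FormGroup)
open Vale.Agent.P092.H714.Cl (hf Frm GT)
open Vale.Agent.P092.H933 (URep fixedSub mem_fixedSub LeviGap LocK)
open Vale.Agent.P092.H15 (HMG)
open Vale.Agent.P092.SP4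

section alg

variable {k : Type} [Field k]

/-- basis of the space of alternating matrices orthogonal to `J4` -/
def B5 (k : Type) [Field k] : Fin 5 → Matrix (Fin 4) (Fin 4) k :=
  ![!![0, 1, 0, 0; -1, 0, 0, 0; 0, 0, 0, 0; 0, 0, 0, 0],
    !![0, 0, 1, 0; 0, 0, 0, 0; -1, 0, 0, 0; 0, 0, 0, 0],
    !![0, 0, 0, 0; 0, 0, 0, 1; 0, 0, 0, 0; 0, -1, 0, 0],
    !![0, 0, 0, 0; 0, 0, 0, 0; 0, 0, 0, 1; 0, 0, -1, 0],
    !![0, 0, 0, 1; 0, 0, -1, 0; 0, 1, 0, 0; -1, 0, 0, 0]]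

/-- coordinates -/
def C5 (j : Fin 5) (X : Matrix (Fin 4) (Fin 4) k) : k :=
  ![X 0 1, X 0 2, X 1 3, X 2 3, X 0 3] j

/-- the space -/
def W5 (X : Matrix (Fin 4) (Fin 4) k) : Prop := Xᵀ = -X ∧ trace (X * J4 k) = 0

theorem C5_add (j : Fin 5) (X Y : Matrix (Fin 4) (Fin 4) k) : C5 j (X + Y) = C5 j X + C5 j Y := by
  fin_cases j <;> rfl

theorem C5_smul (j : Fin 5) (a : k) (X : Matrix (Fin 4) (Fin 4) k) : C5 j (a • X) = a * C5 j X := by
  fin_cases j <;> rfl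

theorem C5_sum (j : Fin 5) {ι : Type*} (s : Finset ι) (X : ι → Matrix (Fin 4) (Fin 4) k) :
    C5 j (∑ i ∈ s, X i) = ∑ i ∈ s, C5 j (X i) := by
  classical
  induction s using Finset.induction_on with
  | empty =>
    rw [Finset.sum_empty, Finset.sum_empty]
    fin_cases j <;> rfl
  | insert a s ha ih => rw [Finset.sum_insert ha, Finset.sum_insert ha, C5_add, ih]

theorem W5_expand (h2 : (2 : k) ≠ 0) {X : Matrix (Fin 4) (Fin 4) k} (h : W5 X) :
    X = ∑ i, C5 i X • B5 k i := by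
  obtain ⟨h1, h3⟩ := h
  have hs : ∀ i j, X j i = -X i j := fun i j => congrFun (congrFun h1 i) j
  have hd : ∀ i, X i i = 0 := by
    intro i
    have h4 := hs i i
    have h5 : 2 * X i i = 0 := by linear_combination h4
    exact (mul_eq_zero.1 h5).resolve_left h2
  have ht : X 1 2 = -X 0 3 := by
    have h4 : X 3 0 + X 2 1 - X 1 2 - X 0 3 = 0 := by
      rw [← h3]
      simp [Matrix.trace, Matrix.diag, Matrix.mul_apply, Fin.sum_univ_four, J4]
      ring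
    rw [hs 0 3, hs 1 2] at h4
    have h5 : 2 * (X 1 2 + X 0 3) = 0 := by linear_combination -h4
    have h6 := (mul_eq_zero.1 h5).resolve_left h2
    linear_combination h6
  have ht' : X 2 1 = X 0 3 := by rw [hs 1 2, ht, neg_neg]
  ext a b
  rw [Matrix.sum_apply, Fin.sum_univ_five]
  fin_cases a <;> fin_cases b <;>
    simp [B5, C5, hd, ht, ht', hs 0 1, hs 0 2, hs 0 3, hs 1 3, hs 2 3]

theorem W5_B (i : Fin 5) : W5 (B5 k i) := by
  constructor
  · fin_cases i <;> ext a b <;> fin_cases a <;> fin_cases b <;> simp [B5]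
  · fin_cases i <;>
      simp [B5, J4, Matrix.trace, Matrix.diag, Matrix.mul_apply, Fin.sum_univ_four]

theorem W5_conj {X A : Matrix (Fin 4) (Fin 4) k} (h : W5 X) (hA : A * J4 k * Aᵀ = J4 k) :
    W5 (Aᵀ * X * A) := by
  obtain ⟨h1, h3⟩ := h
  constructor
  · rw [transpose_mul, transpose_mul, transpose_transpose, h1, Matrix.neg_mul, Matrix.mul_neg,
      Matrix.mul_assoc]
  · have e : Aᵀ * X * A * J4 k = Aᵀ * (X * (A * J4 k)) := by simp only [Matrix.mul_assoc]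
    rw [e, trace_mul_comm, Matrix.mul_assoc, hA, h3]

/-- the matrix of the representation -/
def tauM (A : Matrix (Fin 4) (Fin 4) k) : Matrix (Fin 5) (Fin 5) k :=
  Matrix.of fun i j => C5 j (Aᵀ * B5 k i * A)

theorem tauM_mul (h2 : (2 : k) ≠ 0) {A B : Matrix (Fin 4) (Fin 4) k} (hA : A * J4 k * Aᵀ = J4 k) :
    tauM (A * B) = tauM A * tauM B := by
  ext i l
  rw [Matrix.mul_apply]
  show C5 l ((A * B)ᵀ * B5 k i * (A * B)) = ∑ j, C5 j (Aᵀ * B5 k i * A) * C5 l (Bᵀ * B5 k j * B)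
  have e : (A * B)ᵀ * B5 k i * (A * B) = Bᵀ * (Aᵀ * B5 k i * A) * B := by
    rw [transpose_mul]
    simp only [Matrix.mul_assoc]
  have e2 := W5_expand h2 (W5_conj (W5_B i) hA)
  rw [e]
  conv_lhs => rw [e2]
  rw [Matrix.mul_sum, Matrix.sum_mul, C5_sum]
  refine Finset.sum_congr rfl fun j _ => ?_
  rw [Matrix.mul_smul, Matrix.smul_mul, C5_smul]

theorem tauM_one : tauM (1 : Matrix (Fin 4) (Fin 4) k) = 1 := by
  ext i j
  show C5 j ((1 : Matrix (Fin 4) (Fin 4) k)ᵀ * B5 k i * 1) = _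
  rw [transpose_one, Matrix.one_mul, Matrix.mul_one]
  fin_cases i <;> fin_cases j <;> simp [C5, B5]

/-- the form -/
def K5 (k : Type) [Field k] : Matrix (Fin 5) (Fin 5) k :=
  !![0, 0, 0, -2, 0; 0, 0, 2, 0, 0; 0, 2, 0, 0, 0; -2, 0, 0, 0, 0; 0, 0, 0, 0, 4]

/-- the form, without coordinates -/
def bb (X Y : Matrix (Fin 4) (Fin 4) k) : k := trace (X * J4 k * Y * J4 k)

theorem K5_eq (i j : Fin 5) : K5 k i j = bb (B5 k i) (B5 k j) := by
  fin_cases i <;> fin_cases j <;>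
    simp [K5, bb, B5, J4, Matrix.trace, Matrix.diag, Matrix.mul_apply, Fin.sum_univ_four] <;>
    norm_num

theorem bb_conj {A : Matrix (Fin 4) (Fin 4) k} (hA : A * J4 k * Aᵀ = J4 k)
    (X Y : Matrix (Fin 4) (Fin 4) k) : bb (Aᵀ * X * A) (Aᵀ * Y * A) = bb X Y := by
  unfold bb
  have e : Aᵀ * X * A * J4 k * (Aᵀ * Y * A) * J4 k =
      Aᵀ * (X * (A * J4 k * Aᵀ) * Y * (A * J4 k)) := by simp only [Matrix.mul_assoc]
  rw [e, trace_mul_comm, hA]
  have e2 : X * J4 k * Y * (A * J4 k) * Aᵀ = X * J4 k * Y * (A * J4 k * Aᵀ) := by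
    simp only [Matrix.mul_assoc]
  rw [e2, hA]

theorem bb_sum_left (Y : Matrix (Fin 4) (Fin 4) k) {ι : Type*} (s : Finset ι) (a : ι → k)
    (X : ι → Matrix (Fin 4) (Fin 4) k) : bb (∑ i ∈ s, a i • X i) Y = ∑ i ∈ s, a i * bb (X i) Y := by
  unfold bb
  rw [Matrix.sum_mul, Matrix.sum_mul, Matrix.sum_mul, Matrix.trace_sum]
  refine Finset.sum_congr rfl fun i _ => ?_
  rw [Matrix.smul_mul, Matrix.smul_mul, Matrix.smul_mul, Matrix.trace_smul, smul_eq_mul]

theorem bb_sum_right (Y : Matrix (Fin 4) (Fin 4) k) {ι : Type*} (s : Finset ι) (a : ι → k)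
    (X : ι → Matrix (Fin 4) (Fin 4) k) : bb Y (∑ i ∈ s, a i • X i) = ∑ i ∈ s, a i * bb Y (X i) := by
  unfold bb
  rw [Matrix.mul_sum, Matrix.sum_mul, Matrix.trace_sum]
  refine Finset.sum_congr rfl fun i _ => ?_
  rw [Matrix.mul_smul, Matrix.smul_mul, Matrix.trace_smul, smul_eq_mul]

theorem tauM_form (h2 : (2 : k) ≠ 0) {A : Matrix (Fin 4) (Fin 4) k}
    (hA : A * J4 k * Aᵀ = J4 k) : tauM A * K5 k * (tauM A)ᵀ = K5 k := by
  ext i l
  rw [Matrix.mul_assoc, Matrix.mul_apply]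
  have e1 := W5_expand h2 (W5_conj (W5_B i) hA)
  have e2 := W5_expand h2 (W5_conj (W5_B l) hA)
  rw [K5_eq i l, ← bb_conj hA]
  conv_rhs => rw [e1, bb_sum_left]
  refine Finset.sum_congr rfl fun j _ => ?_
  congr 1
  rw [Matrix.mul_apply]
  conv_rhs => rw [e2, bb_sum_right]
  refine Finset.sum_congr rfl fun m _ => ?_
  rw [K5_eq j m, mul_comm]
  rfl

end alg

end Vale.Agent.P092.H956
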