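import Vale.Agent.P092.H956.FmG6

/-!
P092 (helper956), [P3-GAP]: the gap of the two walls of the orthogonal groups of Witt index two and
dimension at least five, `2 ≠ 0`: the image of `Sp_4`.
-/

set_option linter.all false

open scoped InnerProductSpace commutatorElement
open Set Filter Topology Matrix

namespace Vale.Agent.P092.H956

open Vale.Agent.P092.H303 (FormGroup)
open Vale.Agent.P092.H714.Cl (hf Frm GT)
open Vale.Agent.P092.H933 (URep fixedSub mem_fixedSub LeviGap LocK)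
open Vale.Agent.P092.H15 (HMG)
open Vale.Agent.P092.SP4

section grp

variable {k : Type} [NontriviallyNormedField k]

theorem hom_S4 {A : Type*} [CommGroup A] (φ : S4 k →* A) (g : S4 k) : φ g = 1 := by
  obtain ⟨r, hr⟩ := NormedField.exists_one_lt_norm k
  have hr0 : r ≠ 0 := by
    rintro rfl
    rw [norm_zero] at hr
    linarith
  have hr2 : r⁻¹ * r⁻¹ ≠ 1 := by
    intro h
    have h1 := congrArg norm h
    rw [norm_mul, norm_one, norm_inv] at h1
    have h3 : ‖r‖⁻¹ < 1 := inv_lt_one_of_one_lt₀ hr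
    have h4 : 0 ≤ ‖r‖⁻¹ := inv_nonneg.2 (norm_nonneg _)
    nlinarith
  have hG := H15.formGroup_eq_GT (alt_J4 (k := k))
  exact H714.Cl.hom_GT (alt_J4 (k := k)).frm hG.ge le_rfl φ (r := r) rfl hr0 hr2 g.1 (hG ▸ g.2)

/-- groups without homomorphisms to commutative groups land in the commutator subgroup -/
theorem mem_comm_of {E : Type*} [Group E] {H : Type} [Group H]
    (hE : ∀ (A : Type) [CommGroup A] (f : E →* A) (e : E), f e = 1) (φ : E →* H)
    {S : Subgroup H} (hφ : ∀ e, φ e ∈ S) (e : E) : φ e ∈ ⁅S, S⁆ := by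
  have h1 := hE (Abelianization S) (Abelianization.of.comp (φ.codRestrict S hφ)) e
  have h2 : φ.codRestrict S hφ e ∈ commutator S := by
    rw [← Abelianization.ker_of]
    exact h1
  rw [← Subgroup.map_subtype_commutator]
  exact ⟨_, h2, rfl⟩

/-- the representation, as matrices -/
def tau0 (h2 : (2 : k) ≠ 0) : S4 k →* Matrix (Fin 5) (Fin 5) k where
  toFun g := tauM g.1.1
  map_one' := tauM_one
  map_mul' g h := tauM_mul h2 (mem_S4.1 g.2)

theorem det_one_of {E : Type*} [Group E] {m : Type} [Fintype m] [DecidableEq m]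
    (hE : ∀ (A : Type) [CommGroup A] (f : E →* A) (e : E), f e = 1) (f : E →* Matrix m m k)
    (e : E) : (f e).det = 1 := by
  obtain ⟨g, hg⟩ : ∃ g : E →* kˣ, ∀ e, ((g e : kˣ) : k) = (f e).det :=
    ⟨(Units.map (Matrix.detMonoidHom : Matrix m m k →* k)).comp f.toHomUnits, fun e => rfl⟩
  rw [← hg, hE kˣ g e, Units.val_one]

theorem det_tau (h2 : (2 : k) ≠ 0) (g : S4 k) : (tauM g.1.1).det = 1 :=
  det_one_of (fun A _ f e => hom_S4 f e) (tau0 h2) g

/-- the representation of dimension five -/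
def tau (h2 : (2 : k) ≠ 0) : S4 k →* SpecialLinearGroup (Fin 5) k where
  toFun g := ⟨tauM g.1.1, det_tau h2 g⟩
  map_one' := Subtype.ext tauM_one
  map_mul' g h := Subtype.ext (tauM_mul h2 (mem_S4.1 g.2))

theorem tau_val (h2 : (2 : k) ≠ 0) (g : S4 k) : (tau h2 g).1 = tauM g.1.1 := rfl

theorem tau_mem (h2 : (2 : k) ≠ 0) (t : k) (g : S4 k) :
    tau h2 g ∈ FormGroup (RingHom.id k) (t • K5 k) := by
  show tauM g.1.1 * (t • K5 k) * (((tauM g.1.1)).map (RingHom.id k))ᵀ = t • K5 k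
  have e : (tauM g.1.1).map (RingHom.id k) = tauM g.1.1 := by ext i j; rfl
  rw [e, Matrix.mul_smul, Matrix.smul_mul, tauM_form h2 (mem_S4.1 g.2)]

theorem continuous_tau (h2 : (2 : k) ≠ 0) : Continuous (tau h2) := by
  refine Continuous.subtype_mk ?_ _
  refine continuous_matrix fun i j => ?_
  have h1 : Continuous fun g : S4 k => g.1.1 := continuous_subtype_val.comp continuous_subtype_val
  have h3 : Continuous fun g : S4 k => g.1.1ᵀ * B5 k i * g.1.1 := by fun_prop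
  show Continuous fun g : S4 k => C5 j (g.1.1ᵀ * B5 k i * g.1.1)
  fin_cases j
  · exact h3.matrix_elem 0 1
  · exact h3.matrix_elem 0 2
  · exact h3.matrix_elem 1 3
  · exact h3.matrix_elem 2 3
  · exact h3.matrix_elem 0 3

/-- the entries of a diagonal element in the frame -/
def d5 (x y : Fin 2 → k) (z : k) : Fin 5 → k := ![x 0, x 1, y 1, y 0, z]

/-- row and column of the coordinates -/
theorem C5_apply (j : Fin 5) (X : Matrix (Fin 4) (Fin 4) k) :
    C5 j X = X ((![0, 0, 1, 2, 0] : Fin 5 → Fin 4) j) ((![1, 2, 3, 3, 3] : Fin 5 → Fin 4) j) := by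
  fin_cases j <;> rfl

theorem B5_conj (M : Matrix (Fin 4) (Fin 4) k) (i : Fin 5) (p q : Fin 4) :
    (Mᵀ * B5 k i * M) p q = (![M 0 p * M 1 q - M 1 p * M 0 q, M 0 p * M 2 q - M 2 p * M 0 q,
      M 1 p * M 3 q - M 3 p * M 1 q, M 2 p * M 3 q - M 3 p * M 2 q,
      M 0 p * M 3 q - M 1 p * M 2 q + M 2 p * M 1 q - M 3 p * M 0 q] : Fin 5 → k) i := by
  fin_cases i <;> simp [B5, Matrix.mul_apply, Fin.sum_univ_four] <;> ring

theorem tauM_apply (M : Matrix (Fin 4) (Fin 4) k) (i j : Fin 5) (p q : Fin 4)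
    (hp : (![0, 0, 1, 2, 0] : Fin 5 → Fin 4) j = p) (hq : (![1, 2, 3, 3, 3] : Fin 5 → Fin 4) j = q) :
    tauM M i j = (![M 0 p * M 1 q - M 1 p * M 0 q, M 0 p * M 2 q - M 2 p * M 0 q,
      M 1 p * M 3 q - M 3 p * M 1 q, M 2 p * M 3 q - M 3 p * M 2 q,
      M 0 p * M 3 q - M 1 p * M 2 q + M 2 p * M 1 q - M 3 p * M 0 q] : Fin 5 → k) i := by
  rw [← B5_conj, ← hp, ← hq]
  exact C5_apply j _

theorem tau_mid (A : SpecialLinearGroup (Fin 2) k) {x y : Fin 2 → k} {z : k}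
    (h : x 0 = x 1) (h' : y 0 = y 1) :
    tauM (mid A).1.1 * diagonal (d5 x y z) = diagonal (d5 x y z) * tauM (mid A).1.1 := by
  rw [mid_val]
  ext i j
  rw [Matrix.mul_diagonal, Matrix.diagonal_mul]
  have hd := det2 A
  revert i
  fin_cases j
  · intro i
    rw [tauM_apply _ _ _ 0 1 rfl rfl]
    fin_cases i <;> simp [d5, h, h', mul_comm]
  · intro i
    rw [tauM_apply _ _ _ 0 2 rfl rfl]
    fin_cases i <;> simp [d5, h, h', mul_comm]
  · intro i
    rw [tauM_apply _ _ _ 1 3 rfl rfl]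
    fin_cases i <;> simp [d5, h, h', mul_comm]
  · intro i
    rw [tauM_apply _ _ _ 2 3 rfl rfl]
    fin_cases i <;> simp [d5, h, h', mul_comm]
  · intro i
    rw [tauM_apply _ _ _ 0 3 rfl rfl]
    fin_cases i <;> simp [d5, h, h', mul_comm]

theorem tau_bd {M : Matrix (Fin 4) (Fin 4) k} (hM : BD M) {x y : Fin 2 → k} {z : k}
    (h : x 1 = z) (h' : y 1 = z) :
    tauM M * diagonal (d5 x y z) = diagonal (d5 x y z) * tauM M := by
  obtain ⟨⟨a1, a2, a3, a4⟩, a5, a6, a7, a8⟩ := hM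
  ext i j
  rw [Matrix.mul_diagonal, Matrix.diagonal_mul]
  revert i
  fin_cases j
  · intro i
    rw [tauM_apply _ _ _ 0 1 rfl rfl]
    fin_cases i <;> simp [d5, h, h', mul_comm, a1, a2, a3, a4, a5, a6, a7, a8]
  · intro i
    rw [tauM_apply _ _ _ 0 2 rfl rfl]
    fin_cases i <;> simp [d5, h, h', mul_comm, a1, a2, a3, a4, a5, a6, a7, a8]
  · intro i
    rw [tauM_apply _ _ _ 1 3 rfl rfl]
    fin_cases i <;> simp [d5, h, h', mul_comm, a1, a2, a3, a4, a5, a6, a7, a8]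
  · intro i
    rw [tauM_apply _ _ _ 2 3 rfl rfl]
    fin_cases i <;> simp [d5, h, h', mul_comm, a1, a2, a3, a4, a5, a6, a7, a8]
  · intro i
    rw [tauM_apply _ _ _ 0 3 rfl rfl]
    fin_cases i <;> simp [d5, h, h', mul_comm, a1, a2, a3, a4, a5, a6, a7, a8]

theorem tau_lg (s : k) : tauM (lg4 s).1.1 0 2 = -s := by
  rw [lg4_val, tauM_apply _ _ _ 1 3 rfl rfl]
  simp

end grp

section alg

variable {n : Type} [Fintype n] [DecidableEq n] {k : Type} [Field k] {J : Matrix n n k}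

/-- two hyperbolic pairs and an anisotropic vector orthogonal to them -/
structure HypV (J : Matrix n n k) (e f : Fin 2 → n → k) (v : n → k) (d : k) : Prop where
  hyp : HypN (RingHom.id k) 1 J e f
  vv : hf (RingHom.id k) J v v = d
  ve : ∀ i, hf (RingHom.id k) J v (e i) = 0
  ev : ∀ i, hf (RingHom.id k) J (e i) v = 0
  vf : ∀ i, hf (RingHom.id k) J v (f i) = 0
  fv : ∀ i, hf (RingHom.id k) J (f i) v = 0

/-- the five rows -/
def Q5 (d : k) (e f : Fin 2 → n → k) (v : n → k) : Matrix (Fin 5) n k :=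
  ![e 0, e 1, (d / 2) • f 1, (-(d / 2)) • f 0, v]

/-- the inverse of the form -/
def K5i (d : k) : Matrix (Fin 5) (Fin 5) k :=
  !![0, 0, 0, -(2 / d), 0; 0, 0, 2 / d, 0, 0; 0, 2 / d, 0, 0, 0; -(2 / d), 0, 0, 0, 0;
    0, 0, 0, 0, 1 / d]

theorem form5 (h2 : (2 : k) ≠ 0) {d : k} {e f : Fin 2 → n → k} {v : n → k}
    (h : HypV J e f v d) :
    Q5 d e f v * J * ((Q5 d e f v).map (RingHom.id k))ᵀ = (d / 4) • K5 k := by
  have ee := h.hyp.ee
  have ff := h.hyp.ff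
  have ef := h.hyp.ef
  have fe := h.hyp.fe
  have ve := h.ve
  have ev := h.ev
  have vf := h.vf
  have fv := h.fv
  have vv := h.vv
  have h4 : (4 : k) ≠ 0 := by
    have : (4 : k) = 2 * 2 := by norm_num
    rw [this]
    exact mul_ne_zero h2 h2
  obtain ⟨s, hs⟩ : ∃ s, s = d / 2 := ⟨_, rfl⟩
  obtain ⟨t, ht⟩ : ∃ t, t = -(d / 2) := ⟨_, rfl⟩
  have hs' : d / 4 * 2 = s := by rw [hs]; field_simp; norm_num
  have ht' : d / 4 * -2 = t := by rw [ht]; field_simp; norm_num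
  have hd' : d / 4 * 4 = d := by field_simp
  have hQ : Q5 d e f v = ![e 0, e 1, s • f 1, t • f 0, v] := by rw [hs, ht]; rfl
  ext a b
  rw [row_form, Matrix.smul_apply, smul_eq_mul, hQ]
  have hK : d / 4 * K5 k a b = !![0, 0, 0, t, 0; 0, 0, s, 0, 0; 0, s, 0, 0, 0; t, 0, 0, 0, 0;
    0, 0, 0, 0, d] a b := by
    have hst : -s = t := by rw [hs, ht]
    fin_cases a <;> fin_cases b <;> simp [K5, hs', hd', hst]
  rw [hK]
  fin_cases a <;> fin_cases b <;>
  simp [H714.Cl.hf_smul_left, H714.Cl.hf_smul_right, ee, ff, ef, fe, ve, ev, vf, fv, vv]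

theorem K5_mul (h2 : (2 : k) ≠ 0) {d : k} (hd : d ≠ 0) :
    ((d / 4) • K5 k) * K5i d = 1 := by
  have h4 : (4 : k) ≠ 0 := by
    have : (4 : k) = 2 * 2 := by norm_num
    rw [this]
    exact mul_ne_zero h2 h2
  ext a b
  fin_cases a <;> fin_cases b <;>
  simp [K5, K5i, Matrix.mul_apply, Fin.sum_univ_five] <;> field_simp <;> norm_num

theorem row_mul5 {d : k} {e f : Fin 2 → n → k} {v : n → k} {A : Matrix n n k} {x y : Fin 2 → k}
    {z : k} (he : ∀ i, e i ᵥ* A = x i • e i) (hf' : ∀ i, f i ᵥ* A = y i • f i)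
    (hv : v ᵥ* A = z • v) :
    Q5 d e f v * A = diagonal ![x 0, x 1, y 1, y 0, z] * Q5 d e f v := by
  ext a b
  rw [Matrix.diagonal_mul, Matrix.mul_apply_eq_vecMul]
  fin_cases a
  · exact congrFun (he 0) b
  · exact congrFun (he 1) b
  · show (((d / 2) • f 1) ᵥ* A) b = y 1 * ((d / 2) * f 1 b)
    rw [smul_vecMul, hf']
    simp only [Pi.smul_apply, smul_eq_mul]
    ring
  · show (((-(d / 2)) • f 0) ᵥ* A) b = y 0 * ((-(d / 2)) * f 0 b)
    rw [smul_vecMul, hf']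
    simp only [Pi.smul_apply, smul_eq_mul]
    ring
  · exact congrFun hv b

end alg

section top

variable {n : Type} [Fintype n] [DecidableEq n] {k : Type}
  [NontriviallyNormedField k] {J : Matrix n n k} {G : Subgroup (SpecialLinearGroup n k)}
  {e f : Fin 2 → n → k} {v : n → k} {d : k}

/-- the embedding of the five dimensional space -/
theorem HypV.emb5 (h : HypV J e f v d) (h2 : (2 : k) ≠ 0) (hJ : Jᵀ = J) (hd : d ≠ 0) :
    EmbD (RingHom.id k) J ((d / 4) • K5 k) (Q5 d e f v)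
      (Pd (RingHom.id k) J (Q5 d e f v) (K5i d)) :=
  embD_of (fun _ => rfl) (one_mul 1) (by
    have : J.map (RingHom.id k) = J := by ext i j; rfl
    rw [this, hJ, one_smul]) (form5 h2 h) (K5_mul h2 hd)

/-- the data of the image of `Sp_4(k)` in `G` -/
theorem exists_phi5 (h : HypV J e f v d) (h2 : (2 : k) ≠ 0) (hJ : Jᵀ = J) (hd : d ≠ 0)
    (hm : HMG G) (hG : ∀ A : S4 k, emb (h.emb5 h2 hJ hd).qp (tau h2 A) ∈ G) :
    ∃ φ : S4 k →* G, Continuous φ ∧ FixUp φ ∧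
      ∀ {a : G} (ha : a.1 ∈ FormGroup (RingHom.id k) J) {x y : Fin 2 → k} {z : k}
        (hae : ∀ i, e i ᵥ* a.1.1 = x i • e i) (haf : ∀ i, f i ᵥ* a.1.1 = y i • f i)
        (hav : v ᵥ* a.1.1 = z • v) {A : S4 k},
        tauM A.1.1 * diagonal (d5 x y z) = diagonal (d5 x y z) * tauM A.1.1 →
          Commute (φ A) a := by
  obtain ⟨φ, hφ⟩ : ∃ φ : S4 k →* G, φ =
    ((emb (h.emb5 h2 hJ hd).qp).comp (tau h2)).codRestrict G hG := ⟨_, rfl⟩
  have hφv : ∀ A, (φ A).1 = emb (h.emb5 h2 hJ hd).qp (tau h2 A) := by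
    intro A; rw [hφ]; rfl
  refine ⟨φ, ?_, ?_, ?_⟩
  · rw [hφ]
    exact Continuous.subtype_mk ((continuous_emb _).comp (continuous_tau h2)) _
  · obtain ⟨r, hr⟩ := NormedField.exists_one_lt_norm k
    refine fixUp_of hm (b := fun t : ℕ => lg4 (r ^ t)) ?_
    refine tendsto_emb (h.emb5 h2 hJ hd).qp (fun t => hφv _) (i := 0) (j := 2) ?_
    have e1 : ∀ t : ℕ, ‖(tau h2 (lg4 (r ^ t))).1 0 2‖ = ‖r‖ ^ t := by
      intro t
      rw [tau_val, tau_lg, norm_neg, norm_pow]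
    simp only [e1]
    exact tendsto_pow_atTop_atTop_of_one_lt hr
  · intro a ha x y z hae haf hav A hA
    refine Subtype.ext ?_
    show (φ A).1 * a.1 = a.1 * (φ A).1
    rw [hφv]
    exact commute_emb' (form5 h2 h) (K5_mul h2 hd) _ ha (row_mul5 hae haf hav) hA

variable [ProperSpace k]

/-- **Point wall, orthogonal groups.** -/
theorem leviGap_o1 (h : HypV J e f v d) (h2 : (2 : k) ≠ 0) (hJ : Jᵀ = J) (hd : d ≠ 0)
    (hm : HMG G) (hG : ∀ A : S4 k, emb (h.emb5 h2 hJ hd).qp (tau h2 A) ∈ G)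
    {a : G} (ha : a.1 ∈ FormGroup (RingHom.id k) J) {x y : Fin 2 → k} {z : k}
    (hae : ∀ i, e i ᵥ* a.1.1 = x i • e i) (haf : ∀ i, f i ᵥ* a.1.1 = y i • f i)
    (hav : v ᵥ* a.1.1 = z • v) (hx : x 1 = z) (hy : y 1 = z) : LeviGap a := by
  obtain ⟨φ, h3, h4, h5⟩ := exists_phi5 h h2 hJ hd hm hG
  obtain ⟨S, hS, hBD⟩ := lgap_lev h2
  refine (hS.push h3 h4).leviGap ?_
  rintro _ ⟨A, hA, rfl⟩
  exact h5 ha hae haf hav (tau_bd (hBD A hA) hx hy)

/-- **Line wall, orthogonal groups.** -/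
theorem leviGap_o2 (h : HypV J e f v d) (h2 : (2 : k) ≠ 0) (hJ : Jᵀ = J) (hd : d ≠ 0)
    (hm : HMG G) (hG : ∀ A : S4 k, emb (h.emb5 h2 hJ hd).qp (tau h2 A) ∈ G)
    {a : G} (ha : a.1 ∈ FormGroup (RingHom.id k) J) {x y : Fin 2 → k} {z : k}
    (hae : ∀ i, e i ᵥ* a.1.1 = x i • e i) (haf : ∀ i, f i ᵥ* a.1.1 = y i • f i)
    (hav : v ᵥ* a.1.1 = z • v) (hx : x 0 = x 1) (hy : y 0 = y 1) : LeviGap a := by
  obtain ⟨φ, h3, h4, h5⟩ := exists_phi5 h h2 hJ hd hm hG
  refine ((lgap_mid h2).push h3 h4).leviGap ?_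
  rintro _ ⟨_, ⟨A, rfl⟩, rfl⟩
  exact h5 ha hae haf hav (tau_mid A hx hy)

end top

end Vale.Agent.P092.H956
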