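import Vale.Agent.P092.H956.FmG7

/-!
P092 (helper956), [P2-GAP] / [P3-GAP], the final form: `LeviGap` for the walls of the unitary and
symplectic groups `FormGroup σ (hyp r ε J₀)`, `r ≥ 2`.
-/

set_option linter.all false

open scoped InnerProductSpace commutatorElement
open Set Filter Topology Matrix

namespace Vale.Agent.P092.H956

open Vale.Agent.P092.H303 (FormGroup hyp Idx torF torF_mem dgF)
open Vale.Agent.P092.H714.Cl (hf Frm GT)
open Vale.Agent.P092.H933 (URep fixedSub mem_fixedSub LeviGap LocK)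
open Vale.Agent.P092.H15 (HMG)
open Vale.Agent.P092.SP4

section alg

variable {n : Type} [Fintype n] [DecidableEq n] {k : Type} [Field k] {σ : k →+* k} {ε : k}
  {J : Matrix n n k}

theorem hf_single (a b : n) :
    hf σ J (Pi.single a 1 : n → k) (Pi.single b 1 : n → k) = J a b := by
  unfold hf
  have e : (fun i => σ ((Pi.single b (1 : k) : n → k) i)) = Pi.single b 1 := by
    funext i
    by_cases h : i = b
    · subst h; simp
    · simp [Pi.single_eq_of_ne h]
  rw [e, Matrix.mulVec_single_one, single_one_dotProduct]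
  rfl

theorem herm_of_frm (hF : Frm σ ε J) : (J.map σ)ᵀ = ε • J := by
  ext a b
  have h := hF.herm (Pi.single b 1) (Pi.single a 1)
  rw [hf_single, hf_single] at h
  rw [transpose_apply, map_apply, Matrix.smul_apply, smul_eq_mul, h, ← mul_assoc, hF.eps, one_mul]

theorem single_diag (a : n) (d : n → k) :
    (Pi.single a 1 : n → k) ᵥ* diagonal d = d a • (Pi.single a 1 : n → k) := by
  rw [Matrix.single_one_vecMul]
  funext b
  show diagonal d a b = d a * (Pi.single a 1 : n → k) b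
  by_cases h : b = a
  · subst h; simp
  · rw [Matrix.diagonal_apply_ne' _ h, Pi.single_eq_of_ne h, mul_zero]

variable {ι : Type} [Fintype ι] [DecidableEq ι] {r N : ℕ} {J₀ : Matrix ι ι k}

/-- the vectors `e_i` -/
def ev (ι : Type) [DecidableEq ι] (k : Type) [Field k] (s : Fin N → Fin r) : Fin N → Idx r ι → k :=
  fun i => Pi.single (.inl (.inl (s i))) 1

/-- the vectors `f_i` -/
def fv (ι : Type) [DecidableEq ι] (k : Type) [Field k] (s : Fin N → Fin r) : Fin N → Idx r ι → k :=
  fun i => Pi.single (.inl (.inr (s i))) 1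

theorem hypN_hyp {s : Fin N → Fin r} (hs : Function.Injective s) :
    HypN σ ε (hyp r ε J₀) (ev ι k s) (fv ι k s) where
  ee i j := by
    unfold ev
    rw [hf_single]
    rfl
  ff i j := by
    unfold fv
    rw [hf_single]
    rfl
  ef i j := by
    unfold ev fv
    rw [hf_single]
    show (1 : Matrix (Fin r) (Fin r) k) (s i) (s j) = _
    rw [Matrix.one_apply]
    simp only [hs.eq_iff]
  fe i j := by
    unfold ev fv
    rw [hf_single]
    show ε * (1 : Matrix (Fin r) (Fin r) k) (s i) (s j) = _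
    rw [Matrix.one_apply]
    simp only [hs.eq_iff]
    split_ifs <;> simp

end alg

section fix

variable {k : Type} [NontriviallyNormedField k] {σ : k →+* k}

/-- The fixed field of an isometric involution. -/
theorem exists_fixed [ProperSpace k] (hinv : ∀ x, σ (σ x) = x) (hσ : ∀ x, ‖σ x‖ = ‖x‖) :
    ∃ (k₀ : Type) (_ : NontriviallyNormedField k₀), ProperSpace k₀ ∧ ∃ j : k₀ →+* k,
      (∀ x, ‖j x‖ = ‖x‖) ∧ (∀ x, σ (j x) = j x) ∧ ((2 : k) ≠ 0 → (2 : k₀) ≠ 0) := by
  let F : Subfield k := σ.eqLocusField (RingHom.id k)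
  let N : NormedField F := SubfieldClass.toNormedField F
  have hnt : ∃ x : F, 1 < ‖x‖ := by
    obtain ⟨x, hx⟩ := NormedField.exists_one_lt_norm k
    refine ⟨⟨x * σ x, ?_⟩, ?_⟩
    · show σ (x * σ x) = x * σ x
      rw [map_mul, hinv, mul_comm]
    · show 1 < ‖x * σ x‖
      rw [norm_mul, hσ]
      nlinarith
  let NN : NontriviallyNormedField F := { N with non_trivial := hnt }
  refine ⟨F, NN, ?_, F.subtype, fun x => rfl, fun x => x.2, ?_⟩
  · have hc : Continuous σ := (AddMonoidHomClass.isometry_of_norm σ hσ).continuous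
    have hcl : IsClosed (F : Set k) := isClosed_eq hc continuous_id
    exact ProperSpace.of_isClosed hcl
  · intro h2 h
    apply h2
    have h3 := congrArg (F.subtype : F → k) h
    rw [map_zero] at h3
    rw [← h3]
    exact (map_ofNat F.subtype 2).symm

end fix

section hm

variable {n : Type} [Fintype n] [DecidableEq n] {k : Type} [NontriviallyNormedField k]
  [ProperSpace k] {σ : k →+* k} {ε : k} {J : Matrix n n k}

theorem hmg_form (hσ : ∀ x, ‖σ x‖ = ‖x‖) (hF : Frm σ ε J)
    (hG : FormGroup σ J = GT σ ε J) : HMG (FormGroup σ J) := by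
  have hcl : IsClosed (FormGroup σ J : Set (SpecialLinearGroup n k)) :=
    H303.isClosed_formGroup (H714.Cl.continuous_of_norm hσ) _
  refine H15.hmg_cl hσ hF hG.ge le_rfl hcl ?_
  rw [hG]
  exact Subgroup.le_topologicalClosure _

end hm

section final

variable {k : Type} [NontriviallyNormedField k] [ProperSpace k] {σ : k →+* k} {ε : k}
  {ι : Type} [Fintype ι] [DecidableEq ι] {r : ℕ} {J₀ : Matrix ι ι k}

/-- **Unitary and symplectic groups, two indices on the same side of the wall, Witt index `≥ 3`**,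
every local field, every characteristic. -/
theorem leviGap_diag3 (hk : LocK k) (hσ : ∀ x, ‖σ x‖ = ‖x‖) (hF : Frm σ ε (hyp r ε J₀))
    (hG : FormGroup σ (hyp r ε J₀) = GT σ ε (hyp r ε J₀)) (hr : 3 ≤ r)
    {a : FormGroup σ (hyp r ε J₀)} {d : Idx r ι → k} (ha : a.1.1 = diagonal d) {s t : Fin r}
    (hst : s ≠ t) (h1 : d (.inl (.inl s)) = d (.inl (.inl t)))
    (h2 : d (.inl (.inr s)) = d (.inl (.inr t))) : LeviGap a := by
  have hm := hmg_form hσ hF hG
  obtain ⟨u, hus, hut⟩ : ∃ u : Fin r, u ≠ s ∧ u ≠ t := by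
    have hc : ({s, t} : Finset (Fin r)).card < Fintype.card (Fin r) := by
      rw [Fintype.card_fin]
      exact lt_of_le_of_lt Finset.card_le_two (by omega)
    obtain ⟨u, -, hu⟩ := Finset.exists_mem_notMem_of_card_lt_card (s := {s, t})
      (t := Finset.univ) (by rwa [Finset.card_univ])
    simp only [Finset.mem_insert, Finset.mem_singleton, not_or] at hu
    exact ⟨u, hu⟩
  have hinj : Function.Injective ![s, t, u] := by
    intro i j hij
    fin_cases i <;> fin_cases j <;> simp_all [Matrix.cons_val_one]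
  have hN : HypN σ ε (hyp r ε J₀) (ev ι k ![s, t, u]) (fv ι k ![s, t, u]) := hypN_hyp hinj
  have hemb := hN.embD hF.inv hF.eps (herm_of_frm hF)
  refine leviGap_lv hk hF.inv (AddMonoidHomClass.isometry_of_norm σ hσ).continuous hF.eps
    (herm_of_frm hF) hN hm (fun A => emb_mem hemb (lv_mem hF.inv A)) (i := 2) (j := 0) (l := 1)
    (by decide) (by decide) (by decide) a.2
    (x := Sum.elim (fun i => d (.inl (.inl (![s, t, u] i)))) fun i => d (.inl (.inr (![s, t, u] i))))
    (fun i => ?_) (fun i => ?_) h1 h2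
  · rw [ha]
    exact single_diag _ _
  · rw [ha]
    exact single_diag _ _

/-- **Point type wall** (Witt index `≥ 2`, `2 ≠ 0`): `a` diagonal, with equal entries on `e_t`,
`f_t`. -/
theorem leviGap_diag1 (htwo : (2 : k) ≠ 0) (hσ : ∀ x, ‖σ x‖ = ‖x‖) (hF : Frm σ ε (hyp r ε J₀))
    (hG : FormGroup σ (hyp r ε J₀) = GT σ ε (hyp r ε J₀))
    {a : FormGroup σ (hyp r ε J₀)} {d : Idx r ι → k} (ha : a.1.1 = diagonal d) {s t : Fin r}
    (hst : s ≠ t) (h1 : d (.inl (.inl t)) = d (.inl (.inr t))) : LeviGap a := by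
  have hm := hmg_form hσ hF hG
  obtain ⟨k₀, _, _, j, hj, hσj, h20⟩ := exists_fixed hF.inv hσ
  obtain ⟨c, hc0, hc⟩ := hF.cc
  have hinj : Function.Injective ![s, t] := by
    intro i j hij
    fin_cases i <;> fin_cases j <;> simp_all [Matrix.cons_val_one]
  have hN : HypN σ ε (hyp r ε J₀) (ev ι k ![s, t]) (fv ι k ![s, t]) := hypN_hyp hinj
  have hemb := hN.emb4 hF.inv hF.eps (herm_of_frm hF) hc0 hc
  refine leviGap_u1 (h20 htwo) hN hF.inv hF.eps (herm_of_frm hF) hc0 hc hj hσj hm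
    (fun A => emb_mem hemb (map_mem4 j hσj A.2)) a.2
    (x := fun i => d (.inl (.inl (![s, t] i)))) (y := fun i => d (.inl (.inr (![s, t] i))))
    (fun i => ?_) (fun i => ?_) h1
  · rw [ha]
    exact single_diag _ _
  · rw [ha]
    exact single_diag _ _

/-- **Wall of maximal subspaces** (Witt index `≥ 2`, `2 ≠ 0`): `a` diagonal, with equal entries on
`e_s`, `e_t` and on `f_s`, `f_t`. -/
theorem leviGap_diag2 (htwo : (2 : k) ≠ 0) (hσ : ∀ x, ‖σ x‖ = ‖x‖) (hF : Frm σ ε (hyp r ε J₀))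
    (hG : FormGroup σ (hyp r ε J₀) = GT σ ε (hyp r ε J₀))
    {a : FormGroup σ (hyp r ε J₀)} {d : Idx r ι → k} (ha : a.1.1 = diagonal d) {s t : Fin r}
    (hst : s ≠ t) (h1 : d (.inl (.inl s)) = d (.inl (.inl t)))
    (h2 : d (.inl (.inr s)) = d (.inl (.inr t))) : LeviGap a := by
  have hm := hmg_form hσ hF hG
  obtain ⟨k₀, _, _, j, hj, hσj, h20⟩ := exists_fixed hF.inv hσ
  obtain ⟨c, hc0, hc⟩ := hF.cc
  have hinj : Function.Injective ![s, t] := by
    intro i j hij
    fin_cases i <;> fin_cases j <;> simp_all [Matrix.cons_val_one]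
  have hN : HypN σ ε (hyp r ε J₀) (ev ι k ![s, t]) (fv ι k ![s, t]) := hypN_hyp hinj
  have hemb := hN.emb4 hF.inv hF.eps (herm_of_frm hF) hc0 hc
  refine leviGap_u2 (h20 htwo) hN hF.inv hF.eps (herm_of_frm hF) hc0 hc hj hσj hm
    (fun A => emb_mem hemb (map_mem4 j hσj A.2)) a.2
    (x := fun i => d (.inl (.inl (![s, t] i)))) (y := fun i => d (.inl (.inr (![s, t] i))))
    (fun i => ?_) (fun i => ?_) h1 h2
  · rw [ha]
    exact single_diag _ _
  · rw [ha]
    exact single_diag _ _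

/-- **[P2-GAP] / [P3-GAP], letters of `CL`**: both walls of `FormGroup σ (hyp r ε J₀)`, `r ≥ 2`
(`2 ≠ 0` if `r = 2`); `l` is a cocharacter with two equal entries, or with a zero entry. -/
theorem leviGap_torF (hk : LocK k) (hσ : ∀ x, ‖σ x‖ = ‖x‖) (hF : Frm σ ε (hyp r ε J₀))
    (hG : FormGroup σ (hyp r ε J₀) = GT σ ε (hyp r ε J₀)) (hr : 3 ≤ r ∨ (2 : k) ≠ 0)
    {w : k} (hw : w ≠ 0) (hσw : σ w = w) {l : Fin r → ℤ} {s t : Fin r} (hst : s ≠ t)
    (hl : l s = l t) :
    LeviGap (⟨torF r ι hw l, torF_mem r ε J₀ hw hσw l⟩ : FormGroup σ (hyp r ε J₀)) := by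
  rcases hr with hr | hr
  · exact leviGap_diag3 hk hσ hF hG hr (d := dgF r ι w l) rfl hst (by simp [dgF, hl])
      (by simp [dgF, hl])
  · exact leviGap_diag2 hr hσ hF hG (d := dgF r ι w l) rfl hst (by simp [dgF, hl])
      (by simp [dgF, hl])

theorem leviGap_torF0 (hσ : ∀ x, ‖σ x‖ = ‖x‖) (hF : Frm σ ε (hyp r ε J₀))
    (hG : FormGroup σ (hyp r ε J₀) = GT σ ε (hyp r ε J₀)) (h2 : (2 : k) ≠ 0)
    {w : k} (hw : w ≠ 0) (hσw : σ w = w) {l : Fin r → ℤ} {s t : Fin r} (hst : s ≠ t)
    (hl : l t = 0) :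
    LeviGap (⟨torF r ι hw l, torF_mem r ε J₀ hw hσw l⟩ : FormGroup σ (hyp r ε J₀)) :=
  leviGap_diag1 h2 hσ hF hG (d := dgF r ι w l) rfl hst (by simp [dgF, hl])

end final

end Vale.Agent.P092.H956
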