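import Vale.Agent.P092.H956.FmG8
import Vale.Agent.P092.H899.Simple

/-!
P092 (helper956), [P2-GAP] / [P3-GAP], orthogonal groups: `LeviGap` for the walls of every group
between `⁅SO(J), SO(J)⁆` and `SO(J)`, `J = hyp r 1 J₀`, `r ≥ 2`, `J₀ ≠ 0` on some vector.
-/

set_option linter.all false

open scoped InnerProductSpace commutatorElement
open Set Filter Topology Matrix

namespace Vale.Agent.P092.H956

open Vale.Agent.P092.H303 (FormGroup hyp Idx torF torF_mem dgF)
open Vale.Agent.P092.H714.Cl (hf Frm GT)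
open Vale.Agent.P092.H933 (URep fixedSub mem_fixedSub LeviGap LocK)
open Vale.Agent.P092.H15 (HMG)
open Vale.Agent.P092.SP4

section alg

variable {k : Type} [Field k] {ι : Type} [Fintype ι] [DecidableEq ι] {r : ℕ} {J₀ : Matrix ι ι k}

/-- vectors of the kernel -/
def kv (r : ℕ) (u : ι → k) : Idx r ι → k := Sum.elim (0 : Fin r ⊕ Fin r → k) u

theorem hyp_kv (u : ι → k) : hyp r 1 J₀ *ᵥ (fun i => (RingHom.id k) (kv r u i)) =
    Sum.elim (0 : Fin r ⊕ Fin r → k) (J₀ *ᵥ u) := by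
  have e : (fun i => (RingHom.id k) (kv r u i)) = Sum.elim (0 : Fin r ⊕ Fin r → k) u := rfl
  rw [e, hyp, fromBlocks_mulVec]
  simp

theorem hypV_hyp {s : Fin 2 → Fin r} (hs : Function.Injective s) (u : ι → k) :
    HypV (hyp r 1 J₀) (ev ι k s) (fv ι k s) (kv r u) (u ⬝ᵥ (J₀ *ᵥ u)) where
  hyp := hypN_hyp hs
  vv := by
    unfold hf
    rw [hyp_kv]
    simp [kv, dotProduct]
  ve i := by
    unfold hf ev kv
    have e : (fun j => (RingHom.id k) ((Pi.single (Sum.inl (Sum.inl (s i))) (1 : k) :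
      Idx r ι → k) j)) = Pi.single (Sum.inl (Sum.inl (s i))) 1 := rfl
    rw [e, Matrix.mulVec_single_one]
    simp [dotProduct, H303.hyp]
  ev i := by
    unfold hf
    rw [hyp_kv, H956.ev, single_one_dotProduct]
    rfl
  vf i := by
    unfold hf fv kv
    have e : (fun j => (RingHom.id k) ((Pi.single (Sum.inl (Sum.inr (s i))) (1 : k) :
      Idx r ι → k) j)) = Pi.single (Sum.inl (Sum.inr (s i))) 1 := rfl
    rw [e, Matrix.mulVec_single_one]
    simp [dotProduct, H303.hyp]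
  fv i := by
    unfold hf
    rw [hyp_kv, H956.fv, single_one_dotProduct]
    rfl

theorem hyp_symm (hs : J₀ᵀ = J₀) : (hyp r (1 : k) J₀)ᵀ = hyp r 1 J₀ := by
  unfold hyp
  rw [fromBlocks_transpose, fromBlocks_transpose, hs]
  simp

theorem kv_diag (u : ι → k) {d : Idx r ι → k} {z : k} (hz : ∀ x, d (.inr x) = z) :
    kv r u ᵥ* diagonal d = z • kv r u := by
  funext b
  rw [Matrix.vecMul_diagonal]
  rcases b with b | b
  · simp [kv]
  · simp [kv, hz, mul_comm]

end alg

section final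

variable {k : Type} [NontriviallyNormedField k] [ProperSpace k]
  {ι : Type} [Fintype ι] [DecidableEq ι] {r : ℕ} {J₀ : Matrix ι ι k}
  {G : Subgroup (SpecialLinearGroup (Idx r ι) k)}

/-- **Orthogonal groups, Witt index `≥ 2`**: two hyperbolic pairs `s`, `t`; `a` diagonal, trivial on
the pair `t` and on the kernel (up to a scalar `z`). -/
theorem leviGap_orth1 (h2 : (2 : k) ≠ 0) (hs : J₀ᵀ = J₀) {u : ι → k} (hu : u ⬝ᵥ (J₀ *ᵥ u) ≠ 0)
    (hGS : ⁅FormGroup (RingHom.id k) (hyp r 1 J₀), FormGroup (RingHom.id k) (hyp r 1 J₀)⁆ ≤ G)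
    (hGF : G ≤ FormGroup (RingHom.id k) (hyp r 1 J₀)) (hm : HMG G) {a : G} {d : Idx r ι → k}
    (ha : a.1.1 = diagonal d) {z : k} (hz : ∀ x, d (.inr x) = z) {s t : Fin r} (hst : s ≠ t)
    (h1 : d (.inl (.inl t)) = z) (h3 : d (.inl (.inr t)) = z) : LeviGap a := by
  have hinj : Function.Injective ![s, t] := by
    intro i j hij
    fin_cases i <;> fin_cases j <;> simp_all [Matrix.cons_val_one]
  have hV : HypV (hyp r 1 J₀) (ev ι k ![s, t]) (fv ι k ![s, t]) (kv r u) (u ⬝ᵥ (J₀ *ᵥ u)) :=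
    hypV_hyp hinj u
  have hemb := hV.emb5 h2 (hyp_symm hs) hu
  have hmem : ∀ A : S4 k, emb hemb.qp (tau h2 A) ∈ G := fun A => hGS
    (mem_comm_of (fun A _ f e => hom_S4 f e) ((emb hemb.qp).comp (tau h2))
      (fun A => emb_mem hemb (tau_mem h2 _ A)) A)
  refine leviGap_o1 hV h2 (hyp_symm hs) hu hm hmem (hGF a.2)
    (x := fun i => d (.inl (.inl (![s, t] i)))) (y := fun i => d (.inl (.inr (![s, t] i))))
    (z := z) (fun i => ?_) (fun i => ?_) ?_ h1 h3
  · rw [ha]
    exact single_diag _ _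
  · rw [ha]
    exact single_diag _ _
  · rw [ha]
    exact kv_diag u hz

/-- **Orthogonal groups, Witt index `≥ 2`**: two hyperbolic pairs `s`, `t`; `a` diagonal, with equal
entries on `e_s`, `e_t`, and on `f_s`, `f_t`, and scalar on the kernel. -/
theorem leviGap_orth2 (h2 : (2 : k) ≠ 0) (hs : J₀ᵀ = J₀) {u : ι → k} (hu : u ⬝ᵥ (J₀ *ᵥ u) ≠ 0)
    (hGS : ⁅FormGroup (RingHom.id k) (hyp r 1 J₀), FormGroup (RingHom.id k) (hyp r 1 J₀)⁆ ≤ G)
    (hGF : G ≤ FormGroup (RingHom.id k) (hyp r 1 J₀)) (hm : HMG G) {a : G} {d : Idx r ι → k}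
    (ha : a.1.1 = diagonal d) {z : k} (hz : ∀ x, d (.inr x) = z) {s t : Fin r} (hst : s ≠ t)
    (h1 : d (.inl (.inl s)) = d (.inl (.inl t))) (h3 : d (.inl (.inr s)) = d (.inl (.inr t))) :
    LeviGap a := by
  have hinj : Function.Injective ![s, t] := by
    intro i j hij
    fin_cases i <;> fin_cases j <;> simp_all [Matrix.cons_val_one]
  have hV : HypV (hyp r 1 J₀) (ev ι k ![s, t]) (fv ι k ![s, t]) (kv r u) (u ⬝ᵥ (J₀ *ᵥ u)) :=
    hypV_hyp hinj u
  have hemb := hV.emb5 h2 (hyp_symm hs) hu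
  have hmem : ∀ A : S4 k, emb hemb.qp (tau h2 A) ∈ G := fun A => hGS
    (mem_comm_of (fun A _ f e => hom_S4 f e) ((emb hemb.qp).comp (tau h2))
      (fun A => emb_mem hemb (tau_mem h2 _ A)) A)
  refine leviGap_o2 hV h2 (hyp_symm hs) hu hm hmem (hGF a.2)
    (x := fun i => d (.inl (.inl (![s, t] i)))) (y := fun i => d (.inl (.inr (![s, t] i))))
    (z := z) (fun i => ?_) (fun i => ?_) ?_ h1 h3
  · rw [ha]
    exact single_diag _ _
  · rw [ha]
    exact single_diag _ _
  · rw [ha]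
    exact kv_diag u hz

omit [ProperSpace k] in
/-- `SL_N(k)` has no homomorphisms to commutative groups. -/
theorem hom_SLN {N : ℕ} (hN : 2 ≤ N) {A : Type} [CommGroup A]
    (f : SpecialLinearGroup (Fin N) k →* A) (g : SpecialLinearGroup (Fin N) k) : f g = 1 := by
  haveI : Nontrivial (Fin N) := Fin.nontrivial_iff_two_le.2 hN
  haveI : Infinite k := NontriviallyNormedField.infinite k
  rw [H899.hom_eq_one f]
  rfl

/-- **Orthogonal groups, Witt index `≥ 3`**, every kernel `J₀` (possibly empty), every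
characteristic. -/
theorem leviGap_orth3 (hk : LocK k) (hs : J₀ᵀ = J₀) (hr : 3 ≤ r)
    (hGS : ⁅FormGroup (RingHom.id k) (hyp r 1 J₀), FormGroup (RingHom.id k) (hyp r 1 J₀)⁆ ≤ G)
    (hGF : G ≤ FormGroup (RingHom.id k) (hyp r 1 J₀)) (hm : HMG G) {a : G} {d : Idx r ι → k}
    (ha : a.1.1 = diagonal d) {s t : Fin r} (hst : s ≠ t)
    (h1 : d (.inl (.inl s)) = d (.inl (.inl t))) (h2 : d (.inl (.inr s)) = d (.inl (.inr t))) :
    LeviGap a := by
  obtain ⟨u, hus, hut⟩ : ∃ u : Fin r, u ≠ s ∧ u ≠ t := by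
    have hc : ({s, t} : Finset (Fin r)).card < Fintype.card (Fin r) := by
      rw [Fintype.card_fin]
      exact lt_of_le_of_lt Finset.card_le_two (by omega)
    obtain ⟨u, -, hu⟩ := Finset.exists_mem_notMem_of_card_lt_card (s := {s, t})
      (t := Finset.univ) (by rwa [Finset.card_univ])
    simp only [Finset.mem_insert, Finset.mem_singleton, not_or] at hu
    exact ⟨u, hu⟩
  have hinj : Function.Injective ![s, t, u] := by
    intro i j hij
    fin_cases i <;> fin_cases j <;> simp_all [Matrix.cons_val_one]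
  have hJ : ((hyp r 1 J₀).map (RingHom.id k))ᵀ = (1 : k) • hyp r 1 J₀ := by
    have : (hyp r 1 J₀).map (RingHom.id k) = hyp r 1 J₀ := by ext i j; rfl
    rw [this, hyp_symm hs, one_smul]
  have hN : HypN (RingHom.id k) 1 (hyp r 1 J₀) (ev ι k ![s, t, u]) (fv ι k ![s, t, u]) :=
    hypN_hyp hinj
  have hemb := hN.embD (fun _ => rfl) (one_mul 1) hJ
  have hmem : ∀ A : SpecialLinearGroup (Fin 3) k, emb hemb.qp (lv (RingHom.id k) 3 A) ∈ G :=
    fun A => hGS (mem_comm_of (fun A _ f e => hom_SLN (by norm_num) f e)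
      ((emb hemb.qp).comp (lv (RingHom.id k) 3))
      (fun A => emb_mem hemb (lv_mem (fun _ => rfl) A)) A)
  refine leviGap_lv hk (fun _ => rfl) continuous_id (one_mul 1) hJ hN hm hmem (i := 2) (j := 0)
    (l := 1) (by decide) (by decide) (by decide) (hGF a.2)
    (x := Sum.elim (fun i => d (.inl (.inl (![s, t, u] i)))) fun i => d (.inl (.inr (![s, t, u] i))))
    (fun i => ?_) (fun i => ?_) h1 h2
  · rw [ha]
    exact single_diag _ _
  · rw [ha]
    exact single_diag _ _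

end final

end Vale.Agent.P092.H956
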