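import Vale.Agent.P092.H252.UGap

/-!
P092 (helper956), Team P, block [P-GAP], part 1: abstract tools.

* `iter_le`: a symmetric operator whose powers decay like `ρ ^ n` on a vector `ξ` (with any constant
  depending on `ξ`) contracts `ξ` by `ρ`;
* `transfer`: decay of matrix coefficients from decay along a one-parameter family (Bessel);
* `rw_ineq`: the random walk on `k²` by four shears contracts `‖v‖^(-δ)`;
* `gap_core`: polynomial decay of the coefficients of `SL₂(k)` on a total set gives a spectral gap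
  for the average of four shears.
-/

set_option linter.all false

namespace Vale.Agent.P092.H956

open Filter Topology Vale.Agent.P092.H933

open scoped InnerProductSpace

section hil

variable {𝓗 : Type*} [NormedAddCommGroup 𝓗] [InnerProductSpace ℂ 𝓗]

/-- sums of almost orthogonal vectors -/
theorem bessel {ι : Type*} [Fintype ι] {η : ι → 𝓗} {R e : ℝ} (hR : ∀ i, ‖η i‖ ≤ R) (he : 0 ≤ e)
    (h : ∀ i j, i ≠ j → ‖⟪η i, η j⟫_ℂ‖ ≤ e) :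
    ‖∑ i, η i‖ ^ 2 ≤ Fintype.card ι * R ^ 2 + (Fintype.card ι : ℝ) ^ 2 * e := by
  classical
  have h1 : ⟪∑ i, η i, ∑ j, η j⟫_ℂ = ∑ i, ∑ j, ⟪η i, η j⟫_ℂ := by
    rw [sum_inner]; simp only [inner_sum]
  have h2 : ‖∑ i, η i‖ ^ 2 = ‖∑ i, ∑ j, ⟪η i, η j⟫_ℂ‖ := by
    rw [← h1, inner_self_eq_norm_sq_to_K, norm_pow]
    simp
  rw [h2]
  have h3 : ∀ i j, ‖⟪η i, η j⟫_ℂ‖ ≤ (if i = j then R ^ 2 else 0) + e := by
    intro i j
    split_ifs with hij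
    · subst hij
      have h4 := norm_inner_le_norm (𝕜 := ℂ) (η i) (η i)
      have h5 := hR i
      have h6 := norm_nonneg (η i)
      nlinarith
    · simpa using h i j hij
  refine (norm_sum_le _ _).trans ?_
  refine (Finset.sum_le_sum fun i _ => (norm_sum_le _ _).trans
    (Finset.sum_le_sum fun j _ => h3 i j)).trans (le_of_eq ?_)
  simp only [Finset.sum_add_distrib, Finset.sum_ite_eq, Finset.mem_univ, if_true,
    Finset.sum_const, Finset.card_univ, nsmul_eq_mul]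
  ring

/-- **Log-convexity of the iterates of a symmetric operator.** -/
theorem iter_le {T : 𝓗 →L[ℂ] 𝓗} (hT : ∀ x y, ⟪T x, y⟫_ℂ = ⟪x, T y⟫_ℂ) {ρ C : ℝ} (hρ : 0 < ρ)
    {ξ : 𝓗} (h : ∀ n : ℕ, ‖(T ^ n) ξ‖ ≤ C * ρ ^ n) : ‖T ξ‖ ≤ ρ * ‖ξ‖ := by
  by_contra hcon
  push Not at hcon
  have hs : ∀ n, (T ^ (n + 1)) ξ = T ((T ^ n) ξ) := fun n => by rw [pow_succ']; rfl
  have hξ : 0 < ‖ξ‖ := by
    rw [norm_pos_iff]
    rintro rfl
    simp at hcon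
  have ha : ∀ n, ‖(T ^ (n + 1)) ξ‖ ^ 2 ≤ ‖(T ^ n) ξ‖ * ‖(T ^ (n + 2)) ξ‖ := by
    intro n
    have e1 : ⟪(T ^ (n + 1)) ξ, (T ^ (n + 1)) ξ⟫_ℂ = ⟪(T ^ n) ξ, (T ^ (n + 2)) ξ⟫_ℂ := by
      nth_rw 1 [hs n]
      rw [hT, hs (n + 1)]
    have e2 : ‖(T ^ (n + 1)) ξ‖ ^ 2 = ‖⟪(T ^ n) ξ, (T ^ (n + 2)) ξ⟫_ℂ‖ := by
      rw [← e1, inner_self_eq_norm_sq_to_K, norm_pow]
      simp
    rw [e2]
    exact norm_inner_le_norm _ _
  obtain ⟨r, hr⟩ : ∃ r, r = ‖T ξ‖ / ‖ξ‖ := ⟨_, rfl⟩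
  have hrρ : ρ < r := by rw [hr, lt_div_iff₀ hξ]; exact hcon
  have hr0 : 0 < r := hρ.trans hrρ
  have hind : ∀ n, r * ‖(T ^ n) ξ‖ ≤ ‖(T ^ (n + 1)) ξ‖ ∧ 0 < ‖(T ^ n) ξ‖ := by
    intro n
    induction n with
    | zero =>
      have e0 : (T ^ 0) ξ = ξ := by rw [pow_zero]; rfl
      refine ⟨?_, by rw [e0]; exact hξ⟩
      rw [hs 0, e0, hr]
      exact le_of_eq (div_mul_cancel₀ _ hξ.ne')
    | succ n ih =>
      obtain ⟨i1, i2⟩ := ih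
      have h3 : 0 < ‖(T ^ (n + 1)) ξ‖ := lt_of_lt_of_le (mul_pos hr0 i2) i1
      refine ⟨?_, h3⟩
      have h4 := ha n
      have h5 : ‖(T ^ n) ξ‖ * (r * ‖(T ^ (n + 1)) ξ‖) ≤
          ‖(T ^ n) ξ‖ * ‖(T ^ (n + 1 + 1)) ξ‖ := by
        calc ‖(T ^ n) ξ‖ * (r * ‖(T ^ (n + 1)) ξ‖) = (r * ‖(T ^ n) ξ‖) * ‖(T ^ (n + 1)) ξ‖ := by ring
          _ ≤ ‖(T ^ (n + 1)) ξ‖ * ‖(T ^ (n + 1)) ξ‖ := by gcongr
          _ = ‖(T ^ (n + 1)) ξ‖ ^ 2 := by ring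
          _ ≤ _ := h4
      exact le_of_mul_le_mul_left h5 i2
  have hlow : ∀ n, r ^ n * ‖ξ‖ ≤ ‖(T ^ n) ξ‖ := by
    intro n
    induction n with
    | zero => rw [pow_zero, one_mul, pow_zero]; exact le_rfl
    | succ n ih =>
      calc r ^ (n + 1) * ‖ξ‖ = r * (r ^ n * ‖ξ‖) := by ring
        _ ≤ r * ‖(T ^ n) ξ‖ := by gcongr
        _ ≤ _ := (hind n).1
  have hq : 1 < r / ρ := by rw [one_lt_div hρ]; exact hrρ
  obtain ⟨n, hn⟩ := ((tendsto_pow_atTop_atTop_of_one_lt hq).eventually_gt_atTop (C / ‖ξ‖)).exists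
  have h6 := (hlow n).trans (h n)
  rw [div_pow, div_lt_div_iff₀ hξ (pow_pos hρ n)] at hn
  linarith

end hil

section digits

/-- many well separated points in a ball -/
theorem digits {k : Type*} [NormedField k] {c : k} (hc : 2 ≤ ‖c‖) (l : ℕ) :
    ∃ (ι : Type) (_ : Fintype ι) (f : ι → k), Fintype.card ι = 2 ^ l ∧
      (∀ i j, i ≠ j → 1 ≤ ‖f i - f j‖) ∧ ∀ i, ‖f i‖ ≤ ‖c‖ ^ l - 1 := by
  induction l with
  | zero =>
    refine ⟨Unit, inferInstance, fun _ => 0, by simp, fun i j h => (h rfl).elim, fun i => by simp⟩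
  | succ l ih =>
    obtain ⟨ι, _, f, h1, h2, h3⟩ := ih
    refine ⟨ι × Bool, inferInstance, fun p => (if p.2 then 1 else 0) + c * f p.1, ?_, ?_, ?_⟩
    · rw [Fintype.card_prod, h1, Fintype.card_bool, pow_succ]
    · rintro ⟨i, a⟩ ⟨j, b⟩ hij
      by_cases h : i = j
      · subst h
        have hab : a ≠ b := fun h => hij (by rw [h])
        cases a <;> cases b <;> simp at hab ⊢
      · have h4 := h2 i j h
        obtain ⟨e, he⟩ : ∃ e : k, e = (if a then 1 else 0) - (if b then 1 else 0) := ⟨_, rfl⟩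
        have he1 : ‖e‖ ≤ 1 := by
          rw [he]; cases a <;> cases b <;> simp
        have e1 : ((if a then 1 else 0) + c * f i) - ((if b then 1 else 0) + c * f j) =
            c * (f i - f j) - -e := by rw [he]; ring
        show 1 ≤ ‖((if a then 1 else 0) + c * f i) - ((if b then 1 else 0) + c * f j)‖
        rw [e1]
        have h5 := norm_sub_norm_le (c * (f i - f j)) (-e)
        rw [norm_mul, norm_neg] at h5
        nlinarith [norm_nonneg c]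
    · rintro ⟨i, a⟩
      have h4 := h3 i
      have h5 : ‖(if a then (1 : k) else 0)‖ ≤ 1 := by cases a <;> simp
      have h6 := norm_add_le (if a then (1 : k) else 0) (c * f i)
      rw [norm_mul] at h6
      show ‖(if a then 1 else 0) + c * f i‖ ≤ _
      rw [pow_succ]
      have h7 : ‖c‖ * ‖f i‖ ≤ ‖c‖ * (‖c‖ ^ l - 1) := by gcongr
      nlinarith [norm_nonneg c]

end digits

section transfer

variable {𝓗 : Type*} [NormedAddCommGroup 𝓗] [InnerProductSpace ℂ 𝓗]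

/-- **Transfer of decay**: if `η` does not see the difference of `w 0` and `w y` for small `y`, and
the `w y` are almost orthogonal at distances larger than `Γ⁻¹`, then `⟪η, w 0⟫` is small. -/
theorem transfer {k : Type*} [NormedField k] {c : k} (hc : 4 ≤ ‖c‖) {R C K : ℝ} (hC : 0 ≤ C)
    (hK : 0 ≤ K) {η : 𝓗} {w : k → 𝓗} (hη : ‖η‖ ≤ R) (hw : ∀ y, ‖w y‖ ≤ R)
    (h1 : ∀ y, ‖⟪η, w 0⟫_ℂ - ⟪η, w y⟫_ℂ‖ ≤ C * ‖y‖) {Γ : ℝ}
    (h2 : ∀ (n : ℕ) (y y' : k), y ≠ y' → ‖c‖ ^ n ≤ ‖y - y'‖ * Γ →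
      ‖⟪w y, w y'⟫_ℂ‖ ≤ K * (3 / 4) ^ n)
    (l : ℕ) (hl : (‖c‖ ^ 4) ^ l ≤ Γ) :
    ‖⟪η, w 0⟫_ℂ‖ ≤ (R * Real.sqrt (R ^ 2 + K) + C) * (3 / 4) ^ l := by
  have hR : 0 ≤ R := (norm_nonneg _).trans hη
  have hB : 0 < ‖c‖ := by linarith
  have hc0 : c ≠ 0 := norm_pos_iff.1 hB
  obtain ⟨ι, _, f, f1, f2, f3⟩ := digits (by linarith : (2 : ℝ) ≤ ‖c‖) l
  obtain ⟨s, hs⟩ : ∃ s : k, s = (c ^ (2 * l))⁻¹ := ⟨_, rfl⟩
  have hsn : ‖s‖ = (‖c‖ ^ (2 * l))⁻¹ := by rw [hs, norm_inv, norm_pow]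
  have hs0 : s ≠ 0 := by rw [hs]; exact inv_ne_zero (pow_ne_zero _ hc0)
  obtain ⟨v, hv⟩ : ∃ v, v = ∑ i, w (s * f i) := ⟨_, rfl⟩
  have hM : (0 : ℝ) < 2 ^ l := by positivity
  -- off-diagonal terms
  have hoff : ∀ i j, i ≠ j → ‖⟪w (s * f i), w (s * f j)⟫_ℂ‖ ≤ K * (3 / 4) ^ (2 * l) := by
    intro i j hij
    have h3 := f2 i j hij
    have hne : s * f i ≠ s * f j := by
      intro h
      have h4 : f i = f j := mul_left_cancel₀ hs0 h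
      rw [h4, sub_self, norm_zero] at h3
      linarith
    refine h2 (2 * l) _ _ hne ?_
    have e1 : s * f i - s * f j = s * (f i - f j) := by ring
    rw [e1, norm_mul, hsn]
    have hΓ : 0 ≤ Γ := le_trans (by positivity) hl
    have h5 : (‖c‖ ^ (2 * l))⁻¹ * 1 * (‖c‖ ^ 4) ^ l ≤
        (‖c‖ ^ (2 * l))⁻¹ * ‖f i - f j‖ * Γ := by gcongr
    refine le_trans (le_of_eq ?_) h5
    rw [← pow_mul, mul_one, show 4 * l = 2 * l + 2 * l by ring, pow_add]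
    field_simp
  have hb := bessel (η := fun i => w (s * f i)) (R := R) (e := K * (3 / 4) ^ (2 * l))
    (fun i => hw _) (by positivity) hoff
  rw [f1, ← hv] at hb
  push_cast at hb
  have hq : ((2 : ℝ) ^ l)⁻¹ ≤ (3 / 4) ^ (2 * l) := by
    rw [← inv_pow, pow_mul]
    exact pow_le_pow_left₀ (by norm_num) (by norm_num) l
  have hvn : ‖v‖ ≤ 2 ^ l * (Real.sqrt (R ^ 2 + K) * (3 / 4) ^ l) := by
    refine abs_le_of_sq_le_sq' ?_ (by positivity) |>.2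
    refine hb.trans ?_
    have h6 : (2 : ℝ) ^ l * R ^ 2 ≤ (2 ^ l) ^ 2 * ((3 / 4) ^ (2 * l) * R ^ 2) := by
      have : (2 : ℝ) ^ l * R ^ 2 = (2 ^ l) ^ 2 * ((2 ^ l)⁻¹ * R ^ 2) := by field_simp
      rw [this]
      gcongr
    have h7 : (2 ^ l * (Real.sqrt (R ^ 2 + K) * (3 / 4 : ℝ) ^ l)) ^ 2 =
        (2 ^ l) ^ 2 * ((3 / 4) ^ (2 * l) * R ^ 2) + (2 ^ l) ^ 2 * (K * (3 / 4) ^ (2 * l)) := by
      rw [mul_pow, mul_pow, Real.sq_sqrt (by positivity), ← pow_mul (3 / 4 : ℝ) l 2, mul_comm l 2]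
      ring
    rw [h7]
    linarith
  -- the average
  have hsum : ((2 : ℂ) ^ l) * ⟪η, w 0⟫_ℂ =
      ∑ i, (⟪η, w 0⟫_ℂ - ⟪η, w (s * f i)⟫_ℂ) + ⟪η, v⟫_ℂ := by
    rw [Finset.sum_sub_distrib, hv, inner_sum, sub_add_cancel, Finset.sum_const, Finset.card_univ,
      f1, nsmul_eq_mul]
    push_cast
    rfl
  have hy : ∀ i, C * ‖s * f i‖ ≤ C * (3 / 4) ^ l := by
    intro i
    refine mul_le_mul_of_nonneg_left ?_ hC
    rw [norm_mul, hsn]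
    have h8 : ‖f i‖ ≤ ‖c‖ ^ l := (f3 i).trans (by linarith)
    calc (‖c‖ ^ (2 * l))⁻¹ * ‖f i‖ ≤ (‖c‖ ^ (2 * l))⁻¹ * ‖c‖ ^ l := by gcongr
      _ = (‖c‖⁻¹) ^ l := by
          rw [show 2 * l = l + l by ring, pow_add, inv_pow]
          field_simp
      _ ≤ (3 / 4) ^ l := by
          refine pow_le_pow_left₀ (by positivity) ?_ l
          rw [inv_le_comm₀ hB (by norm_num)]
          linarith
  have hfin : 2 ^ l * ‖⟪η, w 0⟫_ℂ‖ ≤
      2 ^ l * (C * (3 / 4) ^ l) + R * (2 ^ l * (Real.sqrt (R ^ 2 + K) * (3 / 4) ^ l)) := by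
    have e2 : 2 ^ l * ‖⟪η, w 0⟫_ℂ‖ = ‖((2 : ℂ) ^ l) * ⟪η, w 0⟫_ℂ‖ := by
      rw [norm_mul, norm_pow]; simp
    rw [e2, hsum]
    refine (norm_add_le _ _).trans (add_le_add ?_ ?_)
    · refine (norm_sum_le _ _).trans ?_
      refine (Finset.sum_le_sum fun i _ => (h1 (s * f i)).trans (hy i)).trans (le_of_eq ?_)
      rw [Finset.sum_const, Finset.card_univ, f1, nsmul_eq_mul]
      push_cast
      rfl
    · refine (norm_inner_le_norm _ _).trans ?_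
      gcongr
  have h9 : 2 ^ l * ‖⟪η, w 0⟫_ℂ‖ ≤
      2 ^ l * ((R * Real.sqrt (R ^ 2 + K) + C) * (3 / 4) ^ l) := by
    refine hfin.trans (le_of_eq ?_)
    ring
  exact le_of_mul_le_mul_left h9 hM

end transfer

section walk

/-- a function which is multiplied by `β⁻¹` under scaling by `B` -/
structure Pot (B β : ℝ) (h : ℝ → ℝ) : Prop where
  pos : ∀ s, 0 < s → 0 < h s
  anti : ∀ s s', 0 < s → s ≤ s' → h s' ≤ h s
  scale : ∀ s, 0 < s → h (B * s) = β⁻¹ * h s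

theorem exists_pot {B β : ℝ} (hB : 1 < B) (hβ : 1 < β) : ∃ h, Pot B β h := by
  have hlB : 0 < Real.log B := Real.log_pos hB
  have hlβ : 0 < Real.log β := Real.log_pos hβ
  refine ⟨fun s => s ^ (-(Real.log β / Real.log B)), fun s hs => Real.rpow_pos_of_pos hs _,
    fun s s' hs hss => Real.rpow_le_rpow_of_nonpos hs hss (by
      rw [neg_nonpos]; positivity), fun s hs => ?_⟩
  show (B * s) ^ (-(Real.log β / Real.log B)) = β⁻¹ * s ^ (-(Real.log β / Real.log B))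
  rw [Real.mul_rpow (by linarith) hs.le]
  congr 1
  rw [Real.rpow_def_of_pos (by linarith), mul_neg, mul_div_cancel₀ _ hlB.ne', Real.exp_neg,
    Real.exp_log (by linarith)]

theorem Pot.pow {B β : ℝ} {h : ℝ → ℝ} (hh : Pot B β h) (hB : 0 < B) (hβ : 0 < β) (m : ℕ) {x y : ℝ}
    (hx : 0 < x) (hy : 0 < y) (hxy : y ≤ B ^ m * x) : h x ≤ β ^ m * h y := by
  have h1 : h (B ^ m * x) = (β⁻¹) ^ m * h x := by
    clear hxy
    induction m with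
    | zero => simp
    | succ m ih =>
      rw [pow_succ', mul_assoc, hh.scale _ (by positivity), ih, pow_succ', mul_assoc]
  have h2 := hh.anti _ _ hy hxy
  rw [h1] at h2
  calc h x = β ^ m * ((β⁻¹) ^ m * h x) := by
        rw [← mul_assoc, ← mul_pow, mul_inv_cancel₀ hβ.ne', one_pow, one_mul]
    _ ≤ β ^ m * h y := by gcongr

theorem Pot.pow' {B β : ℝ} {h : ℝ → ℝ} (hh : Pot B β h) (hB : 0 < B) (hβ : 0 < β) (m : ℕ)
    {x y : ℝ} (hx : 0 < x) (hxy : B ^ m * x ≤ y) : h y ≤ (β⁻¹) ^ m * h x := by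
  have h1 : h (B ^ m * x) = (β⁻¹) ^ m * h x := by
    clear hxy
    induction m with
    | zero => simp
    | succ m ih =>
      rw [pow_succ', mul_assoc, hh.scale _ (by positivity), ih, pow_succ', mul_assoc]
  rw [← h1]
  exact hh.anti _ _ (by positivity) hxy

/-- half of the random walk inequality -/
theorem rw_aux {k : Type*} [NormedField k] {c : k} (hc : 2 ≤ ‖c‖) (hc2 : 2 ≤ ‖c‖ * ‖(2 : k)‖)
    {h : ℝ → ℝ} (hh : Pot ‖c‖ (51 / 50) h) (a b : k) (ha : a ≠ 0) (hab : ‖b‖ ≤ ‖a‖) :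
    h (max ‖a + c ^ 20 * b‖ ‖b‖) + h (max ‖a + -(c ^ 20) * b‖ ‖b‖) +
      (h (max ‖a‖ ‖b + c ^ 20 * a‖) + h (max ‖a‖ ‖b + -(c ^ 20) * a‖)) ≤
      4 * (98 / 100) * h ‖a‖ := by
  have hB : 0 < ‖c‖ := by linarith
  have hN : 0 < ‖a‖ := norm_pos_iff.2 ha
  have hhN := hh.pos _ hN
  have ht : ‖c ^ 20‖ = ‖c‖ ^ 20 := norm_pow _ _
  have ht' : ‖-(c ^ 20)‖ = ‖c‖ ^ 20 := by rw [norm_neg, ht]
  -- the expanded directions
  have key1 : ∀ t : k, ‖t‖ = ‖c‖ ^ 20 → h (max ‖a‖ ‖b + t * a‖) ≤ ((51 / 50 : ℝ)⁻¹) ^ 19 * h ‖a‖ := by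
    intro t ht
    refine hh.pow' hB (by norm_num) 19 hN (le_trans ?_ (le_max_right _ _))
    have h1 := norm_sub_norm_le (t * a) (-b)
    rw [sub_neg_eq_add, norm_neg, norm_mul, ht, add_comm] at h1
    have h2 : (1 : ℝ) ≤ ‖c‖ ^ 19 := one_le_pow₀ (by linarith)
    have h3 : ‖c‖ ^ 20 = ‖c‖ * ‖c‖ ^ 19 := by ring
    have h4 : ‖c‖ ^ 19 * ‖a‖ + ‖a‖ ≤ ‖c‖ ^ 20 * ‖a‖ := by
      rw [h3]; nlinarith [mul_pos (pow_pos hB 19) hN]
    linarith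
  -- the bad directions
  have key2 : ∀ t : k, ‖t‖ = ‖c‖ ^ 20 → 0 < max ‖a + t * b‖ ‖b‖ ∧
      h (max ‖a + t * b‖ ‖b‖) ≤ (51 / 50 : ℝ) ^ 21 * h ‖a‖ := by
    intro t ht
    have h1 : ‖a‖ ≤ ‖a + t * b‖ + ‖c‖ ^ 20 * ‖b‖ := by
      have := norm_sub_le (a + t * b) (t * b)
      rw [add_sub_cancel_right, norm_mul, ht] at this
      exact this
    have h2 : ‖a‖ ≤ ‖c‖ ^ 21 * max ‖a + t * b‖ ‖b‖ := by
      have m1 := le_max_left ‖a + t * b‖ ‖b‖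
      have m2 := le_max_right ‖a + t * b‖ ‖b‖
      have m0 : 0 ≤ max ‖a + t * b‖ ‖b‖ := (norm_nonneg _).trans m1
      have h3 : ‖c‖ ^ 20 * ‖b‖ ≤ ‖c‖ ^ 20 * max ‖a + t * b‖ ‖b‖ := by gcongr
      have h4 : (1 : ℝ) ≤ ‖c‖ ^ 20 := one_le_pow₀ (by linarith)
      have h5 : ‖c‖ ^ 21 = ‖c‖ * ‖c‖ ^ 20 := by ring
      have h6 : max ‖a + t * b‖ ‖b‖ ≤ ‖c‖ ^ 20 * max ‖a + t * b‖ ‖b‖ := by nlinarith
      rw [h5]
      nlinarith [mul_nonneg (pow_pos hB 20).le m0]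
    have h7 : 0 < max ‖a + t * b‖ ‖b‖ := by
      by_contra hcon
      push Not at hcon
      have : ‖c‖ ^ 21 * max ‖a + t * b‖ ‖b‖ ≤ 0 := mul_nonpos_of_nonneg_of_nonpos (by positivity) hcon
      linarith
    exact ⟨h7, hh.pow hB (by norm_num) 21 h7 hN h2⟩
  -- one of the two bad directions is not too bad
  have key3 : h (max ‖a + c ^ 20 * b‖ ‖b‖) ≤ (51 / 50 : ℝ) ^ 1 * h ‖a‖ ∨
      h (max ‖a + -(c ^ 20) * b‖ ‖b‖) ≤ (51 / 50 : ℝ) ^ 1 * h ‖a‖ := by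
    have h1 : ‖(2 : k)‖ * ‖a‖ ≤ ‖a + c ^ 20 * b‖ + ‖a + -(c ^ 20) * b‖ := by
      rw [← norm_mul]
      have := norm_add_le (a + c ^ 20 * b) (a + -(c ^ 20) * b)
      refine le_trans (le_of_eq ?_) this
      congr 1; ring
    have h2 : ‖a‖ ≤ ‖c‖ ^ 1 * max ‖a + c ^ 20 * b‖ ‖b‖ ∨
        ‖a‖ ≤ ‖c‖ ^ 1 * max ‖a + -(c ^ 20) * b‖ ‖b‖ := by
      by_contra hcon
      push Not at hcon
      obtain ⟨g1, g2⟩ := hcon
      have g3 : ‖c‖ * ‖a + c ^ 20 * b‖ < ‖a‖ := by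
        refine lt_of_le_of_lt ?_ g1
        rw [pow_one]
        exact mul_le_mul_of_nonneg_left (le_max_left _ _) hB.le
      have g4 : ‖c‖ * ‖a + -(c ^ 20) * b‖ < ‖a‖ := by
        refine lt_of_le_of_lt ?_ g2
        rw [pow_one]
        exact mul_le_mul_of_nonneg_left (le_max_left _ _) hB.le
      have g5 : ‖c‖ * (‖(2 : k)‖ * ‖a‖) ≤
          ‖c‖ * (‖a + c ^ 20 * b‖ + ‖a + -(c ^ 20) * b‖) := by gcongr
      nlinarith
    rcases h2 with h2 | h2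
    · exact Or.inl (hh.pow hB (by norm_num) 1 (key2 _ ht).1 hN h2)
    · exact Or.inr (hh.pow hB (by norm_num) 1 (key2 _ ht').1 hN h2)
  have e1 := key1 _ ht
  have e2 := key1 _ ht'
  have e3 := (key2 _ ht).2
  have e4 := (key2 _ ht').2
  have hnum : 2 * ((51 / 50 : ℝ)⁻¹) ^ 19 + (51 / 50) ^ 21 + (51 / 50) ^ 1 ≤ 4 * (98 / 100) := by
    norm_num
  have hfin : (2 * ((51 / 50 : ℝ)⁻¹) ^ 19 + (51 / 50) ^ 21 + (51 / 50) ^ 1) * h ‖a‖ ≤
      4 * (98 / 100) * h ‖a‖ := by gcongr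
  rcases key3 with h5 | h5
  · linarith
  · linarith

/-- **The random walk inequality.** -/
theorem rw_ineq {k : Type*} [NormedField k] {c : k} (hc : 2 ≤ ‖c‖) (hc2 : 2 ≤ ‖c‖ * ‖(2 : k)‖)
    {h : ℝ → ℝ} (hh : Pot ‖c‖ (51 / 50) h) (a b : k) (hab : ¬ (a = 0 ∧ b = 0)) :
    h (max ‖a + c ^ 20 * b‖ ‖b‖) + h (max ‖a + -(c ^ 20) * b‖ ‖b‖) +
      (h (max ‖a‖ ‖b + c ^ 20 * a‖) + h (max ‖a‖ ‖b + -(c ^ 20) * a‖)) ≤
      4 * (98 / 100) * h (max ‖a‖ ‖b‖) := by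
  rcases le_total ‖b‖ ‖a‖ with h1 | h1
  · have ha : a ≠ 0 := by
      rintro rfl
      rw [norm_zero] at h1
      exact hab ⟨rfl, norm_le_zero_iff.1 h1⟩
    rw [max_eq_left h1]
    exact rw_aux hc hc2 hh a b ha h1
  · have hb : b ≠ 0 := by
      rintro rfl
      rw [norm_zero] at h1
      exact hab ⟨norm_le_zero_iff.1 h1, rfl⟩
    rw [max_eq_right h1]
    have := rw_aux hc hc2 hh b a hb h1
    rw [max_comm ‖b + c ^ 20 * a‖, max_comm ‖b + -(c ^ 20) * a‖, max_comm ‖b‖, max_comm ‖b‖] at this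
    linarith

end walk

end Vale.Agent.P092.H956
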