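import Vale.Agent.P092.H956.SpG1
import Vale.Agent.P092.H933.GLGap2

/-!
P092 (helper956), Team P, block [P-GAP], part 2: polynomial decay of the matrix coefficients of
`SL₂(k)` on a total set of vectors gives a spectral gap for an average of four shears.
-/

set_option linter.all false

namespace Vale.Agent.P092.H956

open Filter Topology Vale.Agent.P092.H933 Matrix

open scoped InnerProductSpace

section mat

variable {k : Type} [NormedField k]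

/-- upper shears -/
def up (t : k) : SpecialLinearGroup (Fin 2) k := ⟨!![1, t; 0, 1], by simp [Matrix.det_fin_two]⟩

/-- lower shears -/
def lo (t : k) : SpecialLinearGroup (Fin 2) k := ⟨!![1, 0; t, 1], by simp [Matrix.det_fin_two]⟩

theorem up_inv (t : k) : (up t)⁻¹ = up (-t) := by
  rw [inv_eq_iff_mul_eq_one]
  refine Subtype.ext ?_
  rw [Matrix.SpecialLinearGroup.coe_mul, Matrix.SpecialLinearGroup.coe_one]
  ext i j
  fin_cases i <;> fin_cases j <;> simp [up, Matrix.mul_apply, Fin.sum_univ_two]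

theorem lo_inv (t : k) : (lo t)⁻¹ = lo (-t) := by
  rw [inv_eq_iff_mul_eq_one]
  refine Subtype.ext ?_
  rw [Matrix.SpecialLinearGroup.coe_mul, Matrix.SpecialLinearGroup.coe_one]
  ext i j
  fin_cases i <;> fin_cases j <;> simp [lo, Matrix.mul_apply, Fin.sum_univ_two]

/-- the four shears -/
def sh4 (c : k) : Fin 4 → SpecialLinearGroup (Fin 2) k :=
  ![up (c ^ 20), up (-(c ^ 20)), lo (c ^ 20), lo (-(c ^ 20))]

/-- maximal entry -/
noncomputable def nrm (A : SpecialLinearGroup (Fin 2) k) : ℝ :=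
  max (max ‖A.1 0 0‖ ‖A.1 1 0‖) (max ‖A.1 0 1‖ ‖A.1 1 1‖)

/-- the norm of the first column -/
noncomputable def cl1 (A : SpecialLinearGroup (Fin 2) k) : ℝ := max ‖A.1 0 0‖ ‖A.1 1 0‖

theorem cl1_le (A : SpecialLinearGroup (Fin 2) k) : cl1 A ≤ nrm A := le_max_left _ _

theorem cl1_ne (A : SpecialLinearGroup (Fin 2) k) : ¬ (A.1 0 0 = 0 ∧ A.1 1 0 = 0) := by
  rintro ⟨h1, h2⟩
  have h3 := A.2
  rw [Matrix.det_fin_two, h1, h2, zero_mul, mul_zero, sub_zero] at h3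
  exact zero_ne_one h3

theorem cl1_pos (A : SpecialLinearGroup (Fin 2) k) : 0 < cl1 A := by
  unfold cl1
  by_contra hcon
  push Not at hcon
  refine cl1_ne A ⟨?_, ?_⟩
  · exact norm_le_zero_iff.1 ((le_max_left _ _).trans hcon)
  · exact norm_le_zero_iff.1 ((le_max_right _ _).trans hcon)

theorem cl1_up (t : k) (A : SpecialLinearGroup (Fin 2) k) :
    cl1 (up t * A) = max ‖A.1 0 0 + t * A.1 1 0‖ ‖A.1 1 0‖ := by
  unfold cl1
  rw [Matrix.SpecialLinearGroup.coe_mul]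
  simp [up, Matrix.mul_apply, Fin.sum_univ_two]

theorem cl1_lo (t : k) (A : SpecialLinearGroup (Fin 2) k) :
    cl1 (lo t * A) = max ‖A.1 0 0‖ ‖A.1 1 0 + t * A.1 0 0‖ := by
  unfold cl1
  rw [Matrix.SpecialLinearGroup.coe_mul]
  simp [lo, Matrix.mul_apply, Fin.sum_univ_two, add_comm]

theorem cl1_one : cl1 (1 : SpecialLinearGroup (Fin 2) k) = 1 := by
  unfold cl1
  rw [Matrix.SpecialLinearGroup.coe_one]
  simp

/-- the random walk inequality in terms of matrices -/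
theorem rw_mat {c : k} (hc : 2 ≤ ‖c‖) (hc2 : 2 ≤ ‖c‖ * ‖(2 : k)‖)
    {h : ℝ → ℝ} (hh : Pot ‖c‖ (51 / 50) h) (A : SpecialLinearGroup (Fin 2) k) :
    ∑ i, h (cl1 (sh4 c i * A)) ≤ 4 * (98 / 100) * h (cl1 A) := by
  rw [Fin.sum_univ_four]
  have e0 : sh4 c 0 = up (c ^ 20) := rfl
  have e1 : sh4 c 1 = up (-(c ^ 20)) := rfl
  have e2 : sh4 c 2 = lo (c ^ 20) := rfl
  have e3 : sh4 c 3 = lo (-(c ^ 20)) := rfl
  rw [e0, e1, e2, e3, cl1_up, cl1_up, cl1_lo, cl1_lo]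
  have := rw_ineq hc hc2 hh (A.1 0 0) (A.1 1 0) (cl1_ne A)
  unfold cl1
  linarith

end mat

section core

variable {E : Type*} [Group E] [TopologicalSpace E] {k : Type} [NormedField k]
  {𝓗 : Type*} [NormedAddCommGroup 𝓗] [InnerProductSpace ℂ 𝓗]
  {σ : E →* (𝓗 →L[ℂ] 𝓗)}

/-- the average of the four shears -/
noncomputable def avg (τ : SpecialLinearGroup (Fin 2) k →* E) (σ : E →* (𝓗 →L[ℂ] 𝓗)) (c : k) :
    𝓗 →L[ℂ] 𝓗 := (4 : ℂ)⁻¹ • ∑ i, σ (τ (sh4 c i))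

theorem avg_apply (τ : SpecialLinearGroup (Fin 2) k →* E) (c : k) (v : 𝓗) :
    avg τ σ c v = (4 : ℂ)⁻¹ • ∑ i, σ (τ (sh4 c i)) v := by
  unfold avg
  rw [ContinuousLinearMap.smul_apply, ContinuousLinearMap.sum_apply]

theorem avg_symm (hσ : URep σ) (τ : SpecialLinearGroup (Fin 2) k →* E) (c : k) (x y : 𝓗) :
    ⟪avg τ σ c x, y⟫_ℂ = ⟪x, avg τ σ c y⟫_ℂ := by
  have h1 : ∀ g x y, ⟪σ (τ g) x, y⟫_ℂ = ⟪x, σ (τ g⁻¹) y⟫_ℂ := by
    intro g x y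
    rw [hσ.inner_left, map_inv τ]
  have h4 : (starRingEnd ℂ) ((4 : ℂ)⁻¹) = (4 : ℂ)⁻¹ := by
    rw [map_inv₀, map_ofNat]
  rw [avg_apply, avg_apply, inner_smul_left, inner_smul_right, sum_inner, inner_sum, h4]
  congr 1
  rw [Fin.sum_univ_four, Fin.sum_univ_four]
  have e0 : sh4 c 0 = up (c ^ 20) := rfl
  have e1 : sh4 c 1 = up (-(c ^ 20)) := rfl
  have e2 : sh4 c 2 = lo (c ^ 20) := rfl
  have e3 : sh4 c 3 = lo (-(c ^ 20)) := rfl
  rw [e0, e1, e2, e3, h1, h1, h1, h1, up_inv, up_inv, lo_inv, lo_inv, neg_neg]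
  ring

/-- decay of the coefficient of one vector -/
def Dec (τ : SpecialLinearGroup (Fin 2) k →* E) (σ : E →* (𝓗 →L[ℂ] 𝓗)) (B : ℝ) (ξ : 𝓗) : Prop :=
  ∃ K : ℝ, ∀ (A : SpecialLinearGroup (Fin 2) k) (l : ℕ), B ^ l ≤ nrm A →
    ‖⟪σ (τ A) ξ, ξ⟫_ℂ‖ ≤ K * (3 / 4) ^ l

theorem dec_pot (hσ : URep σ) {τ : SpecialLinearGroup (Fin 2) k →* E} {B : ℝ} (hB : 1 < B)
    {h : ℝ → ℝ} (hh : Pot B (51 / 50) h) {ξ : 𝓗} (hξ : Dec τ σ B ξ) :
    ∃ K : ℝ, 0 ≤ K ∧ ∀ A, ‖⟪σ (τ A) ξ, ξ⟫_ℂ‖ ≤ K * h (cl1 A) := by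
  obtain ⟨K, hK⟩ := hξ
  have h1 := hh.pos 1 one_pos
  refine ⟨(|K| * (51 / 50) + ‖ξ‖ ^ 2) / h 1, by positivity, fun A => ?_⟩
  have hpos := cl1_pos A
  have hhA := hh.pos _ hpos
  rw [div_mul_eq_mul_div, le_div_iff₀ h1]
  rcases le_or_gt 1 (nrm A) with hG | hG
  · obtain ⟨l, hl1, hl2⟩ := exists_nat_pow_near hG hB
    have e1 := hK A l hl1
    have e2 : h 1 ≤ (51 / 50) ^ (l + 1) * h (cl1 A) := by
      refine hh.pow (by linarith) (by norm_num) (l + 1) one_pos hpos ?_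
      rw [mul_one]
      exact (cl1_le A).trans hl2.le
    have e3 : ‖⟪σ (τ A) ξ, ξ⟫_ℂ‖ ≤ |K| * (3 / 4) ^ l :=
      e1.trans (mul_le_mul_of_nonneg_right (le_abs_self K) (by positivity))
    calc ‖⟪σ (τ A) ξ, ξ⟫_ℂ‖ * h 1 ≤ (|K| * (3 / 4) ^ l) * ((51 / 50) ^ (l + 1) * h (cl1 A)) := by
          gcongr
      _ = |K| * (51 / 50) * ((3 / 4) * (51 / 50)) ^ l * h (cl1 A) := by
          rw [mul_pow]; ring
      _ ≤ |K| * (51 / 50) * 1 * h (cl1 A) := by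
          gcongr
          exact pow_le_one₀ (by norm_num) (by norm_num)
      _ ≤ (|K| * (51 / 50) + ‖ξ‖ ^ 2) * h (cl1 A) := by
          gcongr
          nlinarith [sq_nonneg ‖ξ‖]
  · have e2 : h 1 ≤ h (cl1 A) := hh.anti _ _ hpos ((cl1_le A).trans hG.le)
    have e3 : ‖⟪σ (τ A) ξ, ξ⟫_ℂ‖ ≤ ‖ξ‖ ^ 2 := by
      refine (norm_inner_le_norm _ _).trans ?_
      rw [hσ.iso, sq]
    calc ‖⟪σ (τ A) ξ, ξ⟫_ℂ‖ * h 1 ≤ ‖ξ‖ ^ 2 * h (cl1 A) := by gcongr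
      _ ≤ (|K| * (51 / 50) + ‖ξ‖ ^ 2) * h (cl1 A) := by
          gcongr
          have : 0 ≤ |K| * (51 / 50) := by positivity
          linarith

/-- **Contraction of one good vector.** -/
theorem contr (hσ : URep σ) {τ : SpecialLinearGroup (Fin 2) k →* E} {c : k} (hc : 2 ≤ ‖c‖)
    (hc2 : 2 ≤ ‖c‖ * ‖(2 : k)‖) {ξ : 𝓗} (hξ : Dec τ σ ‖c‖ ξ) :
    ∃ C : ℝ, ∀ n : ℕ, ‖((avg τ σ c) ^ n) ξ‖ ≤ C * (98 / 100) ^ n := by
  obtain ⟨h, hh⟩ := exists_pot (B := ‖c‖) (β := 51 / 50) (by linarith) (by norm_num)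
  obtain ⟨K, hK0, hK⟩ := dec_pot hσ (by linarith) hh hξ
  obtain ⟨T, hT⟩ : ∃ T, T = avg τ σ c := ⟨_, rfl⟩
  have hsym : ∀ x y, ⟪T x, y⟫_ℂ = ⟪x, T y⟫_ℂ := by
    rw [hT]; exact avg_symm hσ τ c
  have hstep : ∀ n A, ‖⟪(T ^ n) (σ (τ A) ξ), ξ⟫_ℂ‖ ≤ K * (98 / 100) ^ n * h (cl1 A) := by
    intro n
    induction n with
    | zero =>
      intro A
      rw [pow_zero, pow_zero, mul_one]
      exact hK A
    | succ n ih =>
      intro A
      have e1 : (T ^ (n + 1)) (σ (τ A) ξ) =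
          (4 : ℂ)⁻¹ • ∑ i, (T ^ n) (σ (τ (sh4 c i * A)) ξ) := by
        rw [pow_succ]
        show (T ^ n) (T (σ (τ A) ξ)) = _
        rw [hT, avg_apply, map_smul, map_sum]
        simp only [map_mul τ, URep.mul_apply]
      rw [e1, inner_smul_left, sum_inner, norm_mul, RCLike.norm_conj]
      have h4 : ‖(4 : ℂ)⁻¹‖ = 4⁻¹ := by rw [norm_inv]; simp
      rw [h4]
      have e2 : ‖∑ i, ⟪(T ^ n) (σ (τ (sh4 c i * A)) ξ), ξ⟫_ℂ‖ ≤
          K * (98 / 100) ^ n * (4 * (98 / 100) * h (cl1 A)) := by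
        refine (norm_sum_le _ _).trans ((Finset.sum_le_sum fun i _ => ih _).trans ?_)
        rw [← Finset.mul_sum]
        exact mul_le_mul_of_nonneg_left (rw_mat hc hc2 hh A) (by positivity)
      calc 4⁻¹ * _ ≤ 4⁻¹ * (K * (98 / 100) ^ n * (4 * (98 / 100) * h (cl1 A))) := by gcongr
        _ = _ := by rw [pow_succ]; ring
  have hsymn : ∀ n x y, ⟪(T ^ n) x, y⟫_ℂ = ⟪x, (T ^ n) y⟫_ℂ := by
    intro n
    induction n with
    | zero => intro x y; rw [pow_zero]; rfl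
    | succ n ih =>
      intro x y
      have e1 : (T ^ (n + 1)) x = T ((T ^ n) x) := by rw [pow_succ']; rfl
      have e2 : (T ^ (n + 1)) y = (T ^ n) (T y) := by rw [pow_succ]; rfl
      rw [e1, e2, hsym, ih]
  refine ⟨Real.sqrt (K * h 1), fun n => ?_⟩
  rw [← hT]
  have h1 := hh.pos 1 one_pos
  refine abs_le_of_sq_le_sq' ?_ (by positivity) |>.2
  have e1 : ‖(T ^ n) ξ‖ ^ 2 = ‖⟪(T ^ (2 * n)) (σ (τ 1) ξ), ξ⟫_ℂ‖ := by
    rw [map_one, URep.one_apply, two_mul, pow_add]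
    show _ = ‖⟪(T ^ n) ((T ^ n) ξ), ξ⟫_ℂ‖
    rw [hsymn, inner_self_eq_norm_sq_to_K, norm_pow]
    simp
  rw [e1, mul_pow, Real.sq_sqrt (by positivity)]
  have e2 := hstep (2 * n) 1
  rw [cl1_one] at e2
  refine e2.trans (le_of_eq ?_)
  rw [← pow_mul, mul_comm 2 n]
  ring

/-- **The gap from decay of coefficients on a total set.** -/
theorem gap_core (hσ : URep σ) {τ : SpecialLinearGroup (Fin 2) k →* E} {c : k} (hc : 2 ≤ ‖c‖)
    (hc2 : 2 ≤ ‖c‖ * ‖(2 : k)‖) {D : Set 𝓗} (hD : ∀ ξ ∈ D, Dec τ σ ‖c‖ ξ) {v : 𝓗}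
    (hv : v ∈ (Submodule.span ℂ D).topologicalClosure) :
    ‖avg τ σ c v‖ ≤ (98 / 100) * ‖v‖ := by
  obtain ⟨T, hT⟩ : ∃ T, T = avg τ σ c := ⟨_, rfl⟩
  rw [← hT]
  have hsym : ∀ x y, ⟪T x, y⟫_ℂ = ⟪x, T y⟫_ℂ := by
    rw [hT]; exact avg_symm hσ τ c
  let S : Submodule ℂ 𝓗 :=
    { carrier := {ξ | ∃ C : ℝ, ∀ n : ℕ, ‖(T ^ n) ξ‖ ≤ C * (98 / 100) ^ n}
      add_mem' := by
        rintro a b ⟨C, hC⟩ ⟨C', hC'⟩
        refine ⟨C + C', fun n => ?_⟩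
        rw [map_add, add_mul]
        exact (norm_add_le _ _).trans (add_le_add (hC n) (hC' n))
      zero_mem' := ⟨0, fun n => by simp⟩
      smul_mem' := by
        rintro a x ⟨C, hC⟩
        refine ⟨‖a‖ * C, fun n => ?_⟩
        rw [map_smul, norm_smul, mul_assoc]
        exact mul_le_mul_of_nonneg_left (hC n) (norm_nonneg _) }
  have hS : Submodule.span ℂ D ≤ S := by
    rw [Submodule.span_le]
    intro ξ hξ
    show ∃ C : ℝ, ∀ n : ℕ, ‖(T ^ n) ξ‖ ≤ C * (98 / 100) ^ n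
    rw [hT]
    exact contr hσ hc hc2 (hD ξ hξ)
  have hcl : IsClosed {x : 𝓗 | ‖T x‖ ≤ (98 / 100) * ‖x‖} :=
    isClosed_le T.continuous.norm (continuous_const.mul continuous_norm)
  have hsub : (Submodule.span ℂ D : Set 𝓗) ⊆ {x : 𝓗 | ‖T x‖ ≤ (98 / 100) * ‖x‖} := by
    intro x hx
    obtain ⟨C, hC⟩ := hS hx
    exact iter_le hsym (by norm_num) hC
  have := closure_minimal hsub hcl
  exact this (by rw [← Submodule.topologicalClosure_coe]; exact hv)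

end core

section gap

/-- a uniform finite contraction by elements commuting with `a` gives the gap -/
theorem leviGap_of {E : Type} [Group E] [TopologicalSpace E] {a : E} {ι₀ : Type} [Fintype ι₀]
    [Nonempty ι₀] {w₀ : ι₀ → E} (hw₀ : ∀ i, Commute (w₀ i) a) {q : ℝ} (hq : 0 ≤ q) (hq1 : q < 1)
    (h : ∀ (𝓗 : Type) [NormedAddCommGroup 𝓗] [InnerProductSpace ℂ 𝓗] [CompleteSpace 𝓗]
      (σ : E →* (𝓗 →L[ℂ] 𝓗)), URep σ → ∀ v : 𝓗, (∀ η ∈ fixedSub σ, ⟪η, v⟫_ℂ = 0) →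
        ‖((Fintype.card ι₀ : ℝ))⁻¹ • ∑ i, σ (w₀ i) v‖ ≤ q * ‖v‖) : LeviGap a := by
  intro 𝓗 _ _ _ σ hσ e he
  obtain ⟨m, hm⟩ := exists_pow_lt_of_lt_one he hq1
  obtain ⟨ι, _, _, w, hw, hw'⟩ := H252.words.{0} (S := Subgroup.centralizer {a}) (w₀ := w₀)
    (fun i => Subgroup.mem_centralizer_singleton_iff.2 (hw₀ i)) hq m
  refine ⟨Fintype.card ι, Fintype.card_pos, fun i => w ((Fintype.equivFin ι).symm i), fun i => ?_,
    fun v hv => ?_⟩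
  · exact Subgroup.mem_centralizer_singleton_iff.1 (hw _)
  · have h1 := hw' 𝓗 σ hσ (h 𝓗 σ hσ) v hv
    rw [Equiv.sum_comp (Fintype.equivFin ι).symm fun a => σ (w a) v]
    rw [← Complex.coe_smul] at h1
    push_cast at h1
    exact h1.trans (mul_le_mul_of_nonneg_right hm.le (norm_nonneg _))

/-- the gap passes to quotients -/
theorem _root_.Vale.Agent.P092.H933.LeviGap.map {E E' : Type} [Group E] [TopologicalSpace E]
    [Group E'] [TopologicalSpace E'] {a : E} (h : LeviGap a) (ι : E →* E') (hc : Continuous ι)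
    (hs : Function.Surjective ι) : LeviGap (ι a) := by
  intro 𝓗 _ _ _ σ hσ e he
  obtain ⟨p, hp, l, hl, hl'⟩ := h 𝓗 (σ.comp ι) (hσ.comp ι hc.continuousAt) e he
  refine ⟨p, hp, fun i => ι (l i), fun i => (hl i).map ι, fun v hv => ?_⟩
  refine hl' v fun η hη => hv η fun g => ?_
  obtain ⟨g', rfl⟩ := hs g
  exact hη g'

end gap

end Vale.Agent.P092.H956
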